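import Crest.Agent.R096.Ce2_537

/-!
# Row 212, layer T: a small calculus for `PLOn` / `LocPL` (sums, lattice operations, tuples)
-/

open Set Filter Topology Metric

namespace Crest.Agent.X212.Lad50

open Crest.Agent.R096.Ce_537

variable {E F G : Type*} [NormedAddCommGroup E] [NormedSpace ℝ E]
  [NormedAddCommGroup F] [NormedSpace ℝ F] [NormedAddCommGroup G] [NormedSpace ℝ G] {K : Set E}

lemma pl_prod {f : E → F} {g : E → G} (hf : PLOn f K) (hg : PLOn g K) :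
    PLOn (fun x => (f x, g x)) K := by
  classical
  obtain ⟨c1, S, h1⟩ := hf
  obtain ⟨c2, T, h2⟩ := hg
  refine ⟨c1.prodMk c2, (S ×ˢ T).image fun p => p.1.prod p.2, fun x hx => ?_⟩
  obtain ⟨a, ha, e1⟩ := h1 x hx
  obtain ⟨b, hb, e2⟩ := h2 x hx
  exact ⟨a.prod b, Finset.mem_image.2 ⟨(a, b), Finset.mem_product.2 ⟨ha, hb⟩, rfl⟩,
    by simp [e1, e2]⟩

lemma pl_clm (A : E →L[ℝ] F) (K : Set E) : PLOn (fun x => A x) K :=
  ⟨A.continuous.continuousOn, {A.toLinearMap.toAffineMap}, fun _ _ =>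
    ⟨_, Finset.mem_singleton_self _, rfl⟩⟩

lemma pl_map (A : F →L[ℝ] G) {f : E → F} (hf : PLOn f K) : PLOn (fun x => A (f x)) K :=
  (pl_clm A univ).comp hf (mapsTo_univ _ _)

lemma pl_add {f g : E → F} (hf : PLOn f K) (hg : PLOn g K) : PLOn (fun x => f x + g x) K :=
  pl_map (ContinuousLinearMap.fst ℝ F F + ContinuousLinearMap.snd ℝ F F) (pl_prod hf hg)

lemma pl_sub {f g : E → F} (hf : PLOn f K) (hg : PLOn g K) : PLOn (fun x => f x - g x) K :=
  pl_map (ContinuousLinearMap.fst ℝ F F - ContinuousLinearMap.snd ℝ F F) (pl_prod hf hg)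

lemma pl_neg {f : E → F} (hf : PLOn f K) : PLOn (fun x => -f x) K :=
  pl_map (-ContinuousLinearMap.id ℝ F) hf

lemma pl_smul (c : ℝ) {f : E → F} (hf : PLOn f K) : PLOn (fun x => c • f x) K :=
  pl_map (c • ContinuousLinearMap.id ℝ F) hf

lemma pl_mul (c : ℝ) {f : E → ℝ} (hf : PLOn f K) : PLOn (fun x => c * f x) K := pl_smul c hf

lemma pl_smul_const {f : E → ℝ} (hf : PLOn f K) (v : F) : PLOn (fun x => f x • v) K :=
  pl_map ((ContinuousLinearMap.id ℝ ℝ).smulRight v) hf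

lemma pl_fst {f : E → F × G} (hf : PLOn f K) : PLOn (fun x => (f x).1) K :=
  pl_map (ContinuousLinearMap.fst ℝ F G) hf

lemma pl_snd {f : E → F × G} (hf : PLOn f K) : PLOn (fun x => (f x).2) K :=
  pl_map (ContinuousLinearMap.snd ℝ F G) hf

lemma pl_of_sel {f g h : E → F} (hf : PLOn f K) (hg : PLOn g K) (hc : ContinuousOn h K)
    (hs : ∀ x ∈ K, h x = f x ∨ h x = g x) : PLOn h K := by
  classical
  obtain ⟨-, S, h1⟩ := hf
  obtain ⟨-, T, h2⟩ := hg
  refine ⟨hc, S ∪ T, fun x hx => ?_⟩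
  rcases hs x hx with e | e
  · obtain ⟨a, ha, e1⟩ := h1 x hx
    exact ⟨a, Finset.mem_union_left _ ha, e.trans e1⟩
  · obtain ⟨a, ha, e1⟩ := h2 x hx
    exact ⟨a, Finset.mem_union_right _ ha, e.trans e1⟩

lemma pl_max {f g : E → ℝ} (hf : PLOn f K) (hg : PLOn g K) : PLOn (fun x => max (f x) (g x)) K :=
  pl_of_sel hf hg (hf.1.sup hg.1) fun x _ => max_choice (f x) (g x)

lemma pl_min {f g : E → ℝ} (hf : PLOn f K) (hg : PLOn g K) : PLOn (fun x => min (f x) (g x)) K :=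
  pl_of_sel hf hg (hf.1.inf hg.1) fun x _ => min_choice (f x) (g x)

lemma pl_abs {f : E → ℝ} (hf : PLOn f K) : PLOn (fun x => |f x|) K :=
  pl_of_sel hf (pl_neg hf) hf.1.abs fun x _ => abs_choice (f x)

lemma pl_sum {ι : Type*} (s : Finset ι) {f : ι → E → F} (hf : ∀ i ∈ s, PLOn (f i) K) :
    PLOn (fun x => ∑ i ∈ s, f i x) K := by
  classical
  induction s using Finset.induction_on with
  | empty => simpa using plOn_const (0 : F) K
  | insert a s ha ih =>
    simp only [Finset.sum_insert ha]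
    exact pl_add (hf a (Finset.mem_insert_self _ _))
      (ih fun i hi => hf i (Finset.mem_insert_of_mem hi))

lemma pl_apply {ι : Type*} [Fintype ι] {f : E → ι → ℝ} (hf : PLOn f K) (i : ι) :
    PLOn (fun x => f x i) K :=
  pl_map (ContinuousLinearMap.proj (R := ℝ) (φ := fun _ : ι => ℝ) i) hf

lemma pl_coord {ι : Type*} [Fintype ι] (i : ι) (K : Set (ι → ℝ)) : PLOn (fun x => x i) K :=
  pl_apply (plOn_id K) i

lemma pl_pi {ι : Type*} [Fintype ι] {f : E → ι → ℝ} (hf : ∀ i, PLOn (fun x => f x i) K) :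
    PLOn f K := by
  classical
  refine (pl_sum Finset.univ fun i _ => pl_smul_const (hf i) (Pi.single i (1 : ℝ) : ι → ℝ)).congr
    fun x _ => ?_
  funext j
  simp [Finset.sum_apply, Pi.single_apply]

lemma pl_vec2 {f g : E → ℝ} (hf : PLOn f K) (hg : PLOn g K) : PLOn (fun x => ![f x, g x]) K :=
  pl_pi fun i => by fin_cases i <;> simpa

lemma pl_vec3 {f g h : E → ℝ} (hf : PLOn f K) (hg : PLOn g K) (hh : PLOn h K) :
    PLOn (fun x => ![f x, g x, h x]) K :=
  pl_pi fun i => by fin_cases i <;> simpa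

lemma pl_norm {ι : Type*} [Fintype ι] {f : E → ι → ℝ} (hf : PLOn f K) :
    PLOn (fun x => ‖f x‖) K := by
  classical
  have h : ∀ s : Finset ι, PLOn (fun x => ((s.sup fun i => ‖f x i‖₊ : NNReal) : ℝ)) K := by
    intro s
    induction s using Finset.induction_on with
    | empty => simpa using plOn_const (0 : ℝ) K
    | insert a s _ ih =>
      simp only [Finset.sup_insert, NNReal.coe_max, coe_nnnorm, Real.norm_eq_abs]
      exact pl_max (pl_abs (pl_apply hf a)) ih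
  exact h Finset.univ

/-! ### locally PL maps -/

lemma locPL_of_nhds {f : E → F} {Ω : Set E} (h : ∀ x ∈ Ω, ∃ N ∈ 𝓝 x, PLOn f N) : LocPL f Ω := by
  intro x hx
  obtain ⟨N, hN, h⟩ := h x hx
  obtain ⟨r, hr, hb⟩ := Metric.mem_nhds_iff.1 hN
  exact ⟨r, hr, h.mono hb⟩

lemma locPL_of_plOn {f : E → F} (h : PLOn f univ) (Ω : Set E) : LocPL f Ω :=
  fun _ _ => ⟨1, one_pos, h.mono (subset_univ _)⟩

lemma locPL_mono {f : E → F} {Ω Ω' : Set E} (h : LocPL f Ω) (hs : Ω' ⊆ Ω) : LocPL f Ω' :=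
  fun x hx => h x (hs hx)

lemma locPL_continuousAt {f : E → F} {Ω : Set E} (h : LocPL f Ω) {x : E} (hx : x ∈ Ω) :
    ContinuousAt f x := by
  obtain ⟨r, hr, h⟩ := h x hx
  exact h.1.continuousAt (ball_mem_nhds x hr)

lemma locPL_comp {f : E → F} {g : F → G} {Ω : Set E} {Λ : Set F} (hg : LocPL g Λ)
    (hf : LocPL f Ω) (hm : MapsTo f Ω Λ) : LocPL (fun x => g (f x)) Ω := by
  refine locPL_of_nhds fun x hx => ?_
  obtain ⟨s, hs, h2⟩ := hg _ (hm hx)
  obtain ⟨r, hr, h1⟩ := hf x hx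
  exact ⟨ball x r ∩ f ⁻¹' ball (f x) s, inter_mem (ball_mem_nhds x hr)
    (locPL_continuousAt hf hx (ball_mem_nhds _ hs)),
    h2.comp (h1.mono inter_subset_left) fun y hy => hy.2⟩

lemma locPL_prod {f : E → F} {g : E → G} {Ω : Set E} (hf : LocPL f Ω) (hg : LocPL g Ω) :
    LocPL (fun x => (f x, g x)) Ω := by
  refine locPL_of_nhds fun x hx => ?_
  obtain ⟨s, hs, h2⟩ := hg x hx
  obtain ⟨r, hr, h1⟩ := hf x hx
  exact ⟨ball x r ∩ ball x s, inter_mem (ball_mem_nhds x hr) (ball_mem_nhds x hs),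
    pl_prod (h1.mono inter_subset_left) (h2.mono inter_subset_right)⟩

lemma locPL_congr {f g : E → F} {Ω : Set E} (hf : LocPL f Ω) (h : ∀ x ∈ Ω, g =ᶠ[𝓝 x] f) :
    LocPL g Ω := by
  refine locPL_of_nhds fun x hx => ?_
  obtain ⟨r, hr, h1⟩ := hf x hx
  exact ⟨ball x r ∩ {y | g y = f y}, inter_mem (ball_mem_nhds x hr) (h x hx),
    (h1.mono inter_subset_left).congr fun y hy => hy.2⟩

/-- a locally PL map is PL on every compact subset -/
lemma plOn_of_locPL {f : E → F} {Ω : Set E} (hf : LocPL f Ω) (hK : IsCompact K) (hs : K ⊆ Ω) :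
    PLOn f K := by
  classical
  refine hK.induction_on (p := fun s => PLOn f (s ∩ K)) (by simpa using plOn_empty f)
    (fun s t hst h => h.mono (inter_subset_inter_left _ hst)) (fun s t h1 h2 => ?_)
    (fun x hx => ?_) |>.mono (by simp)
  · obtain ⟨-, S, h1⟩ := h1
    obtain ⟨-, T, h2⟩ := h2
    refine ⟨fun x hx => (locPL_continuousAt hf (hs hx.2)).continuousWithinAt, S ∪ T,
      fun x hx => ?_⟩
    rcases hx.1 with h | h
    · obtain ⟨a, ha, e⟩ := h1 x ⟨h, hx.2⟩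
      exact ⟨a, Finset.mem_union_left _ ha, e⟩
    · obtain ⟨a, ha, e⟩ := h2 x ⟨h, hx.2⟩
      exact ⟨a, Finset.mem_union_right _ ha, e⟩
  · obtain ⟨r, hr, h⟩ := hf x (hs hx)
    exact ⟨ball x r, mem_nhdsWithin_of_mem_nhds (ball_mem_nhds x hr), h.mono inter_subset_left⟩

end Crest.Agent.X212.Lad50
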