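import Crest.Agent.X212.Flo2.Alg

/-!
# Row 212, leaf ALG-1: the maps of points of a count system
-/

set_option autoImplicit false
set_option linter.unusedSectionVars false

open Module Function Filter

noncomputable section

namespace Crest.Agent.X212.Lad50.Bs

open Win22 Flo2
open Bor5 (K)

section gen
variable {L L' : Type}

/-- chain maps that agree on a piece agree on its homology -/
theorem hm_on {X : WC L} {Y : WC L'} (f g : WCh X Y) {s : L} {x : ℚ}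
    (h : ∀ᶠ m in atTop, ∀ y ∈ (X.g m).W (s, x), f.φ m y = g.φ m y) :
    ∀ c ∈ X.gr s x, f.hm c = g.hm c := fun c hc => by
  have h0 := (f.add g).hm_zero (h.mono fun m hm y hy => by
    show f.φ m y + g.φ m y = 0
    rw [hm y hy]
    exact add_self2 K _) c hc
  rw [WCh.hm_add, LinearMap.add_apply, ← sub_eq_add2 K] at h0
  exact sub_eq_zero.1 h0

variable {A : Gen L} {B : Gen L'} {m : ℕ}

theorem mat_eq_W {n n' : A.ι m → B.ι m → K} {l : L × ℚ} (h : ∀ i, A.lab m i = l → n i = n' i) :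
    ∀ y ∈ (A.wg.g m).W l, mat n y = mat n' y := fun _ hy =>
  eq_on_pc (S := A.lab m ⁻¹' {l}) (fun i hi => by rw [mat_single, mat_single, h i hi]) hy

theorem mat_zero_W {n : A.ι m → B.ι m → K} {l : L × ℚ} (h : ∀ i, A.lab m i = l → ∀ k, n i k = 0) :
    ∀ y ∈ (A.wg.g m).W l, mat n y = 0 := fun _ hy =>
  eq_on_pc (ψ := 0) (S := A.lab m ⁻¹' {l}) (fun i hi => by
    rw [mat_single]
    exact funext (h i hi)) hy

theorem W_bot {l : L × ℚ} (h : ∀ i, A.lab m i ≠ l) : (A.wg.g m).W l = ⊥ :=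
  pc_eq_bot (S := A.lab m ⁻¹' {l}) h

theorem W_one {l : L × ℚ} (h : ∃! i, A.lab m i = l) : finrank K ((A.wg.g m).W l) = 1 := by
  obtain ⟨i, hi, hu⟩ := h
  exact (finrank_pc (A.lab m ⁻¹' {l})).trans (Set.ncard_eq_one.2 ⟨i, Set.eq_singleton_iff_unique_mem.2
    ⟨hi, hu⟩⟩)

theorem W_inj {n : A.ι m → B.ι m → K} {l : L × ℚ} (h : ∃! i, A.lab m i = l)
    (h' : ∀ i, A.lab m i = l → ∃ k, n i k ≠ 0) : ∀ y ∈ (A.wg.g m).W l, mat n y = 0 → y = 0 := by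
  obtain ⟨i, hi, hu⟩ := h
  obtain ⟨k, hk⟩ := h' i hi
  exact inj_on_single (S := A.lab m ⁻¹' {l}) (i := i) hu fun e =>
    hk (congrFun ((mat_single n i).symm.trans e) k)

end gen

variable {S : Sk} (Z : Cs S)

theorem hm_not {a b : S.E} {σ : S.F a b} (h : ¬S.Pt σ) : Z.hm σ = 0 := dif_neg h

theorem z_W {a b : S.E} (σ : S.F a b) (m : ℕ) (x : ℚ) :
    ∀ y ∈ ((Z.A a).wg.g m).W (S.s σ, x), mat (Z.z σ m) y ∈ ((Z.A b).wg.g m).W (S.t σ, x + Z.dg σ) :=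
  Gen.mat_W fun i k hi h => by rw [(Z.hz σ m i k h).2, hi]

theorem mem {a b : S.E} (σ : S.F a b) (x : ℚ) : ∀ y ∈ (Z.cx a).gr (S.s σ) x,
    Z.hm σ y ∈ (Z.cx b).gr (S.t σ) (x + Z.dg σ) := fun y hy => by
  by_cases h : S.Pt σ
  · rw [Z.hm_eq h]
    exact (Z.ch h).hm_mem (Eventually.of_forall fun m => z_W Z σ m x) y hy
  · rw [hm_not Z h]
    exact zero_mem _

theorem zero_of {a b : S.E} (σ : S.F a b) {c : S.L a} {x : ℚ}
    (h0 : ∀ᶠ m in atTop, ∀ i, (Z.A a).lab m i = (c, x) → ∀ k, Z.z σ m i k = 0) :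
    ∀ y ∈ (Z.cx a).gr c x, Z.hm σ y = 0 := fun y hy => by
  by_cases h : S.Pt σ
  · rw [Z.hm_eq h]
    exact (Z.ch h).hm_zero (h0.mono fun m hm => mat_zero_W hm) y hy
  · rw [hm_not Z h]
    rfl

theorem off {a b : S.E} (σ : S.F a b) (c : S.L a) (x : ℚ) (hc : c ≠ S.s σ) :
    ∀ y ∈ (Z.cx a).gr c x, Z.hm σ y = 0 :=
  zero_of Z σ (Eventually.of_forall fun m i hi k => by_contra fun h =>
    hc ((congrArg Prod.fst hi).symm.trans (Z.hz σ m i k h).1))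

/-- a class sees only a window -/
theorem key {a : S.E} (y : Z.H a) : ∃ r : ℚ, ∀ b (σ : S.F a b), Z.hm σ y ≠ 0 →
    ∃ᶠ m in atTop, ∃ i k, ((Z.A a).lab m i).2 ≤ r ∧ Z.z σ m i k ≠ 0 := by
  obtain ⟨y, hy, rfl⟩ := (Z.cx a).cx.exists_cls y
  obtain ⟨r, hr⟩ := (Z.cx a).lg.exists_le Prod.snd y
  refine ⟨r, fun b σ h0 => by_contra fun hn => h0 ?_⟩
  by_cases h : S.Pt σ
  · rw [Z.hm_eq h]
    refine HCx.map_hg_zero (Z.ch h).isCh ((Z.ch h).lim_zero_up (S := {l | l.2 ≤ r})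
      ((not_frequently.1 hn).mono fun m hm x hx => ?_)) (Cx.cls_mem_img hy hr)
    refine eq_on_pc (φ := mat (Z.z σ m)) (ψ := 0) (S := {i | ((Z.A a).lab m i).2 ≤ r})
      (fun i hi => ?_) ((Z.A a).le_eq m r ▸ hx)
    rw [mat_single]
    exact funext fun k => by_contra fun e => hm ⟨i, k, hi, e⟩
  · rw [hm_not Z h]
    rfl

theorem bnd (a b : S.E) (β : S.B) (e : S.T β) (y : Z.H a) : ∃ c : ℝ, ∀ (σ : S.F a b)
    (h : S.base σ = β), Z.hm σ y ≠ 0 → |S.prB σ h e| ≤ c := by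
  obtain ⟨r, hr⟩ := key Z y
  have := (Z.A b).fin
  obtain ⟨w, hw⟩ := (Set.finite_range (Z.A b).w).bddBelow
  obtain ⟨c, hc⟩ := Z.bnd a b β e (r - w)
  refine ⟨c, fun σ h h0 => ?_⟩
  obtain ⟨m, ⟨i, k, hi, hk⟩, hm⟩ := ((hr b σ h0).and_eventually (hc r)).exists
  refine hm σ h i k ?_ hi hk
  obtain ⟨n, hn⟩ := (Z.A b).lat m k
  have h1 : w ≤ (Z.A b).w ((Z.A b).lab m k).1 := hw ⟨_, rfl⟩
  have h2 : ((Z.A b).lab m k).2 = ((Z.A a).lab m i).2 + Z.dg σ := congrArg Prod.snd (Z.hz σ m i k hk).2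
  have h3 : (0 : ℚ) ≤ n := Nat.cast_nonneg n
  linarith

theorem fin {a b : S.E} (f : S.Arr a b) (y : Z.H a) :
    (support fun i => Z.hm (f.f i) y).Finite := by
  obtain ⟨β, h, D, hD⟩ := f.prp
  choose c hc using fun e => bnd Z a b β e y
  refine (hD (∑ e ∈ D, |c e|)).subset fun i hi e he => ?_
  exact (hc e _ (h i) hi).trans ((le_abs_self _).trans
    (Finset.single_le_sum (f := fun e => |c e|) (fun _ _ => abs_nonneg _) he))

/-- the maps of a family in coordinates -/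
def lm {a b : S.E} (k : WM (Z.cx a).toWG (Z.cx b).toWG) (m : ℕ) :
    ((Z.A a).ι m → K) →ₗ[K] ((Z.A b).ι m → K) := k.φ m

/-- homotopies are checked on generators -/
theorem htp {a b : S.E} (k : WM (Z.cx a).toWG (Z.cx b).toWG) (f g : WCh (Z.cx a) (Z.cx b))
    (h : ∀ r, ∀ᶠ m in atTop, ∀ i, ((Z.A a).lab m i).2 ≤ r →
      lm Z k m (Z.d a m i) + mat (Z.d b m) (lm Z k m (Pi.single i 1)) =
        lm Z f.toWM m (Pi.single i 1) + lm Z g.toWM m (Pi.single i 1)) : f.hm = g.hm :=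
  f.hm_eq g k ((Z.A a).loc (fun m => mat (Z.d b m) ∘ₗ lm Z k m + lm Z k m ∘ₗ mat (Z.d a m))
    (fun m => lm Z f.toWM m + lm Z g.toWM m) fun r => (h r).mono fun m hm i hi => by
      refine Eq.trans ?_ (hm i hi)
      rw [add_comm (lm Z k m _), ← mat_single (Z.d a m) i]
      rfl)

/-- the master equation without caps -/
theorem mas_bd {a b : S.E} {σ : S.F a b} {l : List (S.F a b)} {n : List (Σ x, S.F a x × S.F x b)}
    (h : S.Bd σ l n) (r : ℚ) : ∀ᶠ m in atTop, ∀ i, ((Z.A a).lab m i).2 ≤ r → ∀ k,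
      ∑ j, Z.d a m i j * Z.z σ m j k + ∑ j, Z.z σ m i j * Z.d b m j k =
        (l.map fun τ => Z.z τ m i k).sum +
        (n.map fun p => ∑ j, Z.z p.2.1 m i j * Z.z p.2.2 m j k).sum := by
  obtain ⟨D, hD⟩ := Z.mas σ r
  refine hD.mono fun m hm i hi k => ?_
  have := h.cp
  rw [(hm i hi k).2, Finset.eq_empty_of_isEmpty D, Finset.sum_empty, add_zero,
    (h.fc.map _).sum_eq, (h.nk.map _).sum_eq]

/-- the master equation with one cap -/
theorem mas_cap {a b x : S.E} {σ τ : S.F a b} {L : S.F3 a b x} {Q : S.F x S.one}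
    (h : S.CapI σ τ L Q) (r : ℚ) : ∀ᶠ m in atTop, ∀ i, ((Z.A a).lab m i).2 ≤ r → ∀ k,
      ∑ j, Z.d a m i j * Z.z σ m j k + ∑ j, Z.z σ m i j * Z.d b m j k =
        Z.z τ m i k + ∑ j, Z.z3 L m i k j * Z.z Q m j (Z.pt m) := by
  obtain ⟨h1, h2, c, hc, h3⟩ := h
  obtain ⟨D, hD⟩ := Z.mas σ r
  refine hD.mono fun m hm i hi k => ?_
  obtain ⟨h4, h5⟩ := hm i hi k
  rw [h5, h1, h2]
  simp only [List.map_nil, List.map_cons, List.sum_nil, List.sum_cons, add_zero]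
  congr 1
  by_cases hcD : c ∈ D
  · rw [Finset.sum_eq_single_of_mem c hcD fun c' _ e => (e (hc c')).elim, h3]
  · have h6 := h4 c hcD
    rw [h3] at h6
    rw [Finset.sum_eq_zero fun c' h' => (hcD (hc c' ▸ h')).elim]
    exact (Finset.sum_eq_zero fun j _ => by rw [h6 j, zero_mul]).symm

theorem inv {a b : S.E} (σ τ τ' : S.F a b) (h : S.Pt τ) (h' : S.Pt τ') (hb : S.Bd σ [τ, τ'] []) :
    Z.hm τ = Z.hm τ' := by
  rw [Z.hm_eq h, Z.hm_eq h']
  refine htp Z (Z.wm σ) _ _ fun r => (mas_bd Z hb r).mono fun m hm i hi => funext fun k => ?_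
  show mat (Z.z σ m) (Z.d a m i) k + mat (Z.d b m) (mat (Z.z σ m) (Pi.single i 1)) k =
    mat (Z.z τ m) (Pi.single i 1) k + mat (Z.z τ' m) (Pi.single i 1) k
  simp only [mat_single]
  simpa only [mat_apply, List.map_nil, List.map_cons, List.sum_nil, List.sum_cons,
    add_zero] using hm i hi k

theorem comp {a b c : S.E} (σ τ : S.F a c) (τ₁ : S.F a b) (τ₂ : S.F b c) (h : S.Pt τ)
    (h1 : S.Pt τ₁) (h2 : S.Pt τ₂) (hb : S.Bd σ [τ] [⟨b, τ₁, τ₂⟩]) :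
    Z.hm τ = Z.hm τ₂ ∘ₗ Z.hm τ₁ := by
  rw [Z.hm_eq h, Z.hm_eq h1, Z.hm_eq h2, ← WCh.hm_comp]
  refine htp Z (Z.wm σ) _ _ fun r => (mas_bd Z hb r).mono fun m hm i hi => funext fun k => ?_
  show mat (Z.z σ m) (Z.d a m i) k + mat (Z.d c m) (mat (Z.z σ m) (Pi.single i 1)) k =
    mat (Z.z τ m) (Pi.single i 1) k + mat (Z.z τ₂ m) (mat (Z.z τ₁ m) (Pi.single i 1)) k
  simp only [mat_single]
  simpa only [mat_apply, List.map_nil, List.map_cons, List.sum_nil, List.sum_cons,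
    add_zero] using hm i hi k

theorem idn {a : S.E} (σ : S.F a a) (h : S.Pt σ) (hi : S.idn σ) (x : ℚ) :
    ∀ y ∈ (Z.cx a).gr (S.s σ) x, Z.hm σ y = y := fun y hy => by
  rw [Z.hm_eq h, hm_on (Z.ch h) (WCh.id _) ((Z.idn σ hi x).mono fun m hm y hy => ?_) y hy,
    WCh.hm_id, LinearMap.id_apply]
  refine eq_on_pc (φ := mat (Z.z σ m)) (ψ := LinearMap.id) (S := (Z.A a).lab m ⁻¹' {(S.s σ, x)})
    (fun i (e : (Z.A a).lab m i = (S.s σ, x)) => funext fun k => ?_) hy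
  rw [mat_single, hm i (by rw [e]) k, e, LinearMap.id_apply, Pi.single_apply]
  simp only [and_true, eq_comm]

theorem od_succ {b : S.E} (hb : S.qhs b) (t : S.L b) {j : ℕ} (hj : Z.N b ≤ j + 1) (he : Even j) :
    ∀ᶠ m in atTop, ∀ i, (Z.A b).lab m i ≠ (t, (Z.A b).w t + j + 1) := by
  have := Z.od b hb t (j + 1) hj he.add_one
  rwa [Nat.cast_add_one, ← add_assoc] at this

/-- a living tower generator goes to a tower degree -/
theorem step {a b : S.E} (σ : S.F a b) (hb : S.qhs b) {x : ℚ}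
    (h1 : ∀ᶠ m in atTop, ∃! i, (Z.A a).lab m i = (S.s σ, x))
    (h2 : ∀ᶠ m in atTop, ∀ i, (Z.A a).lab m i = (S.s σ, x) → ∃ k, Z.z σ m i k ≠ 0)
    (hx : (Z.A b).w (S.t σ) + Z.N b ≤ x + Z.dg σ) :
    ∀ᶠ m in atTop, ∀ i, (Z.A b).lab m i ≠ (S.t σ, x + Z.dg σ + 1) := by
  have h3 : ∀ᶠ m in atTop, ∃ k, (Z.A b).lab m k = (S.t σ, x + Z.dg σ) :=
    (h1.and h2).mono fun m ⟨⟨i, hi, _⟩, hm⟩ => (hm i hi).imp fun k hk => by
      rw [(Z.hz σ m i k hk).2, hi]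
  obtain ⟨m, k, hk⟩ := h3.exists
  obtain ⟨j, hj⟩ := (Z.A b).lat m k
  rw [hk] at hj
  have hj' : x + Z.dg σ = (Z.A b).w (S.t σ) + j := hj
  have hN : Z.N b ≤ j := by
    have : (Z.N b : ℚ) ≤ j := by linarith
    exact_mod_cast this
  rw [hj'] at h3 ⊢
  rcases Nat.even_or_odd j with he | ho
  · exact od_succ Z hb _ (by omega) he
  · obtain ⟨m, ⟨k, hk⟩, hm⟩ := (h3.and (Z.od b hb _ j hN ho)).exists
    exact (hm k hk).elim

theorem hi1 {a b : S.E} (σ : S.F a b) (h : S.Pt σ) (ha : S.qhs a) (hb : S.qhs b) (hi : S.hi1 σ) :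
    ∃ n : ℚ, ∀ x, n ≤ x → ∀ y ∈ (Z.cx a).gr (S.s σ) x, Z.hm σ y = 0 → y = 0 := by
  obtain ⟨n, hn⟩ := Z.hi1 σ hi
  refine ⟨max n (max ((Z.A a).w (S.s σ) + Z.N a) ((Z.A b).w (S.t σ) + Z.N b - Z.dg σ)),
    fun x hx y hy h0 => ?_⟩
  simp only [max_le_iff] at hx
  obtain ⟨x1, x2, x3⟩ := hx
  by_contra hy0
  have hne : (Z.cx a).gr (S.s σ) x ≠ ⊥ := (Submodule.ne_bot_iff _).2 ⟨y, hy, hy0⟩
  obtain ⟨k, hk⟩ := (Z.cx a).gr_lat _ _ hne
  obtain rfl : x = (Z.A a).w (S.s σ) + k := hk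
  have hN : Z.N a ≤ k := by
    have : (Z.N a : ℚ) ≤ k := by linarith
    exact_mod_cast this
  rcases Nat.even_or_odd k with he | ho
  · have h1 := Z.ev a ha (S.s σ) k hN he
    rw [Z.hm_eq h] at h0
    exact hy0 ((Z.ch h).hm_inj (Eventually.of_forall fun m => z_W Z σ m _)
      ((h1.and (hn _ x1)).mono fun m hm => W_inj hm.1 hm.2)
      ((step Z σ hb h1 (hn _ x1) (by linarith)).mono fun m hm => W_bot hm) y hy h0)
  · exact hne ((Z.cx a).gr_bot ((Z.od a ha _ k hN ho).mono fun m hm => W_bot hm))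

theorem hi0 {a b : S.E} (σ : S.F a b) (hi : S.hi0 σ) : ∃ n : ℚ, ∀ x, n ≤ x →
    ∀ y ∈ (Z.cx a).gr (S.s σ) x, Z.hm σ y = 0 :=
  (Z.hi0 σ hi).imp fun _ hn x hx => zero_of Z σ (hn x hx)

theorem al0 {a b : S.E} (σ : S.F a b) (h : S.al0 σ) : Z.hm σ = 0 := LinearMap.ext fun y => by
  obtain ⟨r, hr⟩ := key Z y
  by_contra h0
  obtain ⟨m, ⟨i, k, hi, hk⟩, hm⟩ := ((hr b σ h0).and_eventually (Z.al0 σ h r)).exists
  exact hk (hm i hi k)

theorem lab_one (c : S.L S.one) (m : ℕ) (i : (Z.A S.one).ι m) : (Z.A S.one).lab m i = (c, 0) :=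
  Prod.ext (S.sub _ _) (by rw [Z.pt_eq m i, Z.pt_deg])

theorem one : finrank K (Z.H S.one) = 1 := by
  let c := ((Z.A S.one).lab 0 (Z.pt 0)).1
  have h0 : ∀ x : ℚ, x ≠ 0 → ∀ c', ∀ᶠ m in atTop, ((Z.A S.one).wg.g m).W (c', x) = ⊥ :=
    fun x hx c' => Eventually.of_forall fun m => W_bot fun i e =>
      hx (congrArg Prod.snd (e.symm.trans (lab_one Z c m i)))
  have h1 : finrank K ((Z.cx S.one).gr c 0) = 1 := (Z.cx S.one).gr_one
    (Eventually.of_forall fun m => W_one ⟨Z.pt m, lab_one Z c m _, fun i _ => Z.pt_eq m i⟩)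
    (h0 _ (by norm_num) c) (h0 _ (by norm_num) c)
  have h2 : (Z.cx S.one).gr c 0 = ⊤ := by
    rw [eq_top_iff, ← (Z.cx S.one).gr_top]
    refine iSup_le fun l => ?_
    by_cases hx : l.2 = 0
    · rw [hx, S.sub l.1 c]
    · rw [(Z.cx S.one).gr_bot (h0 _ hx _)]
      exact bot_le
  rwa [h2, finrank_top] at h1

theorem ne_one {x : K} (h : x ≠ 0) : x = 1 := (k_cases x).resolve_left h

theorem ex1 (σ : S.F S.one S.one) (h : S.Pt σ) (he : S.ex1 σ) : Z.hm σ = LinearMap.id := by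
  rw [Z.hm_eq h, ← WCh.hm_id]
  refine WCh.hm_eq' _ _ ((Z.A S.one).loc (fun m => mat (Z.z σ m)) (fun _ => LinearMap.id)
    fun _ => (Z.ex1 σ he 0).mono fun m hm i _ => funext fun k => ?_)
  obtain ⟨k', hk⟩ := hm i (lab_one Z _ m i)
  obtain rfl : k' = k := (Z.pt_eq m _).trans (Z.pt_eq m _).symm
  obtain rfl : k' = i := (Z.pt_eq m _).trans (Z.pt_eq m _).symm
  rw [mat_single, ne_one hk, LinearMap.id_apply, Pi.single_eq_same]

theorem nz {a b x : S.E} (σ τ : S.F a b) (L : S.F3 a b x) (Q : S.F x S.one) (ha : S.qhs a)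
    (hb : S.qhs b) (hc : S.CapI σ τ L Q) (hi : S.hi1 τ) : Z.NZ Q := by
  obtain ⟨n, hn⟩ := Z.hi1 τ hi
  obtain ⟨p, hp⟩ := exists_nat_ge (max (n - (Z.A a).w (S.s τ))
    ((Z.A b).w (S.t τ) + Z.N b - Z.dg τ - (Z.A a).w (S.s τ)))
  rw [max_le_iff] at hp
  have hp0 : (0 : ℚ) ≤ p := Nat.cast_nonneg p
  have hN0 : (0 : ℚ) ≤ Z.N a := Nat.cast_nonneg _
  have e : ((2 * (p + Z.N a) + 1 + 1 : ℕ) : ℚ) = 2 * (p + Z.N a) + 2 := by push_cast; ring
  have h1 := Z.ev a ha (S.s τ) (2 * (p + Z.N a) + 1 + 1) (by omega) ⟨p + Z.N a + 1, by ring⟩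
  have h2 := hn ((Z.A a).w (S.s τ) + (2 * (p + Z.N a) + 1 + 1 : ℕ)) (by rw [e]; linarith [hp.1])
  have h3 := step Z τ hb h1 h2 (by rw [e]; linarith [hp.2])
  have h4 := Z.od a ha (S.s τ) (2 * (p + Z.N a) + 1) (by omega) ⟨_, rfl⟩
  filter_upwards [h1, h2, h3, h4, mas_cap Z hc _] with m ⟨i, hi, _⟩ m2 m3 m4 m5
  obtain ⟨k, hk⟩ := m2 i hi
  have h5 := m5 i (le_of_eq (congrArg Prod.snd hi)) k
  by_contra hq
  have a1 : ∀ j, Z.d a m i j = 0 := fun j => by_contra fun h => m4 j (by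
    rw [Z.hom a m i j h, hi, sh]
    exact Prod.ext rfl (by push_cast; ring))
  have a2 : ∀ j, Z.d b m j k = 0 := fun j => by_contra fun h => m3 j (sh_inj (by
    rw [← Z.hom b m j k h, (Z.hz τ m i k hk).2, hi, sh]
    exact Prod.ext rfl (by simp)))
  have a3 : ∀ j, Z.z Q m j (Z.pt m) = 0 := fun j => by_contra fun h => hq ⟨j, ne_one h⟩
  simp only [a1, a2, a3, zero_mul, mul_zero, Finset.sum_const_zero, add_zero] at h5
  exact hk h5.symm

theorem cap_deg {x : S.E} (Q : S.F x S.one) {m : ℕ} {j : (Z.A x).ι m}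
    (h : Z.z Q m j (Z.pt m) ≠ 0) : ((Z.A x).lab m j).2 = -Z.dg Q := by
  have h1 : ((Z.A S.one).lab m (Z.pt m)).2 = ((Z.A x).lab m j).2 + Z.dg Q :=
    congrArg Prod.snd (Z.hz Q m j _ h).2
  rw [Z.pt_deg] at h1
  linarith

theorem bu {a b x : S.E} (σ σ' τ τ' : S.F a b) (L : S.F3 a b x) (Q Q' : S.F x S.one) (h : S.Pt τ)
    (h' : S.Pt τ') (ht : S.thin x) (hc : S.CapI σ τ L Q) (hc' : S.CapI σ' τ' L Q') (n : Z.NZ Q)
    (n' : Z.NZ Q') (e : Z.dg Q = Z.dg Q') : Z.hm τ = Z.hm τ' := by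
  rw [Z.hm_eq h, Z.hm_eq h']
  refine htp Z ((Z.wm σ).add (Z.wm σ')) _ _ fun r => ?_
  filter_upwards [mas_cap Z hc r, mas_cap Z hc' r, n, n'] with m m1 m2 ⟨j, hj⟩ ⟨j', hj'⟩ i hi
  have hd : ((Z.A x).lab m j).2 = -Z.dg Q := cap_deg Z Q (hj ▸ one_ne_zero)
  have hd' : ((Z.A x).lab m j').2 = -Z.dg Q := e ▸ cap_deg Z Q' (hj' ▸ one_ne_zero)
  have hq : ∀ l, Z.z Q m l (Z.pt m) = Z.z Q' m l (Z.pt m) := fun l => by
    rcases k_cases (Z.z Q m l (Z.pt m)) with h1 | h1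
    · rcases k_cases (Z.z Q' m l (Z.pt m)) with h2 | h2
      · rw [h1, h2]
      · obtain rfl : l = j := Z.thin x ht m _ _
          ((cap_deg Z Q' (h2 ▸ one_ne_zero)).trans (e ▸ hd.symm))
        rw [hj, h2]
    · obtain rfl : l = j' := Z.thin x ht m _ _ ((cap_deg Z Q (h1 ▸ one_ne_zero)).trans hd'.symm)
      rw [h1, hj']
  funext k
  show (mat (Z.z σ m) (Z.d a m i) k + mat (Z.z σ' m) (Z.d a m i) k) +
    mat (Z.d b m) (mat (Z.z σ m) (Pi.single i 1) + mat (Z.z σ' m) (Pi.single i 1)) k =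
    mat (Z.z τ m) (Pi.single i 1) k + mat (Z.z τ' m) (Pi.single i 1) k
  have e1 := m1 i hi k
  have e2 := m2 i hi k
  simp only [← hq] at e2
  rw [map_add, Pi.add_apply]
  simp only [mat_single]
  simp only [mat_apply]
  rw [add_add_add_comm, e1, e2, add_add_add_comm, CharTwo.add_self_eq_zero, add_zero]

section U
variable {a : S.E} (u : S.UD a)

/-- the matrix of `U` -/
def un (m : ℕ) (i k : (Z.A a).ι m) : K := Z.z (u.U ((Z.A a).lab m i).1) m i k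

theorem un_lab {m : ℕ} {i k : (Z.A a).ι m} (h : un Z u m i k ≠ 0) :
    (Z.A a).lab m k = (((Z.A a).lab m i).1, ((Z.A a).lab m i).2 - 2) := by
  rw [(Z.hz _ m i k h).2, u.t, Z.dg_tp _ _ (u.tp _), sub_eq_add_neg]

/-- the chain map `U` -/
def uc : WCh (Z.cx a) (Z.cx a) where
  toWM := Gen.wm (un Z u) fun r => ⟨r, Eventually.of_forall fun m i k hi h => by
    rw [un_lab Z u h]
    linarith⟩
  ch := (Z.A a).loc (fun m => mat (Z.d a m) ∘ₗ mat (un Z u m))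
    (fun m => mat (un Z u m) ∘ₗ mat (Z.d a m)) fun r => by
      have := (Z.A a).fin
      refine (eventually_all.2 fun c => mas_bd Z (σ := u.U c) (l := []) (n := [])
        ⟨(u.pt c).fc ▸ List.Perm.rfl, (u.pt c).nk ▸ List.Perm.rfl, (u.pt c).cp⟩ r).mono
        fun m hm i hi => funext fun k => ?_
      have h1 := hm ((Z.A a).lab m i).1 i hi k
      simp only [List.map_nil, List.sum_nil, add_zero] at h1
      simp only [LinearMap.comp_apply, mat_single, mat_apply]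
      refine (CharTwo.add_eq_zero.1 h1).symm.trans (Finset.sum_congr rfl fun j _ => ?_)
      by_cases h : Z.d a m i j = 0
      · rw [h, zero_mul, zero_mul]
      · rw [un, Z.hom a m i j h]
        rfl

theorem uc_W (s : S.L a) (x : ℚ) : ∀ᶠ m in atTop, ∀ y ∈ ((Z.cx a).g m).W (s, x),
    (uc Z u).φ m y ∈ ((Z.cx a).g m).W (s, x - 2) :=
  Eventually.of_forall fun m => Gen.mat_W (n := un Z u m) fun i k hi h => by
    rw [un_lab Z u h, hi]

theorem uc_inj {m : ℕ} {s : S.L a} {x : ℚ} (h : ∃! i, (Z.A a).lab m i = (s, x))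
    (h' : ∀ i, (Z.A a).lab m i = (s, x) → ∃ k, Z.z (u.U s) m i k ≠ 0) :
    ∀ y ∈ ((Z.cx a).g m).W (s, x), (uc Z u).φ m y = 0 → y = 0 :=
  W_inj (n := un Z u m) h fun i hi => by
    unfold un
    rw [hi]
    exact h' i hi

theorem hf (ha : S.qhs a) : ∃ X : Hf (S.L a), ∃ e : X.H ≃ₗ[K] Z.H a,
    (∀ c x y, y ∈ X.gr c x ↔ e y ∈ (Z.cx a).gr c x) ∧
    (∀ c x, ∀ y ∈ X.gr c x, e (X.U y) = Z.hm (u.U c) (e y)) ∧ X.w = (Z.A a).w ∧
    (S.psc a → ∀ c (k : ℕ), finrank K (X.gr c (X.w c + 2 * k)) = 1 ∧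
      X.gr c (X.w c + (2 * k + 1)) = ⊥ ∧ ∀ y ∈ X.gr c (X.w c + 2 * k + 2), X.U y = 0 → y = 0) := by
  have := (Z.A a).fin
  choose n hn using fun c => Z.hi1 (u.U c) (u.al c).1
  obtain ⟨q, hq⟩ := (Set.finite_range fun c => n c - (Z.A a).w c).bddAbove
  obtain ⟨p, hp⟩ := exists_nat_ge q
  have ev2 : ∀ s (k : ℕ), Z.N a ≤ k → Even k → ∀ᶠ m in atTop,
      ∃! i, (Z.A a).lab m i = (s, (Z.A a).w s + k + 2) := fun s k hk he => by
    have := Z.ev a ha s (k + 2) (by omega) (he.add even_two)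
    rwa [Nat.cast_add, Nat.cast_ofNat, ← add_assoc] at this
  refine ⟨(Z.cx a).hf (uc Z u) (uc_W Z u) (p + Z.N a) (fun s k hk he => ?_)
    fun s k hk ho => (Z.od a ha s k (by omega) ho).mono fun m hm => W_bot hm,
    LinearEquiv.refl K _, fun _ _ _ => Iff.rfl, fun c x y hy => ?_, rfl, fun hs c k => ?_⟩
  · have h1 : n s - (Z.A a).w s ≤ q := hq ⟨s, rfl⟩
    have h2 : (p : ℚ) ≤ k := by exact_mod_cast (show p ≤ k by omega)
    have h3 := hn s ((Z.A a).w s + k + 2) (by linarith)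
    rw [u.s] at h3
    filter_upwards [Z.ev a ha s k (by omega) he, ev2 s k (by omega) he, h3] with m m1 m2 m3
    exact ⟨W_one m1, uc_inj Z u m2 m3⟩
  · rw [Z.hm_eq (u.pt c)]
    exact hm_on (uc Z u) (Z.ch (u.pt c)) (Eventually.of_forall fun m =>
      mat_eq_W (n := un Z u m) (n' := Z.z (u.U c) m) fun i hi => by
        unfold un
        rw [hi]) y hy
  · have h0 := Z.psc a hs
    have e : (2 * k : ℚ) = (2 * k : ℕ) := by push_cast; rfl
    have he : Even (2 * k) := even_two_mul k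
    have h1 := Z.ev a ha c (2 * k) (by omega) he
    have h2 := od_succ Z ha c (j := 2 * k) (by omega) he
    show finrank K ((Z.cx a).gr c ((Z.A a).w c + 2 * k)) = 1 ∧
      (Z.cx a).gr c ((Z.A a).w c + (2 * k + 1)) = ⊥ ∧
      ∀ y ∈ (Z.cx a).gr c ((Z.A a).w c + 2 * k + 2), (uc Z u).hm y = 0 → y = 0
    rw [← add_assoc, e]
    refine ⟨(Z.cx a).gr_one (h1.mono fun m => W_one) (h2.mono fun m => W_bot) ?_,
      (Z.cx a).gr_bot (h2.mono fun m => W_bot), (uc Z u).hm_inj (uc_W Z u c _) ?_ ?_⟩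
    · rcases k with _ | k
      · refine Eventually.of_forall fun m => W_bot fun i hi => ?_
        obtain ⟨j, hj⟩ := (Z.A a).lat m i
        rw [hi] at hj
        have h3 : (Z.A a).w c + ((2 * 0 : ℕ) : ℚ) - 1 = (Z.A a).w c + j := hj
        have h4 : (0 : ℚ) ≤ j := Nat.cast_nonneg j
        push_cast at h3
        linarith
      · rw [show (Z.A a).w c + ((2 * (k + 1) : ℕ) : ℚ) - 1 = (Z.A a).w c + (2 * k : ℕ) + 1 by
          push_cast; ring]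
        exact (od_succ Z ha c (j := 2 * k) (by omega) (even_two_mul k)).mono fun m => W_bot
    · have h3 := Z.al1 (u.U c) ((u.al c).2 hs) ((Z.A a).w c + (2 * k : ℕ) + 2)
      rw [u.s, u.t, Z.dg_tp _ _ (u.tp c), add_neg_cancel_right] at h3
      filter_upwards [h1, ev2 c (2 * k) (by omega) he, h3] with m ⟨j, hj, _⟩ m2 m3
      exact uc_inj Z u m2 fun i hi => ⟨j, m3 i j hi hj ▸ one_ne_zero⟩
    · rw [add_sub_cancel_right]
      exact h2.mono fun m => W_bot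

end U

/-- **ALG-1** -/
theorem bas : BasStmt := fun _ Z =>
  { mem := mem Z
    off := off Z
    fin := fin Z
    inv := inv Z
    comp := comp Z
    idn := idn Z
    hi1 := hi1 Z
    hi0 := hi0 Z
    al0 := al0 Z
    one := one Z
    ex1 := ex1 Z
    bnd := bnd Z
    hf := fun _ u => hf Z u
    nz := nz Z
    bu := bu Z }

end Crest.Agent.X212.Lad50.Bs
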