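import Mathlib

/-!
# Row 212, PERF-SMALE (helper50), part A: a nowhere vanishing plane field has no bounded orbit

`no_loop`: the chord `c (s + ε) - c s` of a simple closed curve has odd winding number.
`unbounded`: a forward orbit of the field `exp ∘ ℓ` leaves every ball.
-/

set_option autoImplicit false
noncomputable section
open Set Filter Topology Function Complex

namespace Crest.Agent.X212.Lad50.Sm

theorem exists_log {A : Type*} [TopologicalSpace A] [SimplyConnectedSpace A]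
    [LocallyPathConnectedSpace A] {f : A → ℂ} (hf : Continuous f) (h0 : ∀ a, f a ≠ 0) (a₀ : A)
    {e : ℂ} (he : exp e = f a₀) : ∃ L : A → ℂ, Continuous L ∧ L a₀ = e ∧ ∀ a, exp (L a) = f a := by
  obtain ⟨F, ⟨h1, h2⟩, -⟩ := isCoveringMapOn_exp.existsUnique_continuousMap_lifts ⟨f, hf⟩
    (a₀ := a₀) (e₀ := e) he h0
  exact ⟨F, F.continuous, h1, fun a => congrFun h2 a⟩

theorem log_constOn {A : Type*} [TopologicalSpace A] {s : Set A} (hs : IsPreconnected s)
    {L : A → ℂ} (hL : ContinuousOn L s) {c : ℂ} (h : ∀ a ∈ s, exp (L a) = c) {a b : A}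
    (ha : a ∈ s) (hb : b ∈ s) : L a = L b :=
  isCoveringMap_exp.constOn_of_comp hs hL
    (fun x hx y hy => Subtype.ext ((h x hx).trans (h y hy).symm)) ha hb

theorem log_const {A : Type*} [TopologicalSpace A] [PreconnectedSpace A]
    {L : A → ℂ} (hL : Continuous L) {c : ℂ} (h : ∀ a, exp (L a) = c) (a b : A) : L a = L b :=
  log_constOn isPreconnected_univ hL.continuousOn (fun a _ => h a) (mem_univ a) (mem_univ b)

/-- the chords of a simple closed curve have no periodic logarithm -/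
theorem no_loop {c : ℝ → ℂ} (hc : Continuous c) (hp : ∀ s, c (s + 1) = c s)
    (hi : ∀ s t, s < t → t < s + 1 → c t ≠ c s) {m : ℝ → ℂ} (hm : Continuous m)
    (hmp : m 1 = m 0) {ε : ℝ} (hε : ε ∈ Ioo (0 : ℝ) 1)
    (he : ∀ s, exp (m s) = c (s + ε) - c s) : False := by
  have hσ : Continuous Real.sigmoid := _root_.continuous_sigmoid
  set D : ℝ × ℝ → ℂ := fun p => c (p.1 + Real.sigmoid p.2) - c p.1 with hD
  have hD0 : ∀ p, D p ≠ 0 := fun p => sub_ne_zero.2 (hi _ _
    (by linarith [Real.sigmoid_pos p.2]) (by linarith [Real.sigmoid_lt_one p.2]))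
  have hDc : Continuous D := by fun_prop
  obtain ⟨L, hL, -, hLe⟩ := exists_log hDc hD0 0 (exp_log (hD0 0))
  set τ : ℝ × ℝ → ℝ × ℝ := fun p => (p.1 + Real.sigmoid p.2, -p.2) with hτ
  have hτc : Continuous τ := by fun_prop
  have h1 : ∀ p, exp (L (τ p) - L p) = -1 := fun p => by
    rw [exp_sub, hLe, hLe, div_eq_iff (hD0 p)]
    simp only [hD, hτ, Real.sigmoid_neg]
    rw [show p.1 + Real.sigmoid p.2 + (1 - Real.sigmoid p.2) = p.1 + 1 by ring, hp]
    ring
  obtain ⟨u, rfl⟩ : ε ∈ range Real.sigmoid := Real.range_sigmoid ▸ hε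
  have h2 := log_const (L := fun p => L (τ p) - L p) ((hL.comp hτc).sub hL) h1 (τ (0, u)) (0, u)
  have h3 : τ (τ (0, u)) = (1, u) := by
    simp only [hτ, Real.sigmoid_neg, neg_neg]
    congr 1
    ring
  have h4 := log_const (L := fun s : ℝ => L (s, u) - m s) (c := 1) (by fun_prop) (fun s => by
    rw [exp_sub, hLe, he, div_self (hD0 (s, u))]) 1 0
  rw [h3] at h2
  have h5 := h1 (0, u)
  rw [show L (τ (0, u)) - L (0, u) = 0 by linear_combination (h4 - h2 + hmp) / 2 , exp_zero] at h5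
  norm_num at h5

theorem cone {a : ℂ} (ha : |a.im| < 1 / 2) {σ : ℝ} (hσ : σ = 1 ∨ σ = -1) :
    0 < (exp a * (1 + σ * I)).re := by
  have h1 := Real.abs_sin_le_abs (x := a.im)
  have h2 := Real.one_sub_sq_div_two_le_cos (x := a.im)
  have h3 : a.im ^ 2 < 1 / 4 := by nlinarith [abs_lt.1 ha]
  have h4 := abs_le.1 (h1.trans ha.le)
  have h5 := Real.exp_pos a.re
  simp only [mul_re, add_re, one_re, ofReal_re, I_re, mul_zero, ofReal_im, I_im, mul_one,
    sub_self, add_zero, add_im, one_im, mul_im, zero_add, exp_re, exp_im]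
  have h6 : 0 < Real.cos a.im - Real.sin a.im * σ := by
    rcases hσ with rfl | rfl <;> linarith [h4.1, h4.2]
  nlinarith [mul_pos h5 h6]

theorem mono_of_right {g g' : ℝ → ℝ} {a b : ℝ} (hab : a ≤ b) (hg : ContinuousOn g (Icc a b))
    (hd : ∀ x ∈ Ico a b, HasDerivWithinAt g (g' x) (Ici x) x) (hp : ∀ x ∈ Ico a b, 0 < g' x) :
    g a ≤ g b := by
  have := image_le_of_deriv_right_lt_deriv_boundary (f := fun x => -g x) (f' := fun x => -g' x)
    hg.neg (fun x hx => (hd x hx).neg) (B := fun _ => -g a) (B' := fun _ => 0) le_rfl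
    (fun x => hasDerivAt_const x _) (fun x hx _ => by linarith [hp x hx]) (right_mem_Icc.2 hab)
  linarith

/-- an orbit arc between two consecutive hits of a short vertical segment is impossible -/
theorem no_return {ℓ : ℂ → ℂ} (hℓ : Continuous ℓ) {γ : ℝ → ℂ}
    (hγ : ∀ t, HasDerivAt γ (exp (ℓ (γ t))) t)
    (hu : ∀ a b, γ a = γ b → ∀ r, γ (a + r) = γ (b + r)) {r t0 t1 : ℝ} (h01 : t0 < t1)
    (hs : ∀ z : ℂ, z.re = 0 → |z.im| ≤ r → |(ℓ z).im| < 1 / 4)
    (h0 : (γ t0).re = 0 ∧ |(γ t0).im| ≤ r) (h1 : (γ t1).re = 0 ∧ |(γ t1).im| ≤ r)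
    (hn : ∀ t, t0 < t → t < t1 → ¬((γ t).re = 0 ∧ |(γ t).im| ≤ r)) : False := by
  have hγc : Continuous γ := continuous_iff_continuousAt.2 fun t => (hγ t).continuousAt
  obtain ⟨σ, l, hσ, hl, hσl⟩ : ∃ σ l : ℝ, (σ = 1 ∨ σ = -1) ∧ 0 ≤ l ∧
      (γ t0).im = (γ t1).im + σ * l := by
    rcases le_total (γ t0).im (γ t1).im with h | h
    · exact ⟨-1, (γ t1).im - (γ t0).im, .inr rfl, by linarith, by ring⟩
    · exact ⟨1, (γ t0).im - (γ t1).im, .inl rfl, by linarith, by ring⟩
  have hσ0 : σ ≠ 0 := by rcases hσ with rfl | rfl <;> norm_num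
  set P : ℝ := t1 - t0 + l with hP
  have hP0 : 0 < P := by linarith
  set c0 : ℝ → ℂ := fun τ => γ (min τ t1) + (σ * max (τ - t1) 0 : ℝ) * I with hc0
  have hc0c : Continuous c0 := by fun_prop
  have e1 : ∀ τ ≤ t1, c0 τ = γ τ := fun τ h => by
    simp [hc0, min_eq_left h, max_eq_right (sub_nonpos.2 h)]
  have e2 : ∀ τ, t1 ≤ τ → c0 τ = γ t1 + (σ * (τ - t1) : ℝ) * I := fun τ h => by
    simp only [hc0, min_eq_right h, max_eq_left (sub_nonneg.2 h)]
  have e3 : ∀ τ, t1 ≤ τ → τ ≤ t0 + P → (c0 τ).re = 0 ∧ |(c0 τ).im| ≤ r := fun τ h h' => by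
    rw [e2 τ h]
    have a0 := abs_le.1 h0.2
    have a1 := abs_le.1 h1.2
    refine ⟨by simp [h1.1], ?_⟩
    have : (γ t1 + (σ * (τ - t1) : ℝ) * I).im = (γ t1).im + σ * (τ - t1) := by simp
    rw [this, abs_le]
    rcases hσ with rfl | rfl <;> constructor <;> linarith [a0.1, a0.2, a1.1, a1.2]
  have e4 : c0 (t0 + P) = c0 t0 := by
    rw [e2 _ (by linarith), e1 _ h01.le]
    apply Complex.ext
    · simp [h0.1, h1.1]
    · have : (γ t1 + (σ * (t0 + P - t1) : ℝ) * I).im = (γ t1).im + σ * (t0 + P - t1) := by simp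
      rw [this, hσl, hP]; ring
  have inj : ∀ τ τ', t0 ≤ τ → τ < τ' → τ' < t0 + P → c0 τ ≠ c0 τ' := by
    intro τ τ' ha hab hb h
    rcases le_or_gt τ' t1 with h2 | h2
    · rw [e1 _ h2, e1 _ (by linarith)] at h
      have h3 := hu _ _ h (t0 - τ)
      rw [show τ + (t0 - τ) = t0 by ring] at h3
      have h4 : ¬ τ' + (t0 - τ) < t1 := fun h4 => hn _ (by linarith) h4 (h3 ▸ h0)
      have h5 : τ' + (t0 - τ) = t1 := by linarith [not_lt.1 h4]
      rw [h5] at h3
      rw [h3] at hσl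
      have : l = 0 := by
        have : σ * l = 0 := by linarith
        exact (mul_eq_zero.1 this).resolve_left hσ0
      linarith
    have h6 := congrArg Complex.im h
    rw [e2 _ h2.le] at h6
    rcases le_or_gt t1 τ with h3 | h3
    · rw [e2 _ h3] at h6
      simp only [add_im, mul_im, ofReal_re, I_im, mul_one, ofReal_im, I_re, mul_zero, add_zero,
        add_right_inj] at h6
      have := mul_left_cancel₀ hσ0 h6
      linarith
    · have h4 := e3 _ h2.le hb.le
      rw [← h, e1 _ h3.le] at h4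
      have h5 : τ = t0 := by
        by_contra h5
        exact hn τ (lt_of_le_of_ne ha (Ne.symm h5)) h3 h4
      rw [e1 _ h3.le, h5, hσl] at h6
      simp only [add_im, mul_im, ofReal_re, I_im, mul_one, ofReal_im, I_re, mul_zero, add_zero,
        add_right_inj] at h6
      have := mul_left_cancel₀ hσ0 h6
      linarith
  set c : ℝ → ℂ := fun s => c0 (t0 + P * Int.fract s) with hc
  have hcc : Continuous c :=
    ContinuousOn.comp_fract'' (f := fun x : ℝ => c0 (t0 + P * x)) (by fun_prop) (by simp [e4])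
  have hcn : ∀ s (n : ℤ), c (s + n) = c s := fun s n => by simp only [hc, Int.fract_add_intCast]
  have hf : ∀ s : ℝ, t0 ≤ t0 + P * Int.fract s ∧ t0 + P * Int.fract s < t0 + P := fun s =>
    ⟨by nlinarith [Int.fract_nonneg s], by nlinarith [Int.fract_lt_one s]⟩
  have hi : ∀ s t, s < t → t < s + 1 → c t ≠ c s := by
    intro s t h2 h3 h
    rcases lt_trichotomy (Int.fract s) (Int.fract t) with h4 | h4 | h4
    · exact inj _ _ (hf s).1 (by nlinarith) (hf t).2 h.symm
    · obtain ⟨n, hn⟩ := Int.fract_eq_fract.1 h4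
      have h5 : (-1 : ℝ) < n := by linarith
      have h6 : (n : ℝ) < 0 := by linarith
      have h7 : (-1 : ℤ) < n := by exact_mod_cast h5
      have h8 : n < 0 := by exact_mod_cast h6
      omega
    · exact inj _ _ (hf t).1 (by nlinarith) (hf s).2 h
  -- right derivatives
  have hd : ∀ t, (HasDerivWithinAt c (P * exp (ℓ (c t))) (Ici t) t) ∨
      (HasDerivWithinAt c (σ * P * I) (Ici t) t ∧ |(ℓ (c t)).im| < 1 / 4) := by
    intro t
    have hfl : ∀ᶠ x : ℝ in 𝓝[≥] t, Int.fract x = x - (⌊t⌋ : ℝ) := by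
      filter_upwards [Ico_mem_nhdsGE (Int.lt_floor_add_one t)] with x hx
      rw [Int.fract, Int.floor_eq_on_Ico ⌊t⌋ x ⟨(Int.floor_le t).trans hx.1, hx.2⟩]
    have hl : HasDerivAt (fun x : ℝ => t0 + P * (x - ⌊t⌋)) P t := by
      simpa using (((hasDerivAt_id t).sub_const (⌊t⌋ : ℝ)).const_mul P).const_add t0
    rcases lt_or_ge (t0 + P * Int.fract t) t1 with h2 | h2
    · left
      have h3 : c t = γ (t0 + P * (t - ⌊t⌋)) := e1 _ h2.le
      have h4 := (hγ (t0 + P * (t - ⌊t⌋))).scomp t hl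
      rw [← h3, real_smul] at h4
      refine h4.hasDerivWithinAt.congr_of_eventuallyEq ?_ h3
      have h5 : ∀ᶠ x in 𝓝 t, t0 + P * (x - ⌊t⌋) < t1 :=
        hl.continuousAt.eventually_lt continuousAt_const h2
      filter_upwards [hfl, mem_nhdsWithin_of_mem_nhds h5] with x hx hx'
      simp only [hc, hx, comp_apply]
      exact e1 _ hx'.le
    · right
      have h3 := e3 _ h2 (hf t).2.le
      refine ⟨?_, hs _ h3.1 h3.2⟩
      have h4 := (((((hl.sub_const t1).const_mul σ).ofReal_comp).mul_const I).const_add (γ t1))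
      rw [ofReal_mul] at h4
      refine h4.hasDerivWithinAt.congr_of_eventuallyEq ?_ (e2 _ h2)
      filter_upwards [hfl, self_mem_nhdsWithin] with x hx hx'
      simp only [hc, hx]
      refine e2 _ (h2.trans ?_)
      have : t ≤ x := hx'
      rw [Int.fract]
      nlinarith
  -- a uniform chord length
  obtain ⟨δ, hδ, hu⟩ := Metric.uniformContinuousOn_iff.1
    ((isCompact_Icc (a := (0 : ℝ)) (b := 2)).uniformContinuousOn_of_continuous
      (f := fun s => (ℓ (c s)).im) (by fun_prop)) (1 / 4) (by norm_num)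
  set ε := min (δ / 2) (1 / 2) with hε
  have hε0 : 0 < ε := lt_min (by linarith) (by norm_num)
  have hε1 : ε ≤ 1 / 2 := min_le_right _ _
  have hε2 : ε ≤ δ / 2 := min_le_left _ _
  have key : ∀ s ∈ Ico (0 : ℝ) 1, (c (s + ε) - c s) * exp (-ℓ (c s)) ∈ slitPlane := by
    intro s hs'
    set u : ℂ := exp (-ℓ (c s)) * (1 + (-σ : ℝ) * I) with hu'
    have hσ' : -σ = 1 ∨ -σ = -1 := by rcases hσ with rfl | rfl <;> norm_num
    have hcl : ∀ x ∈ Ico s (s + ε), |(ℓ (c x)).im - (ℓ (c s)).im| < 1 / 4 := fun x hx =>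
      hu x ⟨by linarith [hx.1, hs'.1], by linarith [hx.2, hs'.2]⟩ s
        ⟨hs'.1, by linarith [hs'.2]⟩ (by
          rw [Real.dist_eq, abs_lt]; constructor <;> linarith [hx.1, hx.2])
    have hex : ∀ x ∈ Ico s (s + ε), ∃ w : ℂ, HasDerivWithinAt c w (Ici x) x ∧ 0 < (w * u).re := by
      intro x hx
      have h2 := abs_lt.1 (hcl x hx)
      rcases hd x with h | ⟨h, h'⟩
      · refine ⟨_, h, ?_⟩
        have := cone (a := ℓ (c x) - ℓ (c s)) (by
          rw [sub_im, abs_lt]; constructor <;> linarith [h2.1, h2.2]) hσ'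
        rw [show (P : ℂ) * exp (ℓ (c x)) * u =
          P * (exp (ℓ (c x) - ℓ (c s)) * (1 + (-σ : ℝ) * I)) by
            rw [hu', sub_eq_add_neg, exp_add]; ring, re_ofReal_mul]
        positivity
      · refine ⟨_, h, ?_⟩
        have h3 := abs_lt.1 h'
        have := cone (a := -ℓ (c s)) (by
          rw [neg_im, abs_lt]; constructor <;> linarith [h2.1, h2.2, h3.1, h3.2]) hσ
        have h4 : (σ : ℂ) ^ 2 = 1 := by rcases hσ with rfl | rfl <;> norm_num
        rw [show (σ : ℂ) * P * I * u = P * (exp (-ℓ (c s)) * (1 + σ * I)) by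
          rw [hu']; push_cast
          linear_combination (-P * exp (-ℓ (c s)) * σ ^ 2) * I_sq + (P * exp (-ℓ (c s))) * h4,
          re_ofReal_mul]
        positivity
    choose! w hw hw' using hex
    have h2 := mono_of_right (g := fun x => (c x * u).re) (g' := fun x => (w x * u).re)
      (a := s) (b := s + ε) (by linarith) (by fun_prop)
      (fun x hx => reCLM.hasFDerivAt.comp_hasDerivWithinAt x ((hw x hx).mul_const u)) hw'
    have h3 : (c (s + ε) - c s) * exp (-ℓ (c s)) ≠ 0 :=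
      mul_ne_zero (sub_ne_zero.2 (hi _ _ (by linarith) (by linarith))) (exp_ne_zero _)
    set q := (c (s + ε) - c s) * exp (-ℓ (c s)) with hq
    have h4 : 0 ≤ (q * (1 + (-σ : ℝ) * I)).re := by
      have : q * (1 + (-σ : ℝ) * I) = c (s + ε) * u - c s * u := by rw [hq, hu']; ring
      rw [this, sub_re]; linarith
    rw [mem_slitPlane_iff]
    by_contra h5
    push Not at h5
    have h6 : 0 ≤ q.re := by simpa [h5.2] using h4
    exact h3 (Complex.ext (le_antisymm h5.1 h6) h5.2)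
  have key' : ∀ s, (c (s + ε) - c s) * exp (-ℓ (c s)) ∈ slitPlane := fun s => by
    have := key (Int.fract s) ⟨Int.fract_nonneg s, Int.fract_lt_one s⟩
    rwa [← hcn (Int.fract s + ε) ⌊s⌋, ← hcn (Int.fract s) ⌊s⌋, add_right_comm,
      Int.fract_add_floor] at this
  have hp : ∀ s, c (s + 1) = c s := fun s => by simpa using hcn s 1
  refine no_loop hcc hp hi (m := fun s => ℓ (c s) + log ((c (s + ε) - c s) * exp (-ℓ (c s))))
    ((hℓ.comp hcc).add (Continuous.clog (by fun_prop) key')) ?_ ⟨hε0, by linarith⟩ fun s => ?_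
  · have a1 := hp 0
    have a2 := hp ε
    rw [zero_add] at a1
    simp only [zero_add]
    rw [a1, add_comm 1 ε, a2]
  · rw [exp_add, exp_log (slitPlane_ne_zero (key' s)), mul_left_comm, ← exp_add, add_neg_cancel,
      exp_zero, mul_one]

/-- no orbit with bounded speed accumulates at a point where the field is `1` -/
theorem no_rec {ℓ : ℂ → ℂ} (hℓ : Continuous ℓ) (h0 : ℓ 0 = 0) {γ : ℝ → ℂ}
    (hγ : ∀ t, HasDerivAt γ (exp (ℓ (γ t))) t)
    (hu : ∀ a b, γ a = γ b → ∀ r, γ (a + r) = γ (b + r)) {M : ℝ} (hM0 : 0 < M)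
    (hM : ∀ t, 0 ≤ t → ‖exp (ℓ (γ t))‖ ≤ M) (hrec : ∀ δ > 0, ∀ T, ∃ t ≥ T, ‖γ t‖ < δ) : False := by
  have hγc : Continuous γ := continuous_iff_continuousAt.2 fun t => (hγ t).continuousAt
  have a1 : ∀ᶠ z in 𝓝 (0 : ℂ), |(ℓ z).im| < 1 / 4 :=
    ContinuousAt.eventually_lt (by fun_prop) continuousAt_const (by simp [h0])
  have a2 : ∀ᶠ z in 𝓝 (0 : ℂ), 1 / 2 < (exp (ℓ z)).re :=
    ContinuousAt.eventually_lt continuousAt_const (by fun_prop) (by simp [h0]; norm_num)
  obtain ⟨r', hr', hb⟩ := Metric.eventually_nhds_iff.1 (a1.and a2)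
  simp only [dist_zero_right] at hb
  set r := r' / 3 with hr
  have hr0 : 0 < r := by linarith
  set η := r / (2 * M) with hη
  have hη0 : 0 < η := by positivity
  have lip : ∀ a b, 0 ≤ a → 0 ≤ b → |b - a| ≤ η → ‖γ b‖ ≤ ‖γ a‖ + r / 2 := by
    intro a b ha hb' hab
    have h1 := (convex_Ici (0 : ℝ)).norm_image_sub_le_of_norm_hasDerivWithin_le (f := γ)
      (fun x _ => (hγ x).hasDerivWithinAt) (fun x hx => hM x hx) ha hb'
    have h2 : M * ‖b - a‖ ≤ r / 2 := by
      calc M * ‖b - a‖ ≤ M * η := mul_le_mul_of_nonneg_left hab hM0.le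
        _ = r / 2 := by rw [hη]; field_simp
    linarith [norm_le_norm_add_norm_sub' (γ b) (γ a)]
  have hre : ∀ t, HasDerivAt (fun t => (γ t).re) (exp (ℓ (γ t))).re t := fun t =>
    reCLM.hasFDerivAt.comp_hasDerivAt t (hγ t)
  have grow : ∀ a b, a ≤ b → (∀ x ∈ Icc a b, ‖γ x‖ < r') → (γ a).re + (b - a) / 2 ≤ (γ b).re := by
    intro a b hab hx
    have := mono_of_right (g := fun x => (γ x).re - x / 2)
      (g' := fun x => (exp (ℓ (γ x))).re - 1 / 2) hab (by fun_prop)
      (fun x _ => ((hre x).sub ((hasDerivAt_id x).div_const 2)).hasDerivWithinAt)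
      (fun x hx' => by linarith [(hb (hx x (Ico_subset_Icc_self hx'))).2])
    linarith
  have hit : ∀ T, 0 ≤ T → ∃ t ≥ T, (γ t).re = 0 ∧ |(γ t).im| ≤ r := by
    intro T hT
    obtain ⟨t, ht, hn⟩ := hrec (min (η / 2) (r / 2)) (lt_min (by linarith) (by linarith)) (T + η)
    have b1 := (lt_min_iff.1 hn).1
    have b2 := (lt_min_iff.1 hn).2
    have b3 : ∀ x ∈ Icc (t - η) (t + η), ‖γ x‖ ≤ r := fun x hx => by
      have := lip t x (by linarith) (by linarith [hx.1]) (abs_le.2 ⟨by linarith [hx.1],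
        by linarith [hx.2]⟩)
      linarith
    have b4 := abs_lt.1 ((abs_re_le_norm (γ t)).trans_lt b1)
    have b5 := grow (t - η) t (by linarith) fun x hx => by
      linarith [b3 x ⟨hx.1, by linarith [hx.2]⟩]
    have b6 := grow t (t + η) (by linarith) fun x hx => by
      linarith [b3 x ⟨by linarith [hx.1], hx.2⟩]
    obtain ⟨x, hx, hx0⟩ := intermediate_value_Icc (f := fun t => (γ t).re)
      (a := t - η) (b := t + η) (by linarith) (by fun_prop)
      (show (0 : ℝ) ∈ _ from ⟨by linarith [b4.2], by linarith [b4.1]⟩)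
    exact ⟨x, by linarith [hx.1], hx0, (abs_im_le_norm _).trans (b3 x hx)⟩
  have nrm : ∀ z : ℂ, z.re = 0 → ‖z‖ ≤ |z.im| := fun z hz => by
    simpa [hz] using norm_le_abs_re_add_abs_im z
  obtain ⟨t0, ht0, hh0⟩ := hit 0 le_rfl
  set H : Set ℝ := {t | t0 + η ≤ t ∧ (γ t).re = 0 ∧ |(γ t).im| ≤ r} with hH
  have hHc : IsClosed H := (isClosed_le continuous_const continuous_id).inter
    ((isClosed_eq (f := fun t => (γ t).re) (by fun_prop) continuous_const).inter
      (isClosed_le (f := fun t => |(γ t).im|) (by fun_prop) continuous_const))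
  have hHb : BddBelow H := ⟨t0 + η, fun t ht => ht.1⟩
  have hHn : H.Nonempty := hit (t0 + η) (by linarith)
  have hm := hHc.csInf_mem hHn hHb
  refine no_return hℓ hγ hu (r := r) (t0 := t0) (t1 := sInf H) (by linarith [hm.1])
    (fun z hz hz' => (hb (by linarith [nrm z hz])).1) hh0 hm.2 fun t h1 h2 h3 => ?_
  rcases le_total (t0 + η) t with h4 | h4
  · exact absurd (csInf_le hHb ⟨h4, h3⟩) (not_le.2 h2)
  · have := grow t0 t h1.le fun x hx => by
      have := lip t0 x ht0 (by linarith [hx.1]) (abs_le.2 ⟨by linarith [hx.1],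
        by linarith [hx.2]⟩)
      linarith [nrm _ hh0.1, hh0.2]
    rw [hh0.1, h3.1] at this
    linarith

/-- forward orbits of a nowhere vanishing plane field are unbounded -/
theorem unbounded {ℓ : ℂ → ℂ} (hℓ : Continuous ℓ) {γ : ℝ → ℂ}
    (hγ : ∀ t, HasDerivAt γ (exp (ℓ (γ t))) t)
    (hu : ∀ a b, γ a = γ b → ∀ r, γ (a + r) = γ (b + r)) (R : ℝ) : ∃ t ≥ 0, R < ‖γ t‖ := by
  by_contra hb
  push Not at hb
  have hK := isCompact_closedBall (0 : ℂ) R
  obtain ⟨q, -, φ, hφ, hq⟩ := hK.tendsto_subseq (x := fun n : ℕ => γ n)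
    fun n => mem_closedBall_zero_iff.2 (hb n (Nat.cast_nonneg n))
  obtain ⟨M, hM⟩ := hK.exists_bound_of_continuousOn (f := fun z => exp (ℓ z - ℓ q)) (by fun_prop)
  have hv := exp_ne_zero (ℓ q)
  have e : ∀ t, exp (ℓ q) * ((γ t - q) / exp (ℓ q)) + q = γ t := fun t => by field_simp; ring
  refine no_rec (ℓ := fun z => ℓ (exp (ℓ q) * z + q) - ℓ q) (by fun_prop) (by simp)
    (γ := fun t => (γ t - q) / exp (ℓ q)) (fun t => ?_) (fun a b h r => ?_) (M := max M 1)
    (by positivity) (fun t ht => ?_) fun δ hδ T => ?_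
  · simp only [e, exp_sub]
    exact ((hγ t).sub_const q).div_const _
  · have : γ a = γ b := by rw [← e a, ← e b, h]
    simp only [hu a b this r]
  · simp only [e]
    exact (hM _ (mem_closedBall_zero_iff.2 (hb t ht))).trans (le_max_left _ _)
  · have h1 : Tendsto (fun n => ‖(γ (φ n) - q) / exp (ℓ q)‖) atTop (𝓝 0) := by
      simpa using ((hq.sub_const q).div_const (exp (ℓ q))).norm
    have h2 : Tendsto (fun n => (φ n : ℝ)) atTop atTop :=
      tendsto_natCast_atTop_atTop.comp hφ.tendsto_atTop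
    obtain ⟨n, hn, hn'⟩ := ((h2.eventually_ge_atTop T).and (h1.eventually_lt_const hδ)).exists
    exact ⟨_, hn, hn'⟩

end Crest.Agent.X212.Lad50.Sm
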