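import Mathlib
import Crest.Agent.X212.Prf6.Bas
import Crest.Agent.X212.Lad50.SmaleA

/-!
# Row 212, PERF-SMALE (helper50), part B: flows of plane fields that are `1` far out

`Fl ℓ ρ ψ`: `ψ` is the flow of `exp ∘ ℓ`, `ℓ = 0` off the ball `ρ`.  Every orbit crosses from
the left to the right.  `shear_iso`, `fix_right`: the correction on the right.
-/

set_option autoImplicit false
noncomputable section
open Set Filter Topology Function Complex
open scoped ContDiff Manifold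

namespace Crest.Agent.X212.Lad50.Sm
open Prf6

/-- the flow of `exp ∘ ℓ` -/
structure Fl (ℓ : ℂ → ℂ) (ρ : ℝ) (ψ : ℝ → ℂ → ℂ) : Prop where
  cont : Continuous ℓ
  pos : 0 < ρ
  out : ∀ z, ρ < ‖z‖ → ℓ z = 0
  der : ∀ z t, HasDerivAt (fun t => ψ t z) (exp (ℓ (ψ t z))) t
  zero : ∀ z, ψ 0 z = z
  add : ∀ s t z, ψ (s + t) z = ψ s (ψ t z)
  uniq : ∀ (γ : ℝ → ℂ) (T : ℝ),
    (∀ s ∈ uIcc 0 T, ∀ᶠ r in 𝓝 s, HasDerivAt γ (exp (ℓ (γ r))) r) → ψ T (γ 0) = γ T

theorem exists_flow {ℓ : ℂ → ℂ} (hℓ : ContDiff ℝ ∞ ℓ) {ρ : ℝ} (hρ : 0 < ρ)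
    (out : ∀ z, ρ < ‖z‖ → ℓ z = 0) : ∃ ψ : ℝ → ℝ → ℂ → ℂ,
    ContDiff ℝ ∞ (fun p : ℝ × ℝ × ℂ => ψ p.2.1 p.1 p.2.2) ∧
      ∀ σ : ℝ, Fl (fun z => σ * ℓ z) ρ (ψ σ) := by
  set V : ℝ × ℂ → ℝ × ℂ := fun p => (0, exp (p.1 * ℓ p.2)) with hV
  have hVs : ContDiff ℝ ∞ V := contDiff_const.prodMk
    (ContDiff.cexp ((ofRealCLM.contDiff.comp contDiff_fst).mul (hℓ.comp contDiff_snd)))
  have hv : Flo26.SmV 𝓘(ℝ, ℝ × ℂ) V := Flo26.smV_model.2 hVs
  set Φ : ℝ → ℝ × ℂ → ℝ × ℂ := Flo26.fl (I := 𝓘(ℝ, ℝ × ℂ)) V with hΦ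
  set Dm : Set (ℝ × ℝ × ℂ) := Flo26.dom (I := 𝓘(ℝ, ℝ × ℂ)) V with hDm
  have hz : ∀ p, Φ 0 p = p := Flo26.fl_zero hv
  have hu : ∀ t p, (t, p) ∈ Dm → ∀ s ∈ uIcc 0 t, (s, p) ∈ Dm := fun t p h s hs =>
    Flo26.mem_dom_of_uIcc h hs
  have hd : ∀ t p, (t, p) ∈ Dm → HasDerivAt (fun s => Φ s p) (V (Φ t p)) t := fun t p h =>
    hasMFDerivAt_iff_hasFDerivAt.1 (Flo26.hasMFDerivAt_fl hv h)
  have hd1 : ∀ t p, (t, p) ∈ Dm → HasDerivAt (fun s => (Φ s p).1) 0 t := fun t p h =>
    (ContinuousLinearMap.fst ℝ ℝ ℂ).hasFDerivAt.comp_hasDerivAt t (hd t p h)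
  have h1 : ∀ t p, (t, p) ∈ Dm → (Φ t p).1 = p.1 := fun t p h => by
    have := (convex_uIcc 0 t).norm_image_sub_le_of_norm_hasDerivWithin_le (C := 0)
      (f := fun s => (Φ s p).1) (f' := fun _ => 0)
      (fun s hs => (hd1 s p (hu t p h s hs)).hasDerivWithinAt)
      (fun _ _ => by simp) left_mem_uIcc right_mem_uIcc
    simpa [hz, sub_eq_zero] using this
  have hd2 : ∀ t p, (t, p) ∈ Dm → HasDerivAt (fun s => (Φ s p).2) (exp (p.1 * ℓ (Φ t p).2)) t :=
    fun t p h => by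
      rw [← h1 t p h]
      exact (ContinuousLinearMap.snd ℝ ℝ ℂ).hasFDerivAt.comp_hasDerivAt t (hd t p h)
  have hc : Flo26.Cpl (I := 𝓘(ℝ, ℝ × ℂ)) V := by
    rintro ⟨T, σ, z⟩
    obtain ⟨M, hM⟩ := (isCompact_closedBall (0 : ℂ) ρ).exists_bound_of_continuousOn
      (f := fun w => exp (σ * ℓ w)) (by have := hℓ.continuous; fun_prop)
    have hM' : ∀ w, ‖exp (σ * ℓ w)‖ ≤ max M 1 := fun w => by
      rcases le_or_gt ‖w‖ ρ with h | h
      · exact (hM w (mem_closedBall_zero_iff.2 h)).trans (le_max_left _ _)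
      · simp [out w h]
    refine Flo26.mem_dom_of_compact hv ((isCompact_singleton (x := σ)).prod
      (isCompact_closedBall z (max M 1 * |T|))) fun s hs h => ⟨h1 s _ h, ?_⟩
    have := (convex_uIcc 0 s).norm_image_sub_le_of_norm_hasDerivWithin_le (C := max M 1)
      (f := fun r => (Φ r (σ, z)).2) (fun r hr => (hd2 r _ (hu _ _ h r hr)).hasDerivWithinAt)
      (fun r _ => hM' _) left_mem_uIcc right_mem_uIcc
    rw [hz, sub_zero] at this
    rw [mem_closedBall_iff_norm]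
    refine this.trans (mul_le_mul_of_nonneg_left ?_ (by positivity))
    simpa using abs_sub_left_of_mem_uIcc hs
  have ha : ∀ s t p, Φ (s + t) p = Φ s (Φ t p) := hc.add hv
  have e : ∀ t σ z, Φ t (σ, z) = (σ, (Φ t (σ, z)).2) := fun t σ z => Prod.ext (h1 _ _ (hc _)) rfl
  refine ⟨fun σ t z => (Φ t (σ, z)).2, ?_, fun σ =>
    ⟨by have := hℓ.continuous; fun_prop, hρ, fun z hz => by simp [out z hz],
      fun z t => hd2 t (σ, z) (hc _), fun z => by simp only [hz],
      fun s t z => by simp only [ha, ← e], fun γ T h => ?_⟩⟩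
  · have := hc.contMDiff hv
    rw [← modelWithCornersSelf_prod, chartedSpaceSelf_prod] at this
    exact contDiff_snd.comp (contMDiff_iff_contDiff.1 this)
  · have := (Flo26.fl_of_curve hv (γ := fun s => (σ, γ s)) (T := T) fun s hs =>
      (h s hs).mono fun r hr => hasMFDerivAt_iff_hasFDerivAt.2
        ((hasDerivAt_const r σ).prodMk hr).hasFDerivAt).2
    exact congrArg Prod.snd this

namespace Fl
variable {ℓ : ℂ → ℂ} {ρ : ℝ} {ψ : ℝ → ℂ → ℂ} (h : Fl ℓ ρ ψ)
include h

theorem line {z : ℂ} {T : ℝ} (hz : ∀ s ∈ uIcc 0 T, ρ < ‖z + s‖) : ψ T z = z + T := by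
  have := h.uniq (fun s => z + s) T fun s hs => by
    have h1 : ∀ᶠ r : ℝ in 𝓝 s, ρ < ‖z + r‖ :=
      ContinuousAt.eventually_lt continuousAt_const (by fun_prop) (hz s hs)
    filter_upwards [h1] with r hr
    rw [h.out _ hr, exp_zero]
    exact (hasDerivAt_id r).ofReal_comp.const_add z
  simpa using this

theorem hor {z : ℂ} (hz : ρ < |z.im|) (T : ℝ) : ψ T z = z + T :=
  h.line fun s _ => hz.trans_le (by simpa using abs_im_le_norm (z + s))

theorem left {z : ℂ} {T : ℝ} (hz : z.re < -ρ) (hT : z.re + T < -ρ) : ψ T z = z + T :=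
  h.line fun s hs => by
    have h1 := neg_le_of_abs_le (abs_re_le_norm (z + s))
    simp only [add_re, ofReal_re] at h1
    rcases mem_uIcc.1 hs with h2 | h2 <;> linarith [h2.1, h2.2]

theorem right {z : ℂ} {T : ℝ} (hz : ρ < z.re) (hT : ρ < z.re + T) : ψ T z = z + T :=
  h.line fun s hs => by
    have h1 := le_of_abs_le (abs_re_le_norm (z + s))
    simp only [add_re, ofReal_re] at h1
    rcases mem_uIcc.1 hs with h2 | h2 <;> linarith [h2.1, h2.2]

theorem inv (t : ℝ) (z : ℂ) : ψ (-t) (ψ t z) = z := by rw [← h.add, neg_add_cancel, h.zero]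

theorem bar {c a b : ℝ} {z : ℂ} (hc : ρ < |c|) (ha : c ≤ (ψ a z).re) (hab : a ≤ b) :
    c ≤ (ψ b z).re := by
  have hre : ∀ t, HasDerivAt (fun t => (ψ t z).re) (exp (ℓ (ψ t z))).re t := fun t =>
    reCLM.hasFDerivAt.comp_hasDerivAt t (h.der z t)
  have := image_le_of_deriv_right_lt_deriv_boundary (f := fun t => -(ψ t z).re)
    (fun t _ => (hre t).neg.continuousAt.continuousWithinAt)
    (fun t _ => (hre t).neg.hasDerivWithinAt) (B := fun _ => -c) (B' := fun _ => 0)
    (neg_le_neg ha) (fun x => hasDerivAt_const x _) (fun x _ hx => by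
      have h1 : (ψ x z).re = c := neg_inj.1 hx
      rw [h.out _ (hc.trans_le (h1 ▸ abs_re_le_norm _))]
      simp) (right_mem_Icc.2 hab)
  exact neg_le_neg_iff.1 this

omit h in
theorem far (z w : ℂ) (hw : max (2 * ρ) ‖z‖ < ‖w‖) : ρ < |w.im| ∨ w.re < -ρ ∨ ρ < w.re := by
  by_contra hn
  push Not at hn
  have h1 := norm_le_abs_re_add_abs_im w
  have h2 : |w.re| ≤ ρ := abs_le.2 hn.2
  linarith [hn.1, le_max_left (2 * ρ) ‖z‖]

theorem fwd (z : ℂ) (c : ℝ) : ∃ T, c < (ψ T z).re := by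
  suffices ∃ T, ρ < (ψ T z).re by
    obtain ⟨T, hT⟩ := this
    refine ⟨|c| + T, ?_⟩
    rw [h.add, h.right hT (by linarith [abs_nonneg c])]
    simp only [add_re, ofReal_re]
    linarith [le_abs_self c, h.pos]
  obtain ⟨t, ht, hw⟩ := unbounded h.cont (h.der z) (fun a b e r => by
    rw [add_comm a, add_comm b, h.add, h.add, e]) (max (2 * ρ) ‖z‖)
  rcases far (ρ := ρ) z _ hw with h1 | h1 | h1
  · refine ⟨(ρ + 1 - (ψ t z).re) + t, ?_⟩
    rw [h.add, h.hor h1]
    simp
  · exfalso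
    have h2 := h.left h1 (T := -t) (by linarith)
    rw [h.inv] at h2
    have h3 : ‖ψ t z‖ ≤ ‖z‖ := by
      conv_rhs => rw [h2]
      rw [← sq_le_sq₀ (norm_nonneg _) (norm_nonneg _), Complex.sq_norm, Complex.sq_norm,
        normSq_apply, normSq_apply]
      simp only [add_re, ofReal_re, add_im, ofReal_im, add_zero]
      nlinarith [h.pos]
    linarith [le_max_right (2 * ρ) ‖z‖]
  · exact ⟨t, h1⟩

theorem bwd {R : ℝ} (hR : ρ < R) (z : ℂ) : ∃ T y : ℝ, ψ T (-R + y * I) = z := by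
  obtain ⟨t, ht, hw⟩ := unbounded (ℓ := fun w => ℓ w + Real.pi * I) (γ := fun t => ψ (-t) z)
    (by have := h.cont; fun_prop) (fun t => by
      have := (h.der z (-t)).scomp t (hasDerivAt_neg t)
      rw [exp_add, exp_pi_mul_I]
      rw [neg_one_smul] at this
      rw [mul_neg_one]
      exact this) (fun a b e r => by
    rw [neg_add, neg_add, add_comm (-a), add_comm (-b), h.add, h.add, e]) (max (2 * ρ) ‖z‖)
  set w := ψ (-t) z with hw'
  have e : ψ t w = z := by simpa using h.inv (-t) z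
  have e2 : -(R : ℂ) + w.im * I + (w.re + R : ℝ) = w := by apply Complex.ext <;> simp
  rcases far (ρ := ρ) z _ hw with h1 | h1 | h1
  · exact ⟨t + (w.re + R), w.im, by rw [h.add, h.hor (z := -R + w.im * I) (by simpa using h1), e2, e]⟩
  · exact ⟨t + (w.re + R), w.im, by
      rw [h.add, h.left (z := -R + w.im * I) (by simpa using hR) (by simpa using h1), e2, e]⟩
  · exfalso
    rw [h.right h1 (by linarith)] at e
    have h3 : ‖w‖ ≤ ‖z‖ := by
      rw [← e, ← sq_le_sq₀ (norm_nonneg _) (norm_nonneg _), Complex.sq_norm, Complex.sq_norm,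
        normSq_apply, normSq_apply]
      simp only [add_re, ofReal_re, add_im, ofReal_im, add_zero]
      nlinarith [h.pos]
    linarith [le_max_right (2 * ρ) ‖z‖]

theorem leave {R T : ℝ} (hR : ρ < R) {p : ℂ} (hp : p.re = -R) (hT : 0 < T) : -R < (ψ T p).re := by
  set δ := min T ((R - ρ) / 2) with hδ
  have h1 : 0 < δ := lt_min hT (by linarith)
  have h2 : δ ≤ (R - ρ) / 2 := min_le_right _ _
  have h3 := h.bar (c := -R + δ) (a := δ) (b := T) (z := p)
    (by rw [lt_abs]; right; linarith)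
    (by rw [h.left (by linarith) (by linarith)]; simp [hp]) (min_le_left _ _)
  linarith

theorem inj {R : ℝ} (hR : ρ < R) : Injective fun z : ℂ => ψ (z.re + R) (-R + z.im * I) := by
  have key : ∀ z w : ℂ, z.re ≤ w.re →
      ψ (z.re + R) (-R + z.im * I) = ψ (w.re + R) (-R + w.im * I) → z = w := by
    intro z w hle e
    have h1 := congrArg (ψ (-(z.re + R))) e
    rw [h.inv, ← h.add] at h1
    rcases hle.eq_or_lt with h2 | h2
    · rw [h2, neg_add_cancel, h.zero] at h1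
      exact Complex.ext h2 (by simpa using congrArg Complex.im h1)
    · have h3 := h.leave hR (p := -R + w.im * I) (T := -(z.re + R) + (w.re + R)) (by simp)
        (by linarith)
      rw [← h1] at h3
      simp at h3
  intro z w e
  rcases le_total z.re w.re with h1 | h1
  · exact key z w h1 e
  · exact (key w z h1 e.symm).symm

theorem bij {R : ℝ} (hR : ρ < R) : Bijective fun z : ℂ => ψ (z.re + R) (-R + z.im * I) :=
  ⟨h.inj hR, fun z => by
    obtain ⟨T, y, e⟩ := h.bwd hR z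
    exact ⟨(T - R : ℝ) + y * I, by simpa using e⟩⟩

theorem ld {R : ℝ} (hR : ρ < R) (hs : ∀ t, ContDiff ℝ ∞ (ψ t)) (z₀ : ℂ) :
    IsLocalDiffeomorphAt IC IC ∞ (fun z : ℂ => ψ (z.re + R) (-R + z.im * I)) z₀ := by
  have h1 := (Glue52.diffeoOf (I := IC) (J := IC) (ψ (z₀.re + R)) (ψ (-(z₀.re + R)))
    (hs _).contMDiff (hs _).contMDiff (h.inv _) (fun y => by
      simpa using h.inv (-(z₀.re + R)) y)).isLocalDiffeomorph
  have h2 := Cyl58.ld_comp (h1 _) (pm_affine one_ne_zero (-(z₀.re + R : ℝ)) z₀).1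
  refine Cyl58.ld_congr h2 ?_
  have h3 : ∀ᶠ z : ℂ in 𝓝 z₀, -R + (z.re - z₀.re) < -ρ :=
    ContinuousAt.eventually_lt (by fun_prop) continuousAt_const (by linarith)
  filter_upwards [h3] with z hz
  rw [show z.re + R = (z₀.re + R) + (z.re - z₀.re) by ring, h.add,
    h.left (z := -R + z.im * I) (by simpa using hR) (by simpa using hz)]
  show _ = ψ (z₀.re + R) _
  congr 1
  apply Complex.ext <;> simp
  ring

end Fl

theorem fd_eq {F : Type*} [NormedAddCommGroup F] [NormedSpace ℝ F] {f : ℂ → F} {z e : ℂ} {d : F}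
    (hf : DifferentiableAt ℝ f z) (h : HasDerivAt (fun t : ℝ => f (z + t * e)) d 0) :
    fderiv ℝ f z e = d := by
  have h1 : HasDerivAt (fun t : ℝ => z + t * e) e 0 := by
    simpa using ((hasDerivAt_id (0 : ℝ)).ofReal_comp.mul_const e).const_add z
  exact (hf.hasFDerivAt.comp_hasDerivAt_of_eq 0 h1 (by simp)).unique h

/-- shears in the direction `e` -/
theorem shear_iso (e : ℂ) {b : ℝ → ℂ → ℝ} (hb : ContDiff ℝ ∞ fun p : ℝ × ℂ => b p.1 p.2)
    (hd : ∀ s z, 0 < 1 + fderiv ℝ (b s) z e) {M : ℝ} (hM : ∀ s z, |b s z| ≤ M)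
    (h0 : ∀ z, b 0 z = 0) : ∃ A, Iso oC A ∧ ∀ s z, A s z = z + b s z * e := by
  have hs : ∀ s, ContDiff ℝ ∞ (b s) := fun s => hb.comp (contDiff_const.prodMk contDiff_id)
  have hdd : ∀ s z, HasFDerivAt (b s) (fderiv ℝ (b s) z) z := fun s z =>
    ((hs s).differentiable (by simp) z).hasFDerivAt
  have hder : ∀ s z (t : ℝ), HasDerivAt (fun t : ℝ => t + b s (z + t * e))
      (1 + fderiv ℝ (b s) (z + t * e) e) t := fun s z t => by
    have h1 : HasDerivAt (fun t : ℝ => z + t * e) e t := by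
      simpa using ((hasDerivAt_id t).ofReal_comp.mul_const e).const_add z
    exact (hasDerivAt_id t).add ((hdd s _).comp_hasDerivAt t h1)
  have hbij : ∀ s, Bijective fun z => z + b s z * e := fun s => ⟨fun z w h => by
    simp only at h
    have h1 : w = z + (b s z - b s w : ℝ) * e := by push_cast; linear_combination -h
    have h2 := (strictMono_of_hasDerivAt_pos (hder s z) fun t => hd s _).injective
      (a₁ := b s z - b s w) (a₂ := 0) (by rw [← h1]; simp)
    rw [h1, h2]; simp, fun w => by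
    obtain ⟨t, -, ht⟩ := intermediate_value_Icc (f := fun t : ℝ => t + b s (w + t * e))
      (a := -M) (b := M) (by linarith [abs_nonneg (b s w), hM s w])
      (fun t _ => (hder s w t).continuousAt.continuousWithinAt)
      (show (0 : ℝ) ∈ _ from ⟨by linarith [(abs_le.1 (hM s (w + (-M : ℝ) * e))).2],
        by linarith [(abs_le.1 (hM s (w + M * e))).1]⟩)
    refine ⟨w + t * e, ?_⟩
    have : b s (w + t * e) = -t := by linarith
    simp [this]⟩
  have hsm : ContDiff ℝ ∞ fun p : ℝ × ℂ => p.2 + b p.1 p.2 * e :=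
    contDiff_snd.add ((ofRealCLM.contDiff.comp hb).mul contDiff_const)
  refine ⟨fun s => Equiv.ofBijective _ (hbij s), ⟨cm_of_cd hsm, fun s z => ?_,
    Equiv.ext fun z => by simp [h0]⟩, fun _ _ => rfl⟩
  refine pm_C isOpen_univ (mem_univ z)
    (hsm.comp (contDiff_const.prodMk contDiff_id)).contDiffOn ?_
  have h1 : HasFDerivAt (fun z => z + b s z * e) _ z :=
    (hasFDerivAt_id z).add ((ofRealCLM.hasFDerivAt.comp z (hdd s z)).mul_const e)
  have h2 : fderiv ℝ (b s) z e = e.re * fderiv ℝ (b s) z 1 + e.im * fderiv ℝ (b s) z I := by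
    rw [← smul_eq_mul, ← smul_eq_mul, ← map_smul, ← map_smul, ← map_add]
    congr 1
    simp
  have h3 := hd s z
  rw [show ⇑(Equiv.ofBijective _ (hbij s)) = fun z => z + b s z * e from rfl, h1.fderiv, det_C]
  simp
  nlinarith

theorem exists_slope : ∃ B > 0, ∀ x, |deriv Real.smoothTransition x| ≤ B := by
  have h1 : HasCompactSupport (deriv Real.smoothTransition) := by
    refine HasCompactSupport.intro (isCompact_Icc (a := (0 : ℝ)) (b := 1)) fun t ht => ?_
    rcases not_and_or.1 ht with h | h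
    · have : Real.smoothTransition =ᶠ[𝓝 t] fun _ => 0 := by
        filter_upwards [Iio_mem_nhds (not_le.1 h)] with z hz
        exact Real.smoothTransition.zero_of_nonpos (le_of_lt hz)
      rw [this.deriv_eq, deriv_const]
    · have : Real.smoothTransition =ᶠ[𝓝 t] fun _ => 1 := by
        filter_upwards [Ioi_mem_nhds (not_le.1 h)] with z hz
        exact Real.smoothTransition.one_of_one_le (le_of_lt hz)
      rw [this.deriv_eq, deriv_const]
  obtain ⟨B, hB⟩ := h1.exists_bound_of_continuous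
    ((Real.smoothTransition.contDiff (n := 1)).continuous_deriv le_rfl)
  exact ⟨max B 1, by positivity, fun x => (hB x).trans (le_max_left _ _)⟩

/-- correction on the right -/
theorem fix_right {F : ℝ → Equiv.Perm ℂ} (hF : Iso oC F) {R M : ℝ} (hR : 0 < R)
    (hl : ∀ s z, z.re ≤ -R ∨ R ≤ |z.im| → F s z = z)
    (hr : ∀ s (z : ℂ), R ≤ z.re → F s z = F s (R + z.im * I) + (z.re - R : ℝ))
    (hM : ∀ s (y : ℝ), ‖F s (R + y * I) - (R + y * I)‖ ≤ M)
    (h1 : ∀ y : ℝ, F 1 (R + y * I) = R + y * I) :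
    ∃ φ, Iso oC φ ∧ φ 1 = F 1 ∧ ∃ ρ : ℝ, ∀ t z, ρ ≤ ‖z‖ → φ t z = z := by
  obtain ⟨B, hB0, hB⟩ := exists_slope
  have hM0 : 0 ≤ M := (norm_nonneg _).trans (hM 0 0)
  set D : ℝ → ℝ → ℂ := fun s y => F s (R + y * I) - (R + y * I) with hD
  have hFs : ContDiff ℝ ∞ fun p : ℝ × ℂ => F p.1 p.2 := cd_of_cm hF.sm
  have hv : ContDiff ℝ ∞ fun p : ℝ × ℂ => (R : ℂ) + p.2.im * I := contDiff_const.add
    ((ofRealCLM.contDiff.comp (imCLM.contDiff.comp contDiff_snd)).mul contDiff_const)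
  have hDs : ContDiff ℝ ∞ fun p : ℝ × ℂ => D p.1 p.2.im :=
    (hFs.comp (contDiff_fst.prodMk hv)).sub hv
  have hD0 : ∀ y, D 0 y = 0 := fun y => by simp [hD, hF.zero]
  have hD1 : ∀ y, D 1 y = 0 := fun y => by simp [hD, h1]
  have hD2 : ∀ s y, R ≤ |y| → D s y = 0 := fun s y hy => by
    simp only [hD]; rw [hl s _ (.inr (by simpa using hy)), sub_self]
  set L := B * M + 1 with hL
  have hL0 : 0 < L := by positivity
  set χ : ℝ → ℝ := fun x => Real.smoothTransition ((x + R) / L) with hχ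
  have hχs : ContDiff ℝ ∞ χ := Real.smoothTransition.contDiff.comp (by fun_prop)
  have hχp : ContDiff ℝ ∞ fun p : ℝ × ℂ => χ p.2.re := hχs.comp (reCLM.contDiff.comp contDiff_snd)
  have hχ0 : ∀ x, 0 ≤ χ x := fun x => Real.smoothTransition.nonneg _
  have hχ1 : ∀ x, χ x ≤ 1 := fun x => Real.smoothTransition.le_one _
  have hχl : ∀ x, x ≤ -R → χ x = 0 := fun x hx =>
    Real.smoothTransition.zero_of_nonpos (div_nonpos_of_nonpos_of_nonneg (by linarith) hL0.le)
  have hχr : ∀ x, L ≤ x → χ x = 1 := fun x hx =>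
    Real.smoothTransition.one_of_one_le ((one_le_div hL0).2 (by linarith))
  have bd : ∀ (x a : ℝ), |a| ≤ M → |χ x * a| ≤ M := fun x a ha => by
    rw [abs_mul, abs_of_nonneg (hχ0 x)]
    nlinarith [hχ0 x, hχ1 x, abs_nonneg a]
  have sl : ∀ {b : ℝ → ℂ → ℝ}, ContDiff ℝ ∞ (fun p : ℝ × ℂ => b p.1 p.2) → ∀ s z,
      DifferentiableAt ℝ (b s) z := fun hb s z =>
    (hb.comp (contDiff_const.prodMk contDiff_id)).differentiable (by simp) z
  have hA : ContDiff ℝ ∞ fun p : ℝ × ℂ => χ p.2.re * (D p.1 p.2.im).re :=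
    hχp.mul (reCLM.contDiff.comp hDs)
  obtain ⟨A, iA, eA⟩ := shear_iso 1 (b := fun s z => χ z.re * (D s z.im).re) hA (fun s z => by
    have h2 : HasDerivAt (fun t : ℝ => (z.re + t + R) / L) (1 / L) 0 :=
      (((hasDerivAt_id (0 : ℝ)).const_add z.re).add_const R).div_const L
    have h3 := (((Real.smoothTransition.contDiff (n := 1)).differentiable (by simp)
      _).hasDerivAt.comp (0 : ℝ) h2).mul_const (D s z.im).re
    rw [fd_eq (sl (b := fun s z => χ z.re * (D s z.im).re) hA s z) (by simpa [hχ] using h3)]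
    have h4 := hB ((z.re + R) / L)
    have h5 := (abs_re_le_norm _).trans (hM s z.im)
    have h6 : |deriv Real.smoothTransition ((z.re + R) / L) * (D s z.im).re| ≤ B * M := by
      rw [abs_mul]; exact mul_le_mul h4 h5 (abs_nonneg _) hB0.le
    have h7 := (abs_le.1 h6).1
    have : 1 + deriv Real.smoothTransition ((z.re + R) / L) * L⁻¹ * (D s z.im).re =
        (L + deriv Real.smoothTransition ((z.re + R) / L) * (D s z.im).re) / L := by field_simp
    rw [this]
    exact div_pos (by linarith) hL0)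
    (fun s z => bd _ _ ((abs_re_le_norm _).trans (hM s z.im))) (fun z => by simp [hD0])
  have hG : ContDiff ℝ ∞ fun p : ℝ × ℂ => χ p.2.re * (D p.1 p.2.im).im :=
    hχp.mul (imCLM.contDiff.comp hDs)
  obtain ⟨G', iG, eG⟩ := shear_iso I (b := fun s z => χ z.re * (D s z.im).im) hG (fun s z => by
    set w : ℂ := (R + 1 : ℝ) + z.im * I with hw
    have hp := hF.mem s w
    have hdf := hp.contDiffAt.differentiableAt (by simp)
    have h2 : fderiv ℝ (F s) w 1 = 1 := fd_eq hdf (by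
      have h3 : HasDerivAt (fun t : ℝ => F s (R + z.im * I) + (1 + t : ℝ)) 1 0 := by
        simpa using ((hasDerivAt_id (0 : ℝ)).const_add 1).ofReal_comp.const_add (F s (R + z.im * I))
      refine h3.congr_of_eventuallyEq ?_
      filter_upwards [Ioi_mem_nhds (show (-1 : ℝ) < 0 by norm_num)] with t ht
      have ht' : -1 < t := ht
      rw [hr s _ (by simp [hw]; linarith)]
      simp [hw]
      ring)
    have h3 := hp.det_pos
    rw [det_C, h2] at h3
    have h4 : HasDerivAt (fun t : ℝ => w + t * I) I 0 := by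
      simpa using ((hasDerivAt_id (0 : ℝ)).ofReal_comp.mul_const I).const_add w
    have h5 := imCLM.hasFDerivAt.comp_hasDerivAt 0
      (hdf.hasFDerivAt.comp_hasDerivAt_of_eq 0 h4 (by simp))
    have h6 := (h5.sub ((hasDerivAt_id (0 : ℝ)).const_add z.im)).const_mul (χ z.re)
    rw [fd_eq (sl (b := fun s z => χ z.re * (D s z.im).im) hG s z) (d := χ z.re * ((fderiv ℝ (F s) w I).im - 1)) (by
      refine h6.congr_of_eventuallyEq (Eventually.of_forall fun t => ?_)
      simp only [comp_apply, imCLM_apply, Pi.sub_apply, id]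
      rw [hr s (w + t * I) (by simp [hw])]
      simp [hw, hD])]
    simp only [one_re, one_mul, one_im, mul_zero, sub_zero] at h3
    rcases (hχ0 z.re).eq_or_lt with h7 | h7
    · rw [← h7]; norm_num
    · nlinarith [mul_pos h7 h3, hχ1 z.re])
    (fun s z => bd _ _ ((abs_im_le_norm _).trans (hM s z.im))) (fun z => by simp [hD0])
  refine ⟨fun s => (G' s * A s)⁻¹ * F s, (iG.mul iA).inv.mul hF, ?_,
    (R + L + M) + (R + L + M), fun s z hz => ?_⟩
  · have : G' 1 * A 1 = 1 := Equiv.ext fun z => by simp [eA, eG, hD1]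
    simp only [this, inv_one, one_mul]
  rw [Equiv.Perm.mul_apply, Equiv.Perm.inv_eq_iff_eq, Equiv.Perm.mul_apply, eG, eA]
  rcases le_or_gt R |z.im| with h2 | h2
  · simp [hl s z (.inr h2), hD2 s _ h2]
  have h3 := norm_le_abs_re_add_abs_im z
  rcases le_abs.1 (show R + L + M ≤ |z.re| by linarith) with h4 | h4
  · have h5 := (abs_le.1 ((abs_re_le_norm _).trans (hM s z.im))).1
    rw [hr s z (by linarith), hχr z.re (by linarith), hχr _ (by
      simp only [add_re, one_mul, mul_one, ofReal_re, hD]; linarith)]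
    apply Complex.ext <;> simp [hD]
    ring
  · simp [hl s z (.inl (by linarith)), hχl z.re (by linarith)]

end Crest.Agent.X212.Lad50.Sm
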