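import Mathlib
import Crest.Agent.X212.Lad50.SmaleB

/-!
# Row 212, PERF-SMALE (helper50): compactly supported diffeomorphisms of the plane are isotopic
to the identity with compact support
-/

set_option autoImplicit false
noncomputable section
open Set Filter Topology Function Complex
open scoped ContDiff Manifold

namespace Crest.Agent.X212.Lad50.Sm
open Prf6

theorem pre_out (ρ : ℝ) : IsPreconnected {z : ℂ | ρ < ‖z‖} := by
  have h := ((isPreconnected_Ioi (a := ρ)).prod (isPreconnected_univ (α := ℝ))).image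
    (fun p : ℝ × ℝ => (p.1 : ℂ) * exp (p.2 * I)) (by fun_prop)
  convert h using 1
  ext z
  constructor
  · exact fun hz => ⟨(‖z‖, arg z), ⟨hz, trivial⟩, norm_mul_exp_arg_mul_I z⟩
  · rintro ⟨p, ⟨hp, -⟩, rfl⟩
    have : ρ < p.1 := hp
    simp only [mem_ofPred_eq, norm_mul, norm_exp_ofReal_mul_I, mul_one, norm_real, Real.norm_eq_abs]
    exact this.trans_le (le_abs_self _)

theorem contDiff_log {X ℓ : ℂ → ℂ} (hX : ContDiff ℝ ∞ X) (hℓ : Continuous ℓ)
    (e : ∀ z, exp (ℓ z) = X z) : ContDiff ℝ ∞ ℓ := by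
  refine contDiff_iff_contDiffAt.2 fun z₀ => ?_
  have h1 : ContDiffAt ℝ ∞ (fun z => ℓ z₀ + log (X z / X z₀)) z₀ := by
    refine contDiffAt_const.add (ContDiffAt.comp z₀ (g := log) ?_ (hX.contDiffAt.div_const _))
    rw [div_self (e z₀ ▸ exp_ne_zero _)]
    exact (contDiffAt_log one_mem_slitPlane).restrict_scalars ℝ
  refine h1.congr_of_eventuallyEq ?_
  have h2 : ∀ᶠ z in 𝓝 z₀, |(ℓ z - ℓ z₀).im| < Real.pi :=
    ContinuousAt.eventually_lt (by fun_prop) continuousAt_const (by simp [Real.pi_pos])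
  filter_upwards [h2] with z hz
  rw [← e, ← e, ← exp_sub, log_exp (abs_lt.1 hz).1 (abs_lt.1 hz).2.le]
  ring

theorem smale : Smale := by
  rintro h hh ⟨ρ₀, hρ₀⟩
  set ρ := max ρ₀ 1 with hρ
  have hρ0 : 0 < ρ := by positivity
  have hid : ∀ z, ρ ≤ ‖z‖ → h z = z := fun z hz => hρ₀ z ((le_max_left _ _).trans hz)
  have hs : ContDiff ℝ ∞ h := contMDiff_iff_contDiff.1 (G_sm hh)
  have hs' : ContDiff ℝ ∞ (h⁻¹ : Equiv.Perm ℂ) := contMDiff_iff_contDiff.1 (G_sm (inv_mem hh))
  set X : ℂ → ℂ := fun z => fderiv ℝ h (h⁻¹ z) 1 with hX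
  have hXs : ContDiff ℝ ∞ X :=
    ((hs.fderiv_right (m := ∞) (by simp)).comp hs').clm_apply contDiff_const
  have hX0 : ∀ z, X z ≠ 0 := fun z e => by
    have h1 := (hh (h⁻¹ z)).det_pos
    rw [det_C, show fderiv ℝ h (h⁻¹ z) 1 = 0 from e] at h1
    simp at h1
  have hX1 : ∀ z, ρ < ‖z‖ → X z = 1 := fun z hz => by
    have h1 : h⁻¹ z = z := by rw [Equiv.Perm.inv_eq_iff_eq, hid z hz.le]
    have h2 : h =ᶠ[𝓝 z] id := by
      filter_upwards [(isOpen_lt continuous_const continuous_norm).mem_nhds hz] with w hw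
      exact hid w (le_of_lt hw)
    simp only [hX, h1, h2.fderiv_eq, fderiv_id, ContinuousLinearMap.id_apply]
  have hb : ρ < ‖((ρ + 1 : ℝ) : ℂ)‖ := by
    rw [norm_real, Real.norm_eq_abs, abs_of_pos (by linarith)]; linarith
  obtain ⟨ℓ, hℓc, hℓ0, hℓ⟩ := exists_log hXs.continuous hX0 ((ρ + 1 : ℝ) : ℂ) (e := 0)
    (by rw [hX1 _ hb, exp_zero])
  have hout : ∀ z, ρ < ‖z‖ → ℓ z = 0 := fun z hz =>
    (log_constOn (pre_out ρ) hℓc.continuousOn (fun w hw => (hℓ w).trans (hX1 w hw)) hz hb).trans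
      hℓ0
  obtain ⟨ψ, hψ, hF⟩ := exists_flow (contDiff_log hXs hℓc hℓ) hρ0 hout
  set R := ρ + 1 with hR
  have hρR : ρ < R := by linarith
  set F : ℝ → Equiv.Perm ℂ := fun σ => Equiv.ofBijective _ ((hF σ).bij hρR) with hFd
  have eF : ∀ σ z, F σ z = ψ σ (z.re + R) (-R + z.im * I) := fun _ _ => rfl
  have ez : ∀ z : ℂ, -(R : ℂ) + z.im * I + (z.re + R : ℝ) = z := fun z => by
    apply Complex.ext <;> simp
  have hsm : ContDiff ℝ ∞ fun p : ℝ × ℂ => F p.1 p.2 :=
    hψ.comp (f := fun p : ℝ × ℂ => (p.2.re + R, p.1, -(R : ℂ) + p.2.im * I))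
      (((reCLM.contDiff.comp contDiff_snd).add contDiff_const).prodMk (contDiff_fst.prodMk
        (contDiff_const.add ((ofRealCLM.contDiff.comp (imCLM.contDiff.comp contDiff_snd)).mul
          contDiff_const))))
  have hF0 : F 0 = 1 := Equiv.ext fun z => by
    have := (hF 0).uniq (fun r => -R + z.im * I + r) (z.re + R) fun s _ =>
      Eventually.of_forall fun r => by
        simpa using (hasDerivAt_id r).ofReal_comp.const_add (-(R : ℂ) + z.im * I)
    rw [eF, ez] at *
    simpa using this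
  have hF1 : F 1 = h := Equiv.ext fun z => by
    have := (hF 1).uniq (fun r => h (-R + z.im * I + r)) (z.re + R) fun s _ =>
      Eventually.of_forall fun r => by
        have h1 := (hs.differentiable (by simp) _).hasFDerivAt.comp_hasDerivAt r
          ((hasDerivAt_id r).ofReal_comp.const_add (-(R : ℂ) + z.im * I))
        simp only [ofReal_one, one_mul, hℓ, hX, Equiv.Perm.coe_inv, Equiv.symm_apply_apply]
        exact h1
    rw [ez, ofReal_zero, add_zero, hid] at this
    · exact this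
    · have := neg_le_of_abs_le (abs_re_le_norm (-(R : ℂ) + z.im * I))
      simp at this
      linarith
  have hI : Iso oC F := iso_of_ld (cm_of_cd hsm) (fun σ z => (hF σ).ld hρR (fun t =>
    hψ.comp (f := fun z : ℂ => (t, σ, z)) (by fun_prop)) z) hF0
  -- a uniform exit time
  have hK : IsCompact (Icc (0 : ℝ) 1 ×ˢ Icc (-R) R) := isCompact_Icc.prod isCompact_Icc
  obtain ⟨T, hT⟩ : ∃ T : ℝ, ∀ q ∈ Icc (0 : ℝ) 1 ×ˢ Icc (-R) R, ∀ t ≥ T,
      R ≤ (ψ q.1 t (-R + q.2 * I)).re := by
    refine hK.induction_on (p := fun S : Set (ℝ × ℝ) => ∃ T : ℝ, ∀ q ∈ S, ∀ t ≥ T,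
      R ≤ (ψ q.1 t (-R + q.2 * I)).re) ⟨0, fun q hq => hq.elim⟩
      (fun S S' hS ⟨T, hT⟩ => ⟨T, fun q hq => hT q (hS hq)⟩)
      (fun S S' ⟨T, hT⟩ ⟨T', hT'⟩ => ⟨max T T', fun q hq t ht => hq.elim
        (fun hq => hT q hq t ((le_max_left _ _).trans ht))
        fun hq => hT' q hq t ((le_max_right _ _).trans ht)⟩) fun q _ => ?_
    obtain ⟨T, hT⟩ := (hF q.1).fwd (-R + q.2 * I) R
    have h1 : Continuous fun q : ℝ × ℝ => (ψ q.1 T (-R + q.2 * I)).re :=
      continuous_re.comp (hψ.continuous.comp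
        (f := fun q : ℝ × ℝ => (T, q.1, -(R : ℂ) + q.2 * I)) (by fun_prop))
    exact ⟨_, mem_nhdsWithin_of_mem_nhds ((isOpen_lt continuous_const h1).mem_nhds hT), T,
      fun q' hq' t ht => (hF q'.1).bar (hρR.trans_le (le_abs_self R)) (le_of_lt hq') ht⟩
  set R' := max T 0 + R with hR'
  have hRR : R ≤ R' := by linarith [le_max_right T 0]
  have hl : ∀ σ (z : ℂ), z.re ≤ -R ∨ R ≤ |z.im| → F σ z = z := fun σ z hz => by
    rw [eF]
    rcases hz with hz | hz
    · rw [(hF σ).left (by simpa using hρR) (by simp; linarith), ez]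
    · rw [(hF σ).hor (by simpa using hρR.trans_le hz), ez]
  obtain ⟨M, hM⟩ := hK.exists_bound_of_continuousOn
    (f := fun q : ℝ × ℝ => F q.1 (R' + q.2 * I) - (R' + q.2 * I))
    ((hsm.continuous.comp (f := fun q : ℝ × ℝ => (q.1, (R' : ℂ) + q.2 * I))
      (by fun_prop)).sub (by fun_prop)).continuousOn
  have hσ : ∀ s, Real.smoothTransition s ∈ Icc (0 : ℝ) 1 := fun s =>
    ⟨Real.smoothTransition.nonneg s, Real.smoothTransition.le_one s⟩
  obtain ⟨φ, h1, h2, h3⟩ := fix_right hI.clamp (R := R') (M := max M 0) (by linarith)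
    (fun s z hz => hl _ z (hz.imp (fun hz => by linarith) fun hz => by linarith))
    (fun s z hz => by
      have h4 : R ≤ (F (Real.smoothTransition s) (R' + z.im * I)).re := by
        rcases le_total R |z.im| with h4 | h4
        · rw [hl _ _ (.inr (by simpa using h4))]
          simpa using hRR
        · have := hT (Real.smoothTransition s, z.im) ⟨hσ s, abs_le.1 h4⟩ (R' + R)
            (by linarith [le_max_left T 0])
          rw [eF]
          simpa using this
      rw [← (hF (Real.smoothTransition s)).right (by linarith) (by linarith), eF, eF,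
        ← (hF _).add]
      congr 1
      · simp only [add_re, ofReal_re, mul_re, I_re, ofReal_im, I_im]
        ring
      · simp)
    (fun s y => by
      rcases le_total R |y| with h4 | h4
      · rw [hl _ _ (.inr (by simpa using h4))]
        simp
      · exact (hM (Real.smoothTransition s, y) ⟨hσ s, abs_le.1 h4⟩).trans (le_max_left _ _))
    (fun y => by
      rw [Real.smoothTransition.one, hF1, hid]
      have := le_of_abs_le (abs_re_le_norm ((R' : ℂ) + y * I))
      simp at this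
      linarith)
  exact ⟨φ, h1, by rw [h2, Real.smoothTransition.one, hF1], h3⟩

end Crest.Agent.X212.Lad50.Sm
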