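import Mathlib
import Crest.Agent.X212.Prf6.Loc
import Crest.Agent.X212.Lad50.Smale

/-!
# Row 212, PERF-COLL (helper50): uniqueness of annulus charts with a given core
-/

set_option autoImplicit false
set_option linter.unusedSectionVars false
noncomputable section
open Set Filter Topology Function Complex
open scoped ContDiff Manifold

namespace Crest.Agent.X212.Lad50.Co
open Prf6 Sm

theorem red (z : ℂ) : ∃ n : ℤ, ∃ w : ℂ, w.re ∈ Icc (0 : ℝ) 1 ∧ w.im = z.im ∧ z = w + n :=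
  ⟨⌊z.re⌋, z - ⌊z.re⌋, by
    simpa using (Int.fract_lt_one z.re).le, by simp, by simp⟩

theorem per_bdd {f : ℂ → ℝ} (hf : Continuous f) (hp : ∀ z (n : ℤ), f (z + n) = f z) (r : ℝ) :
    ∃ M ≥ 0, ∀ z : ℂ, |z.im| ≤ r → |f z| ≤ M := by
  obtain ⟨M, hM⟩ := (isCompact_bx (-r) r).exists_bound_of_continuousOn hf.continuousOn
  refine ⟨max M 0, le_max_right _ _, fun z hz => ?_⟩
  obtain ⟨n, w, h1, h2, rfl⟩ := red z
  rw [hp]
  exact (hM w ⟨h1, abs_le.1 (h2 ▸ hz)⟩).trans (le_max_left _ _)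

theorem per_pos {f : ℂ → ℝ} (hf : Continuous f) (hp : ∀ z (n : ℤ), f (z + n) = f z)
    (h : ∀ t : ℝ, 0 < f t) : ∃ r > 0, ∃ m > 0, ∀ z : ℂ, |z.im| ≤ r → m ≤ f z := by
  obtain ⟨q, hq, hm⟩ := (isCompact_bx 0 0).exists_isMinOn ⟨0, by simp [bx, mem_reProdIm]⟩
    hf.continuousOn
  have hq0 : 0 < f q := by
    have : q = (q.re : ℂ) := Complex.ext (by simp) (by simpa using le_antisymm hq.2.2 hq.2.1)
    rw [this]; exact h _
  obtain ⟨δ, hδ, hs⟩ := (isCompact_bx 0 0).exists_thickening_subset_open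
    (isOpen_lt (continuous_const (y := f q / 2)) hf) fun z hz => by
      have : f q ≤ f z := hm hz
      simp only [mem_ofPred_eq]; linarith
  refine ⟨δ / 2, by linarith, f q / 2, by linarith, fun z hz => ?_⟩
  obtain ⟨n, w, h1, h2, rfl⟩ := red z
  rw [hp]
  refine le_of_lt (hs (Metric.mem_thickening_iff.2 ⟨w.re, ⟨by simpa using h1, by simp⟩, ?_⟩))
  rw [dist_eq_norm, show w - w.re = w.im * I by apply Complex.ext <;> simp]
  simp only [norm_mul, norm_real, norm_I, mul_one, Real.norm_eq_abs]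
  rw [h2]; linarith

/-- slow cut-off -/
theorem exists_slow {δ η : ℝ} (hδ : 0 < δ) (hη : 0 < η) : ∃ χ : ℝ → ℝ, ContDiff ℝ ∞ χ ∧
    (∀ y, 0 ≤ χ y ∧ χ y ≤ 1) ∧ (∀ y, δ < |y| → χ y = 0 ∧ deriv χ y = 0) ∧
    (∃ r > 0, ∀ y, |y| < r → χ y = 1) ∧ ∀ y, |deriv χ y| * |y| ≤ η := by
  obtain ⟨B, hB0, hB⟩ := exists_slope
  set κ := η / (2 * B) with hκ
  have hκ0 : 0 < κ := by positivity
  set s := Real.exp (-1 / κ) / 2 with hs
  have hs0 : 0 < s := by positivity
  have hu : ∀ y : ℝ, 0 < y ^ 2 / δ ^ 2 + s := fun y => by positivity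
  set χ : ℝ → ℝ := fun y => Real.smoothTransition (-κ * Real.log (y ^ 2 / δ ^ 2 + s)) with hχ
  have h0 : ∀ y, δ < |y| → χ y = 0 := fun y hy => by
    refine Real.smoothTransition.zero_of_nonpos ?_
    have h1 : 1 ≤ y ^ 2 / δ ^ 2 := by
      rw [one_le_div (by positivity), ← sq_abs y]; nlinarith
    nlinarith [Real.log_nonneg (show 1 ≤ y ^ 2 / δ ^ 2 + s by linarith)]
  refine ⟨χ, Real.smoothTransition.contDiff.comp (contDiff_const.mul
    (ContDiff.log (by fun_prop) fun y => (hu y).ne')), fun y => ⟨Real.smoothTransition.nonneg _,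
      Real.smoothTransition.le_one _⟩, fun y hy => ⟨h0 y hy, ?_⟩,
    ⟨δ * min s 1, by positivity, fun y hy => Real.smoothTransition.one_of_one_le ?_⟩, fun y => ?_⟩
  · have : χ =ᶠ[𝓝 y] fun _ => 0 :=
      ((isOpen_lt continuous_const continuous_abs).eventually_mem hy).mono fun x hx => h0 x hx
    rw [this.deriv_eq, deriv_const]
  · have h1 : y ^ 2 / δ ^ 2 ≤ s := by
      have a1 := min_le_left s 1
      have a2 := min_le_right s 1
      have a3 : 0 < min s 1 := by positivity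
      rw [div_le_iff₀ (by positivity), ← sq_abs y]
      calc |y| ^ 2 ≤ (δ * min s 1) ^ 2 := by gcongr
        _ = (min s 1 * min s 1) * δ ^ 2 := by ring
        _ ≤ s * δ ^ 2 := by gcongr; nlinarith
    have h2 : Real.log (y ^ 2 / δ ^ 2 + s) ≤ -1 / κ := by
      rw [Real.log_le_iff_le_exp (hu y)]; linarith
    have h3 : κ * (-1 / κ) = -1 := by field_simp
    nlinarith
  · have h1 : HasDerivAt (fun y : ℝ => -κ * Real.log (y ^ 2 / δ ^ 2 + s))
        (-κ * (2 * y / δ ^ 2 / (y ^ 2 / δ ^ 2 + s))) y := by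
      have := ((((hasDerivAt_pow 2 y).div_const (δ ^ 2)).add_const s).log (hu y).ne').const_mul (-κ)
      simpa using this
    have h2 := (((Real.smoothTransition.contDiff (n := 1)).differentiable (by simp)
      _).hasDerivAt.comp y h1).deriv
    rw [show deriv χ y = _ from h2, abs_mul, mul_assoc, ← abs_mul _ y]
    have h3 : |-κ * (2 * y / δ ^ 2 / (y ^ 2 / δ ^ 2 + s)) * y| ≤ 2 * κ := by
      have h4 : -κ * (2 * y / δ ^ 2 / (y ^ 2 / δ ^ 2 + s)) * y =
          -(2 * κ * (y ^ 2 / δ ^ 2 / (y ^ 2 / δ ^ 2 + s))) := by ring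
      have h5 : y ^ 2 / δ ^ 2 / (y ^ 2 / δ ^ 2 + s) ≤ 1 := (div_le_one (hu y)).2 (by linarith)
      rw [h4, abs_neg, abs_of_nonneg (by have := hu y; positivity)]
      nlinarith
    calc _ ≤ B * (2 * κ) := mul_le_mul (hB _) h3 (abs_nonneg _) hB0.le
      _ = η := by rw [hκ]; field_simp

theorem fd_per {F : ℂ → ℂ} (hp : ∀ z (n : ℤ), F (z + n) = F z + n) (z : ℂ) (n : ℤ) :
    fderiv ℝ F (z + n) = fderiv ℝ F z := by
  rw [← fderiv_comp_add_right, funext fun w => hp w n, fderiv_add_const]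

theorem line_der {F : ℂ → ℂ} (hF : ContDiff ℝ ∞ F) (z e : ℂ) (t : ℝ) :
    HasDerivAt (fun t : ℝ => F (z + t * e)) (fderiv ℝ F (z + t * e) e) t := by
  have h1 : HasDerivAt (fun t : ℝ => z + t * e) e t := by
    simpa using ((hasDerivAt_id t).ofReal_comp.mul_const e).const_add z
  exact (hF.differentiable (by simp) _).hasFDerivAt.comp_hasDerivAt t h1

/-- a periodic germ along the real axis is the end of a periodic isotopy supported in a strip -/
theorem strip_iso {F : ℂ → ℂ} (hF : ∀ z, Pm oC oC F z) (hp : ∀ z (n : ℤ), F (z + n) = F z + n)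
    (hr : ∀ t : ℝ, (F t).im = 0) (h1 : ∀ t : ℝ, 0 < (fderiv ℝ F t 1).re) {δ : ℝ} (hδ : 0 < δ) :
    ∃ κ, Iso oC κ ∧ (∀ t z (n : ℤ), κ t (z + n) = κ t z + n) ∧
      (∀ t (z : ℂ), δ < |z.im| → κ t z = z) ∧ ∃ r > 0, ∀ z : ℂ, |z.im| < r → κ 1 z = F z := by
  set σ := Real.smoothTransition with hσ
  have σ0 : ∀ s, 0 ≤ σ s := Real.smoothTransition.nonneg
  have σ1 : ∀ s, σ s ≤ 1 := Real.smoothTransition.le_one
  have σs : ContDiff ℝ ∞ fun p : ℝ × ℂ => σ p.1 := Real.smoothTransition.contDiff.comp contDiff_fst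
  have sl : ∀ {b : ℝ → ℂ → ℝ}, ContDiff ℝ ∞ (fun p : ℝ × ℂ => b p.1 p.2) → ∀ s z,
      DifferentiableAt ℝ (b s) z := fun hb s z =>
    (hb.comp (contDiff_const.prodMk contDiff_id)).differentiable (by simp) z
  have bd : ∀ {χ : ℝ → ℝ} {f : ℂ → ℝ} {r M : ℝ}, (∀ y, 0 ≤ χ y ∧ χ y ≤ 1) →
      (∀ y, r < |y| → χ y = 0 ∧ deriv χ y = 0) → 0 ≤ M → (∀ z : ℂ, |z.im| ≤ r → |f z| ≤ M) →
      ∀ s (z : ℂ), |σ s * (χ z.im * f z)| ≤ M := by
    intro χ f r M a1 a2 a3 a4 s z
    rcases le_or_gt |z.im| r with h | h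
    · rw [abs_mul, abs_mul, abs_of_nonneg (σ0 s), abs_of_nonneg (a1 _).1]
      calc _ ≤ 1 * (1 * M) := by
            gcongr
            exacts [mul_nonneg (a1 _).1 (abs_nonneg _), σ1 s, (a1 _).2, a4 z h]
        _ = M := by ring
    · simpa [(a2 _ h).1] using a3
  have hFs : ContDiff ℝ ∞ F := contDiff_iff_contDiffAt.2 fun z => (hF z).contDiffAt
  have hFd : Continuous (fderiv ℝ F) := hFs.continuous_fderiv (by simp)
  -- the horizontal shear
  obtain ⟨r1, hr1, m1, hm1, ha⟩ := per_pos (f := fun z => (fderiv ℝ F z 1).re) (by fun_prop)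
    (fun z n => by simp only [fd_per hp]) h1
  obtain ⟨χ, c1, c2, c3, ⟨ρ, hρ, c4⟩, -⟩ := exists_slow (lt_min hδ hr1) one_pos
  obtain ⟨M, hM0, hM⟩ := per_bdd (f := fun z => (F z).re - z.re)
    (by have := hFs.continuous; fun_prop) (fun z n => by simp [hp]) (min δ r1)
  have hb : ContDiff ℝ ∞ fun p : ℝ × ℂ => σ p.1 * (χ p.2.im * ((F p.2).re - p.2.re)) :=
    σs.mul ((c1.comp (imCLM.contDiff.comp contDiff_snd)).mul
      ((reCLM.contDiff.comp (hFs.comp contDiff_snd)).sub (reCLM.contDiff.comp contDiff_snd)))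
  obtain ⟨H, iH, eH⟩ := shear_iso 1 (b := fun s z => σ s * (χ z.im * ((F z).re - z.re))) hb
    (fun s z => by
      have h2 := (((der_re (line_der hFs z 1 0)).sub ((hasDerivAt_id (0 : ℝ)).const_add
        z.re)).const_mul (χ z.im)).const_mul (σ s)
      rw [fd_eq (sl (b := fun s z => σ s * (χ z.im * ((F z).re - z.re))) hb s z)
        (d := σ s * (χ z.im * ((fderiv ℝ F z 1).re - 1))) (by simpa using h2)]
      rcases le_or_gt |z.im| (min δ r1) with h | h
      · have h3 := ha z (h.trans (min_le_right _ _))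
        have h4 : σ s * χ z.im ≤ 1 := mul_le_one₀ (σ1 s) (c2 _).1 (c2 _).2
        have h5 : 0 ≤ σ s * χ z.im := mul_nonneg (σ0 s) (c2 _).1
        rcases h5.eq_or_lt with h6 | h6
        · rw [← mul_assoc, ← h6]; norm_num
        · nlinarith [mul_pos h6 (hm1.trans_le h3)]
      · simp [(c3 _ h).1])
    (bd c2 c3 hM0 hM) (fun z => by simp [hσ])
  have pH : ∀ s z (n : ℤ), H s (z + n) = H s z + n := fun s z n => by
    simp only [eH, hp, add_re, add_im, intCast_re, intCast_im, add_zero, add_sub_add_right_eq_sub]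
    ring
  have imH : ∀ s z, (H s z).im = z.im := fun s z => by simp [eH]
  set V : ℂ → ℂ := F ∘ ((H 1)⁻¹ : Equiv.Perm ℂ) with hV
  have eV : ∀ z, V (H 1 z) = F z := fun z => by simp [hV]
  have hVm : ∀ z, Pm oC oC V z := fun z => (hF _).comp (inv_mem (iH.mem 1) z)
  have hVs : ContDiff ℝ ∞ V := contDiff_iff_contDiffAt.2 fun z => (hVm z).contDiffAt
  have hVd : Continuous (fderiv ℝ V) := hVs.continuous_fderiv (by simp)
  have pV : ∀ z (n : ℤ), V (z + n) = V z + n := fun z n => by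
    obtain ⟨w, rfl⟩ := (H 1).surjective z
    rw [← pH, eV, eV, hp]
  have reV : ∀ z : ℂ, |z.im| < ρ → (V z).re = z.re := fun z hz => by
    obtain ⟨w, rfl⟩ := (H 1).surjective z
    rw [imH] at hz
    rw [eV, eH]
    simp [hσ, c4 _ hz]
  have imV : ∀ z : ℂ, z.im = 0 → (V z).im = 0 := fun z hz => by
    obtain ⟨w, rfl⟩ := (H 1).surjective z
    rw [imH] at hz
    rw [eV, show w = (w.re : ℂ) from Complex.ext (by simp) (by simpa using hz), hr]
  -- the vertical shear
  obtain ⟨r2, hr2, m, hm, hd⟩ := per_pos (f := fun z => (fderiv ℝ V z I).im) (by fun_prop)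
    (fun z n => by simp only [fd_per pV]) (fun t => by
      have h2 : ∀ v, (fderiv ℝ V t v).re = v.re := fun v => by
        have h3 := reCLM.hasFDerivAt.comp (t : ℂ) (hVs.differentiable (by simp) _).hasFDerivAt
        have h4 : (reCLM : ℂ → ℝ) =ᶠ[𝓝 (t : ℂ)] reCLM ∘ V := by
          filter_upwards [(isOpen_lt (f := fun z : ℂ => |z.im|) (by fun_prop)
            continuous_const).mem_nhds (show |(t : ℂ).im| < ρ by simpa using hρ)] with z hz
          exact (reV z hz).symm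
        exact congrArg (fun L : ℂ →L[ℝ] ℝ => L v)
          ((h3.congr_of_eventuallyEq h4).unique reCLM.hasFDerivAt)
      have h3 := (hVm t).det_pos
      rw [det_C, h2, h2] at h3
      simpa using h3)
  obtain ⟨K, hK0, hK⟩ := per_bdd (f := fun z => (fderiv ℝ V z I).im - 1) (by fun_prop)
    (fun z n => by simp only [fd_per pV]) r2
  have mv : ∀ z : ℂ, |z.im| ≤ r2 → |(V z).im - z.im| ≤ K * |z.im| := fun z hz => by
    have := (convex_uIcc 0 z.im).norm_image_sub_le_of_norm_hasDerivWithin_le (C := K)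
      (f := fun t : ℝ => (V (z.re + t * I)).im - t)
      (fun t _ => ((der_im (line_der hVs z.re I t)).sub (hasDerivAt_id t)).hasDerivWithinAt)
      (fun t ht => hK _ (by
        have := abs_sub_left_of_mem_uIcc ht
        simp only [sub_zero] at this
        simpa using this.trans hz)) left_mem_uIcc right_mem_uIcc
    simpa [imV z.re (by simp)] using this
  have hm1 : 0 < min m 1 := lt_min hm one_pos
  obtain ⟨χ', d1, d2, d3, ⟨ρ', hρ', d4⟩, d5⟩ := exists_slow (lt_min hδ hr2)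
    (show 0 < min m 1 / (2 * (K + 1)) by positivity)
  obtain ⟨M', hM0', hM'⟩ := per_bdd (f := fun z => (V z).im - z.im)
    (by have := hVs.continuous; fun_prop) (fun z n => by simp [pV]) (min δ r2)
  have hb' : ContDiff ℝ ∞ fun p : ℝ × ℂ => σ p.1 * (χ' p.2.im * ((V p.2).im - p.2.im)) :=
    σs.mul ((d1.comp (imCLM.contDiff.comp contDiff_snd)).mul
      ((imCLM.contDiff.comp (hVs.comp contDiff_snd)).sub (imCLM.contDiff.comp contDiff_snd)))
  obtain ⟨W, iW, eW⟩ := shear_iso I (b := fun s z => σ s * (χ' z.im * ((V z).im - z.im))) hb'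
    (fun s z => by
      have h0 : HasDerivAt (fun t : ℝ => z.im + t) 1 0 := (hasDerivAt_id (0 : ℝ)).const_add z.im
      have h2 := (((d1.differentiable (by simp) _).hasDerivAt.comp (0 : ℝ) h0).mul
        ((der_im (line_der hVs z I 0)).sub h0)).const_mul (σ s)
      rw [fd_eq (sl (b := fun s z => σ s * (χ' z.im * ((V z).im - z.im))) hb' s z)
        (d := σ s * (deriv χ' z.im * ((V z).im - z.im) + χ' z.im * ((fderiv ℝ V z I).im - 1)))
        (by simpa using h2)]
      rcases le_or_gt |z.im| (min δ r2) with h | h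
      · have h3 := hd z (h.trans (min_le_right _ _))
        have h4 : |deriv χ' z.im * ((V z).im - z.im)| ≤ min m 1 / 2 := by
          rw [abs_mul]
          calc _ ≤ |deriv χ' z.im| * (K * |z.im|) := by
                gcongr; exact mv z (h.trans (min_le_right _ _))
            _ = K * (|deriv χ' z.im| * |z.im|) := by ring
            _ ≤ (K + 1) * (min m 1 / (2 * (K + 1))) := by gcongr; exacts [by linarith, d5 _]
            _ = _ := by field_simp
        have h5 : σ s * χ' z.im ≤ 1 := mul_le_one₀ (σ1 s) (d2 _).1 (d2 _).2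
        have h6 : 0 ≤ σ s * χ' z.im := mul_nonneg (σ0 s) (d2 _).1
        have h7 := (abs_le.1 h4).1
        have h8 : -(min m 1 / 2) ≤ σ s * (deriv χ' z.im * ((V z).im - z.im)) := by
          nlinarith [σ0 s, σ1 s]
        have h9 : min m 1 ≤ 1 + σ s * χ' z.im * ((fderiv ℝ V z I).im - 1) := by
          nlinarith [min_le_left m 1, min_le_right m 1]
        nlinarith
      · simp [(d3 _ h).1, (d3 _ h).2])
    (bd d2 d3 hM0' hM') (fun z => by simp [hσ])
  refine ⟨fun s => W s * H s, iW.mul iH, fun s z n => ?_, fun s z hz => ?_,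
    min ρ ρ', lt_min hρ hρ', fun z hz => ?_⟩
  · simp only [Equiv.Perm.mul_apply, pH, eW, pV, add_im, intCast_im, add_zero]
    ring
  · have h2 : H s z = z := by simp [eH, (c3 _ ((min_le_left _ _).trans_lt hz)).1]
    simp [h2, eW, (d3 _ ((min_le_left _ _).trans_lt hz)).1]
  · rw [Equiv.Perm.mul_apply, ← eV, eW, d4 _ (by rw [imH]; exact (lt_min_iff.1 hz).2)]
    have h2 := reV (H 1 z) (by rw [imH]; exact (lt_min_iff.1 hz).1)
    apply Complex.ext <;> simp [hσ, h2]

section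
variable {M : Type*} [TopologicalSpace M] [T2Space M] [ChartedSpace ℂ M] [IsManifold IC ∞ M]
  {o : Or M} {A A' : ℂ → M}

theorem exists_lift (hA : An o A) (hA' : ∀ z, Pm oC o A' z) (hr : range A' ⊆ range A) :
    ∃ F : ℂ → ℂ, (∀ z, Pm oC oC F z) ∧ ∀ z, A (F z) = A' z := by
  have h2 : (2 * Real.pi * I : ℂ) ≠ 0 := two_pi_I_ne_zero
  set E : M → ℂ := fun y => exp (2 * Real.pi * I * invFun A y) with hE
  have e1 : ∀ w, E (A w) = exp (2 * Real.pi * I * w) := fun w => by
    obtain ⟨n, hn⟩ := (hA.2 _ _).1 (invFun_eq (f := A) ⟨w, rfl⟩)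
    simp only [hE]
    conv_rhs => rw [hn]
    rw [mul_add, exp_add, mul_comm _ (n : ℂ), exp_int_mul_two_pi_mul_I, mul_one]
  have e2 : Continuous (E ∘ A') := continuous_iff_continuousAt.2 fun z => by
    obtain ⟨w, hw⟩ := hr ⟨z, rfl⟩
    have h3 : ContMDiffAt IC IC ∞ E (A w) := Cyl58.contMDiffAt_of_comp (hA.1 w).1 (by
      rw [show E ∘ A = _ from funext e1]
      exact (ContDiff.cexp (𝕜 := ℝ) (contDiff_const.mul contDiff_id)).contMDiff w)
    exact ContinuousAt.comp (hw ▸ h3.continuousAt) (cont_of_pm hA').continuousAt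
  obtain ⟨L, hL, -, eL⟩ := exists_log e2 (fun _ => exp_ne_zero _) 0 rfl
  have e3 : ∀ z, A (L z / (2 * Real.pi * I)) = A' z := fun z => by
    obtain ⟨w, hw⟩ := hr ⟨z, rfl⟩
    have h3 := eL z
    rw [comp_apply, ← hw, e1, exp_eq_exp_iff_exists_int] at h3
    obtain ⟨n, hn⟩ := h3
    rw [← hw, ← hA.per w n, hn]
    congr 1
    field_simp
  refine ⟨fun z => L z / (2 * Real.pi * I), fun z => ?_, e3⟩
  have h3 : Pm oC o (A ∘ fun z => L z / (2 * Real.pi * I)) z := by
    rw [show (A ∘ fun z => L z / (2 * Real.pi * I)) = A' from funext e3]; exact hA' z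
  have h4 := Cyl58.ld_of_comp_left (hA.1 _).1 (hL.div_const _).continuousAt h3.1
  refine ⟨h4, ?_⟩
  have h5 := h3.2
  rw [dt_comp (hA.1 _).mdiff (h4.contMDiffAt.mdifferentiableAt (by simp))] at h5
  have h6 := (hA.1 (L z / (2 * Real.pi * I))).2
  simp only [oC, one_mul, comp_apply] at h5 h6 ⊢
  rw [← mul_assoc] at h5
  exact (pos_iff_pos_of_mul_pos h5).1 h6

theorem coll_pos (hA : An o A) (hA' : An o A') {F : ℂ → ℂ} (hF : ∀ z, Pm oC oC F z)
    (e : ∀ z, A (F z) = A' z) (hr : ∀ t : ℝ, (F t).im = 0)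
    (h1 : ∀ t : ℝ, 0 < (fderiv ℝ F t 1).re) {U : Set M} (hU : IsOpen U) (hc : core A ⊆ U) :
    ∃ φ, Iso o φ ∧ NearI φ Uᶜ ∧ ∃ δ > 0, ∀ z : ℂ, |z.im| < δ → φ 1 (A z) = A' z := by
  have hFs : ContDiff ℝ ∞ F := contDiff_iff_contDiffAt.2 fun z => (hF z).contDiffAt
  have hFc := hFs.continuous
  have hf : ∀ t : ℝ, HasDerivAt (fun t : ℝ => (F t).re) (fderiv ℝ F t 1).re t := fun t => by
    simpa using der_re (line_der hFs 0 1 t)
  have hm := strictMono_of_hasDerivAt_pos hf h1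
  have hk : ∀ z, ∃ n : ℤ, F (z + 1) = F z + n := fun z => (hA.2 _ _).1 (by
    rw [e, e]; simpa using (hA'.per z 1).symm)
  have hc' : ∀ z, F (z + 1) - F z = F (0 + 1) - F 0 := fun z => by
    have := log_const (L := fun z => 2 * Real.pi * I * (F (z + 1) - F z)) (c := 1) (by fun_prop)
      (fun z => by
        obtain ⟨n, hn⟩ := hk z
        rw [hn, add_sub_cancel_left, mul_comm, exp_int_mul_two_pi_mul_I]) z 0
    exact mul_left_cancel₀ two_pi_I_ne_zero this
  have h2 : F (0 + 1) = F 0 + 1 := by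
    obtain ⟨n, hn⟩ := hk 0
    have h3 : (F (1 : ℝ)).re = (F (0 : ℝ)).re + n := by simpa using congrArg Complex.re hn
    have h4 : (0 : ℝ) < n := by linarith [hm zero_lt_one]
    have h5 : 0 < n := by exact_mod_cast h4
    have h6 : (1 : ℝ) ≤ n := by exact_mod_cast h5
    obtain ⟨t, ht, ht'⟩ := intermediate_value_Icc (f := fun t : ℝ => (F t).re) zero_le_one
      (by fun_prop) (show (F (0 : ℝ)).re + 1 ∈ _ from ⟨by linarith, by linarith⟩)
    have h7 : F t = F (0 : ℝ) + (1 : ℤ) := Complex.ext (by simpa using ht') (by rw [add_im, hr, hr]; simp)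
    obtain ⟨k, hk'⟩ := (hA'.2 (0 : ℝ) t).1 (by rw [← e, ← e, h7, hA.per])
    have h8 : t = k := by exact_mod_cast (by simpa using hk' : (t : ℂ) = k)
    have h9 : t ≠ 0 := by
      rintro rfl
      simp at ht'
    have h10 : (0 : ℝ) < k := h8 ▸ lt_of_le_of_ne ht.1 h9.symm
    have h11 : 0 < k := by exact_mod_cast h10
    have h12 : (1 : ℝ) ≤ k := by exact_mod_cast h11
    have h13 : t = 1 := le_antisymm ht.2 (h8 ▸ h12)
    rw [h13] at h7
    simpa using h7
  have h3 : ∀ z, F (z + 1) = F z + 1 := fun z => by linear_combination hc' z + h2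
  have hp : ∀ z (n : ℤ), F (z + n) = F z + n := fun z n => by
    have := (show Function.Periodic (fun z => F z - z) 1 from fun z => by
      simp only [h3]; ring).int_mul n z
    simp only [mul_one] at this
    linear_combination this
  obtain ⟨δ, hδ, hs⟩ := hA.tube hU hc
  obtain ⟨κ, k1, k2, k3, r, hr0, k4⟩ := strip_iso hF hp hr h1 (half_pos hδ)
  have ho : ∀ t, ∀ z : ℂ, z.im ∉ Icc (-(δ / 2)) (δ / 2) → ∃ n : ℤ, κ t z = z + n := fun t z hz =>
    ⟨0, by rw [k3 t z (lt_of_not_ge fun h => hz (abs_le.1 h))]; simp⟩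
  refine ⟨fun t => tr A (κ t), hA.tr_iso k1 k2 ho, tr_nearI hA.1 (fun t => hA.wd (k2 t))
    (isCompact_bx _ _) (fun t => hA.out (ho t)) ?_, r, hr0, fun z hz => ?_⟩
  · rw [disjoint_compl_right_iff_subset]
    rintro _ ⟨z, hz, rfl⟩
    exact hs z ((abs_le.2 hz.2).trans_lt (by linarith))
  · rw [(hA.wd (k2 1)).apply, k4 z hz, e]

end

theorem coll : Coll := by
  intro X A A' U hA hA' hc hU hAU
  obtain ⟨δ₀, hδ₀, B, hB, hBA, -, eB⟩ := hA'.thin (isOpenMap_of_pm hA.1).isOpen_range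
    (hc ▸ core_subset A)
  obtain ⟨F, hF, e⟩ := exists_lift hA hB.1 hBA
  have hFs : ContDiff ℝ ∞ F := contDiff_iff_contDiffAt.2 fun z => (hF z).contDiffAt
  have hFd : Continuous (fderiv ℝ F) := hFs.continuous_fderiv (by simp)
  have hr : ∀ t : ℝ, (F t).im = 0 := fun t => hA.mem_core.1 (by
    rw [e, eB _ (by simpa using hδ₀.le), hc]; exact ⟨t, rfl⟩)
  have hne : ∀ t : ℝ, (fderiv ℝ F t 1).re ≠ 0 := fun t h => by
    have h1 : HasDerivAt (fun t : ℝ => (F t).im) (fderiv ℝ F t 1).im t := by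
      simpa using der_im (line_der hFs 0 1 t)
    rw [funext hr] at h1
    have h2 := (hF t).det_pos
    rw [det_C, h, h1.unique (hasDerivAt_const t 0)] at h2
    simp at h2
  have hcont : Continuous fun t : ℝ => (fderiv ℝ F t 1).re := by fun_prop
  have sg : ∀ s t : ℝ, 0 < (fderiv ℝ F s 1).re → 0 < (fderiv ℝ F t 1).re := fun s t h => by
    by_contra h'
    obtain ⟨u, hu⟩ := intermediate_value_univ t s hcont ⟨not_lt.1 h', h.le⟩
    exact hne u hu
  by_cases h0 : 0 < (fderiv ℝ F (0 : ℝ) 1).re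
  · obtain ⟨φ, h1, h2, δ, hδ, h3⟩ := coll_pos hA hB hF e hr (fun t => sg 0 t h0) hU hAU
    refine ⟨φ, h1, h2, 1, .inl rfl, min δ δ₀, lt_min hδ hδ₀, fun z hz => ?_⟩
    rw [h3 z (lt_min_iff.1 hz).1, eB z (lt_min_iff.1 hz).2.le, ofReal_one, one_mul]
  · obtain ⟨φ, h1, h2, δ, hδ, h3⟩ := coll_pos hA hB.neg (F := fun z => F (-z))
      (fun z => ((hF _).comp (pm_affine (a := -1) (by simp) 0 z)).congr
        (Eventually.of_forall fun w => by simp)) (fun z => e _)
      (fun t => by simpa using hr (-t)) (fun t => by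
        have h4 := ((hFs.differentiable (by simp) (-(t : ℂ))).hasFDerivAt.comp (t : ℂ)
          (hasFDerivAt_id (𝕜 := ℝ) (t : ℂ)).neg).fderiv
        rw [show fderiv ℝ (fun z => F (-z)) t = _ from h4]
        have h5 : (fderiv ℝ F (-t : ℝ) 1).re < 0 :=
          lt_of_le_of_ne (not_lt.1 fun h => h0 (sg _ 0 h)) (hne _)
        simpa using h5) hU hAU
    refine ⟨φ, h1, h2, -1, .inr rfl, min δ δ₀, lt_min hδ hδ₀, fun z hz => ?_⟩
    rw [h3 z (lt_min_iff.1 hz).1, eB _ (by simpa using (lt_min_iff.1 hz).2.le)]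
    simp

end Crest.Agent.X212.Lad50.Co
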