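import Crest.Agent.X212.Dec35.Lv
import Crest.Agent.X212.Hm83.Poi
import Crest.Agent.X212.Cht98.Cov

/-!
# Row 212, leaf DEC-ROW: the row is controlled by its value at the peak
-/

set_option autoImplicit false
set_option linter.unusedSectionVars false
noncomputable section
open scoped Manifold ContDiff Topology InnerProductSpace
open MeasureTheory Set Function Filter Real

namespace Crest.Agent.X212.Lad50.Rw
open An Sob92 Nd18 Cyf70 Dec35

/-- Cauchy-Schwarz on a finite measure space -/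
theorem cs {α : Type} [MeasurableSpace α] (ν : Measure α) [IsFiniteMeasure ν] {f : α → ℝ}
    (hf : MemLp f 2 ν) : ∫ x, f x ∂ν ≤ √(ν.real univ) * √(∫ x, f x ^ 2 ∂ν) := by
  have h1 : Integrable f ν := hf.integrable one_le_two
  have h2 : Integrable (fun x => f x ^ 2) ν := hf.integrable_sq
  have h := discrim_le_zero (a := ν.real univ) (b := 2 * ∫ x, f x ∂ν) (c := ∫ x, f x ^ 2 ∂ν)
    fun c => by
      have e : ∫ x, (c * c + 2 * c * f x + f x ^ 2) ∂ν =
          ν.real univ * (c * c) + 2 * (∫ x, f x ∂ν) * c + ∫ x, f x ^ 2 ∂ν := by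
        have h3 : Integrable (fun x => c * c + 2 * c * f x) ν :=
          (integrable_const _).add (h1.const_mul _)
        rw [integral_add h3 h2,
          integral_add (integrable_const _) (h1.const_mul _), integral_const, integral_const_mul,
          smul_eq_mul]
        ring
      rw [← e]
      exact integral_nonneg fun x => by
        show 0 ≤ c * c + 2 * c * f x + f x ^ 2
        nlinarith [sq_nonneg (c + f x)]
  rw [← sqrt_mul measureReal_nonneg]
  refine le_sqrt_of_sq_le ?_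
  rw [discrim] at h
  nlinarith

variable {E3 : Type} [NormedAddCommGroup E3] [NormedSpace ℝ E3] [FiniteDimensional ℝ E3]
  [MeasurableSpace E3] [BorelSpace E3]
  {H3 : Type} [TopologicalSpace H3] {I3 : ModelWithCorners ℝ E3 H3} [I3.Boundaryless]
  {Y : Type} [TopologicalSpace Y] [ChartedSpace H3 Y] [IsManifold I3 ∞ Y] [T2Space Y]
  [MeasurableSpace Y] [BorelSpace Y] [SecondCountableTopology Y] [CompactSpace Y]
  {κ : Type} [Fintype κ] {lam : Type} [Fintype lam]
  {V : Type} [NormedAddCommGroup V] [InnerProductSpace ℝ V] [FiniteDimensional ℝ V]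
  (D : YD I3 Y κ lam)

theorem tame (h : D.OK) (y : Y) : ∃ C, D.Z.Tame C := by
  have := Hm83.dim_le h.B h.G (y, 0)
  rw [Module.finrank_prod, Module.finrank_self] at this
  exact Cht98.tame_cyl D.F (by omega)

theorem row_smul (n : Y → V) (u : Y × ℝ → V) (f : ℝ → ℝ) (t : ℝ) :
    row D n (fun x => f x.2 • u x) t = f t * row D n u t := by
  simp only [row, real_inner_smul_right, integral_const_mul]

theorem sl_sq (u : Y × ℝ → V) (t : ℝ) : sl D u t ^ 2 = ∫ y, ‖u (y, t)‖ ^ 2 ∂D.F.μ :=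
  sq_sqrt (integral_nonneg fun _ => sq_nonneg _)

/-- the variation of a row on a bounded interval -/
theorem row_var {n : Y → V} (hn : Continuous n) {N : ℝ} (hN : ∀ y, ‖n y‖ ≤ N) (h0 : 0 ≤ N)
    {W : Y × ℝ → V} (hW : Fl D.Z.toPre W) {Λ s t : ℝ} (ht : |t - s| ≤ Λ) :
    |row D n W t - row D n W s| ≤
      N * (√(D.F.μ.real univ * (2 * Λ)) * D.Z.nrm 0 (D.Z.D none W)) := by
  have := FiniteDimensional.complete ℝ V
  have hΛ : 0 ≤ Λ := (abs_nonneg _).trans ht
  have hW' := hW.D none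
  have hi : ∀ t, Integrable (fun y => ⟪n y, W (y, t)⟫_ℝ) D.F.μ := fun t =>
    (hn.inner (sm_slice_fst hW.sm t).continuous).integrable_of_hasCompactSupport
      (HasCompactSupport.of_compactSpace _)
  have e : D.F.μ.prod (volume.restrict (Icc (s - Λ) (s + Λ))) =
      (D.F.μ.prod volume).restrict (univ ×ˢ Icc (s - Λ) (s + Λ)) := by
    rw [← Measure.prod_restrict, Measure.restrict_univ]
  have m0 : MemLp (D.Z.D none W) 2 (D.F.μ.prod volume) := hW'.fl 0
  have m1 : MemLp (fun x => ‖D.Z.D none W x‖) 2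
      (D.F.μ.prod (volume.restrict (Icc (s - Λ) (s + Λ)))) := e ▸ m0.norm.restrict _
  have m2 := m1.integrable one_le_two
  rw [row, row, ← integral_sub (hi t) (hi s), ← Real.norm_eq_abs]
  refine (norm_integral_le_of_norm_le (m2.integral_prod_left.const_mul N)
    (Eventually.of_forall fun y => ?_)).trans ?_
  · have hc := (sm_slice_snd hW'.sm y).continuous
    rw [← inner_sub_right, ← intervalIntegral.integral_eq_sub_of_hasDerivAt
      (fun τ _ => hasDerivAt_slice D.F.toPre hW.sm y τ) (hc.intervalIntegrable s t)]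
    refine (norm_inner_le_norm _ _).trans (mul_le_mul (hN y)
      (intervalIntegral.norm_integral_le_integral_norm_uIoc.trans ?_) (norm_nonneg _) h0)
    refine setIntegral_mono_set (hc.norm.continuousOn.integrableOn_compact isCompact_Icc)
      (Eventually.of_forall fun _ => norm_nonneg _) (LE.le.eventuallyLE ?_)
    obtain ⟨h1, h2⟩ := abs_le.1 ht
    exact uIoc_subset_uIcc.trans (uIcc_subset_Icc ⟨by linarith, by linarith⟩
      ⟨by linarith, by linarith⟩)
  · rw [integral_const_mul, ← integral_prod _ m2]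
    refine mul_le_mul_of_nonneg_left ((cs _ m1).trans (mul_le_mul (le_of_eq ?_) ?_
      (sqrt_nonneg _) (sqrt_nonneg _))) h0
    · rw [← univ_prod_univ, measureReal_prod_prod, measureReal_restrict_apply_univ,
        Real.volume_real_Icc, max_eq_left (by linarith)]
      congr 2
      ring
    · rw [nrm_eq, e]
      exact sqrt_le_sqrt (setIntegral_le_integral m0.norm.integrable_sq
        (Eventually.of_forall fun _ => sq_nonneg _))

/-- **DEC-ROW** -/
theorem rowS : RowStmt I3 Y κ lam := fun D β n hD hn Λ hΛ => by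
  rcases isEmpty_or_nonempty Y with hY | ⟨⟨y₀⟩⟩
  · refine ⟨0, le_rfl, fun _ => ⟨0, le_rfl, fun ψ k d s K₀ u V _ _ _ _ _ _ _ => ?_⟩⟩
    simp [row, integral_of_isEmpty]
  obtain ⟨C, hC⟩ := tame D hD y₀
  obtain ⟨N, hN⟩ := hn.continuous.bounded_above_of_compact_support
    (HasCompactSupport.of_compactSpace _)
  have h0 : 0 ≤ N := (norm_nonneg _).trans (hN y₀)
  obtain ⟨m, hm⟩ : ∃ m, m = D.F.μ.real univ := ⟨_, rfl⟩
  have m0 : 0 ≤ m := hm ▸ measureReal_nonneg
  refine ⟨2 * Λ * (N * √(m * (2 * Λ))), by positivity, fun Dd => ?_⟩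
  obtain ⟨K, K0, hK⟩ := Dw_le (V := Cv (cy β)) hC Dd 0
  refine ⟨2 * Λ + (1 + m) * K, by positivity, fun ψ k d s K₀ u V hψ _ hk hu hV hK₀ h => ?_⟩
  obtain ⟨A, hA⟩ : ∃ A, A = D.Z.nrm 0 (D.Z.D none fun x => exp (ψ x.2) • V x) := ⟨_, rfl⟩
  obtain ⟨w, hw⟩ : ∃ w, w = nw D.Z.toPre 4 (fun x => ψ x.2) u := ⟨_, rfl⟩
  obtain ⟨a, ha⟩ : ∃ a, a = exp (ψ s) * |row D n V s| := ⟨_, rfl⟩
  obtain ⟨B, hB⟩ : ∃ B, B = N * (√(m * (2 * Λ)) * A) := ⟨_, rfl⟩
  have A0 : 0 ≤ A := hA ▸ nrm_nonneg _ _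
  have w0 : 0 ≤ w := hw ▸ nw_nonneg _ _
  have a0 : 0 ≤ a := by rw [ha]; positivity
  have B0 : 0 ≤ B := by rw [hB]; positivity
  have iu : Integrable (fun x : Y × ℝ => ‖exp (ψ x.2) • u x‖ ^ 2) (D.F.μ.prod volume) :=
    MemLp.integrable_sq (MemLp.norm ((hψ.fl hu).fl 0))
  have s1 : ∀ t, sl D u t ^ 2 ≤ m * (K * w) ^ 2 := fun t => by
    rw [sl_sq, hm, ← smul_eq_mul, ← integral_const]
    refine integral_mono_of_nonneg (Eventually.of_forall fun _ => sq_nonneg _) (integrable_const _)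
      (Eventually.of_forall fun y => pow_le_pow_left₀ (norm_nonneg _) ?_ 2)
    refine (hK _ d hψ u hu [] le_rfl (y, t)).trans ?_
    rw [← hw]
    exact mul_le_mul_of_nonneg_right (mul_le_of_le_one_right K0
      (exp_le_one_iff.2 (neg_nonpos.2 (hψ.nn (y, t))))) w0
  have s2 : ∀ t, exp (ψ t) ^ 2 * sl D u t ^ 2 = ∫ y, ‖exp (ψ t) • u (y, t)‖ ^ 2 ∂D.F.μ := fun t => by
    rw [sl_sq, ← integral_const_mul]
    simp only [norm_smul, mul_pow, Real.norm_eq_abs, sq_abs]
  have s3 : ∫ t, ∫ y, ‖exp (ψ t) • u (y, t)‖ ^ 2 ∂D.F.μ ≤ w ^ 2 := by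
    rw [← integral_prod_symm _ iu]
    refine (nrm_sq (F := D.Z.toPre) 0 fun x => exp (ψ x.2) • u x).symm.le.trans ?_
    exact pow_le_pow_left₀ (nrm_nonneg _ _) (hw ▸ nw_mono (Nat.zero_le 4) u) 2
  have i1 : Integrable ((Icc (s - Λ) (s + Λ)).indicator fun _ : ℝ => (a + B) ^ 2) :=
    (integrableOn_const (by simp)).integrable_indicator measurableSet_Icc
  have i2 := iu.integral_prod_right.const_mul (K₀ ^ 2 * (m * (K * w) ^ 2))
  have key : ∫ t, (k t * exp (ψ t) * row D n V t) ^ 2 ≤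
      2 * Λ * (a + B) ^ 2 + K₀ ^ 2 * (m * (K * w) ^ 2) * w ^ 2 := by
    refine (integral_mono_of_nonneg (Eventually.of_forall fun _ => sq_nonneg _) (i1.add i2)
      (Eventually.of_forall fun t => ?_)).trans ?_
    · show _ ≤ (Icc (s - Λ) (s + Λ)).indicator (fun _ : ℝ => (a + B) ^ 2) t +
        K₀ ^ 2 * (m * (K * w) ^ 2) * ∫ y, ‖exp (ψ t) • u (y, t)‖ ^ 2 ∂D.F.μ
      have p1 : 0 ≤ (Icc (s - Λ) (s + Λ)).indicator (fun _ : ℝ => (a + B) ^ 2) t :=
        indicator_nonneg (fun _ _ => sq_nonneg _) t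
      rw [← s2]
      have p2 : 0 ≤ K₀ ^ 2 * (m * (K * w) ^ 2) * (exp (ψ t) ^ 2 * sl D u t ^ 2) := by positivity
      have q : (k t * exp (ψ t) * row D n V t) ^ 2 ≤ (exp (ψ t) * row D n V t) ^ 2 := by
        rw [mul_assoc, mul_pow (k t)]
        exact mul_le_of_le_one_left (sq_nonneg _) ((sq_le_one_iff_abs_le_one _).2 (hk t))
      by_cases hk0 : k t = 0
      · rw [hk0, zero_mul, zero_mul, zero_pow two_ne_zero]
        exact add_nonneg p1 p2
      rcases h t hk0 with h1 | h1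
      · have h2 := row_var D hn.continuous hN h0 (hψ.fl hV) h1
        rw [row_smul D n V fun t => exp (ψ t), row_smul D n V fun t => exp (ψ t), ← hA, ← hm,
          ← hB] at h2
        have h3 : |exp (ψ t) * row D n V t| ≤ a + B := by
          have := abs_sub_abs_le_abs_sub (exp (ψ t) * row D n V t) (exp (ψ s) * row D n V s)
          rw [abs_mul (exp (ψ s)), abs_of_pos (exp_pos _), ← ha] at this
          linarith
        obtain ⟨h4, h5⟩ := abs_le.1 h1
        rw [indicator_of_mem (show t ∈ Icc (s - Λ) (s + Λ) from ⟨by linarith, by linarith⟩)]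
        have := sq_le_sq' (abs_le.1 h3).1 (abs_le.1 h3).2
        linarith
      · have h2 : row D n V t ^ 2 ≤ (K₀ * sl D u t ^ 2) ^ 2 :=
          sq_le_sq' (abs_le.1 h1).1 (abs_le.1 h1).2
        have h3 : (K₀ * sl D u t ^ 2) ^ 2 ≤ K₀ ^ 2 * (m * (K * w) ^ 2) * sl D u t ^ 2 := by
          rw [mul_pow, sq (sl D u t ^ 2), ← mul_assoc]
          exact mul_le_mul_of_nonneg_right (mul_le_mul_of_nonneg_left (s1 t) (sq_nonneg _))
            (sq_nonneg _)
        have h4 := mul_le_mul_of_nonneg_left (h2.trans h3) (sq_nonneg (exp (ψ t)))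
        rw [mul_pow (exp _)] at q
        linarith
    · simp only [Pi.add_apply]
      rw [integral_add i1 i2, integral_indicator measurableSet_Icc, setIntegral_const,
        integral_const_mul, Real.volume_real_Icc, max_eq_left (by linarith), smul_eq_mul]
      exact add_le_add (le_of_eq (by ring)) (mul_le_mul_of_nonneg_left s3 (by positivity))
  rw [← hA, ← hw, ← ha]
  have f0 : 0 ≤ K₀ * w ^ 2 := by positivity
  have f1 : √(∫ t, (k t * exp (ψ t) * row D n V t) ^ 2) ≤
      2 * Λ * (a + B) + (1 + m) * K * (K₀ * w ^ 2) := by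
    refine sqrt_le_iff.2 ⟨by positivity, key.trans ?_⟩
    have e1 : 2 * Λ * (a + B) ^ 2 ≤ (2 * Λ * (a + B)) ^ 2 := by
      rw [mul_pow (2 * Λ)]
      exact mul_le_mul_of_nonneg_right (by nlinarith) (sq_nonneg _)
    have e2 : K₀ ^ 2 * (m * (K * w) ^ 2) * w ^ 2 ≤ ((1 + m) * K * (K₀ * w ^ 2)) ^ 2 := by
      rw [show K₀ ^ 2 * (m * (K * w) ^ 2) * w ^ 2 = m * (K * (K₀ * w ^ 2)) ^ 2 by ring,
        mul_assoc, mul_pow (1 + m)]
      exact mul_le_mul_of_nonneg_right (by nlinarith) (sq_nonneg _)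
    have e3 : 0 ≤ 2 * Λ * (a + B) * ((1 + m) * K * (K₀ * w ^ 2)) := by positivity
    nlinarith
  refine f1.trans ?_
  have e4 : 0 ≤ 2 * Λ * (K₀ * w ^ 2) := by positivity
  have e5 : 0 ≤ (1 + m) * K * a := by positivity
  rw [hB]
  nlinarith

end Crest.Agent.X212.Lad50.Rw
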