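import Crest.Agent.X212.Dec35.Lv

/-!
# Row 212, leaf DEC-WGT: the peaked weights
-/

set_option autoImplicit false
set_option linter.unusedSectionVars false
noncomputable section
open scoped Manifold ContDiff Topology InnerProductSpace
open MeasureTheory Set Function Filter Real

namespace Crest.Agent.X212.Lad50.Wg
open An Sob92 Nd18 Cyf70 Dec35
open Neck67 (up dn Bd cS)

/-- the primitive of a step -/
def Up (a l t : ℝ) : ℝ := ∫ s in a..t, up a l s

section
variable {a l t : ℝ}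

theorem up_cont (hl : 1 ≤ l) : Continuous (up a l) := (Neck67.sm_up hl a).cd.continuous

theorem hasDerivAt_Up (hl : 1 ≤ l) (t : ℝ) : HasDerivAt (Up a l) (up a l t) t :=
  ((up_cont hl).integral_hasStrictDerivAt a t).hasDerivAt

theorem Up_bd (hl : 1 ≤ l) (t : ℝ) : max 0 (t - a) - l ≤ Up a l t ∧ Up a l t ≤ max 0 (t - a) := by
  have hc := up_cont (a := a) hl
  have h0 : 0 < l := by linarith
  rcases le_total t a with h | h
  · have : Up a l t = 0 := by
      rw [Up, intervalIntegral.integral_congr (g := fun _ => 0) fun s hs =>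
        Neck67.up_zero h0 (by rw [uIcc_of_ge h] at hs; exact hs.2)]
      simp
    rw [this, max_eq_left (by linarith)]
    constructor <;> linarith
  · rw [max_eq_right (by linarith)]
    have nn : ∀ x, a ≤ x → 0 ≤ Up a l x := fun x hx =>
      intervalIntegral.integral_nonneg hx fun s _ => (Neck67.up_mem a l s).1
    refine ⟨?_, ?_⟩
    · rcases le_total t (a + l) with h' | h'
      · linarith [nn t h]
      · have e : Up a l t = Up a l (a + l) + ∫ s in (a + l)..t, up a l s :=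
          (intervalIntegral.integral_add_adjacent_intervals (hc.intervalIntegrable _ _)
            (hc.intervalIntegrable _ _)).symm
        rw [e, intervalIntegral.integral_congr (g := fun _ => 1) fun s hs =>
          Neck67.up_one h0 (by rw [uIcc_of_le h'] at hs; exact hs.1)]
        have := nn (a + l) (by linarith)
        simp only [intervalIntegral.integral_const, smul_eq_mul, mul_one]
        linarith
    · have := intervalIntegral.integral_mono_on (μ := volume) h (hc.intervalIntegrable _ _)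
        (continuous_const (y := (1 : ℝ)).intervalIntegrable _ _) fun s _ => (Neck67.up_mem a l s).2
      simpa [Up] using this

end

theorem tent_eq {L p q : ℝ} (hL : 0 ≤ L) (h : p ≤ q) (t : ℝ) : tent L p q t =
    max 0 (t - (p - L)) - 2 * max 0 (t - (p + q) / 2) + max 0 (t - (q + L)) := by
  simp only [tent, max_def, min_def]
  split_ifs <;> linarith

theorem tent_mem {L p q : ℝ} (hL : 0 ≤ L) (h : p ≤ q) (t : ℝ) :
    0 ≤ tent L p q t ∧ tent L p q t ≤ L + (q - p) := by
  simp only [tent, max_def, min_def]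
  split_ifs <;> constructor <;> linarith

theorem max_sh {a b : ℝ} (h : a ≤ b) (t : ℝ) :
    max 0 (t - b) ≤ max 0 (t - a) ∧ max 0 (t - a) ≤ max 0 (t - b) + (b - a) := by
  simp only [max_def]
  split_ifs <;> constructor <;> linarith

/-- the weights on the line -/
theorem line {ε : ℝ} (hε : 0 < ε) : ∃ Λ ≥ 1, ∀ δ, 0 < δ → δ ≤ 1 → ∀ L p q, Λ ≤ L → p ≤ q →
    ∃ ψ ς k, Pf δ ε ψ ς k ∧ (∀ j, Bd j (deriv ψ) (4 * cS j)) ∧ (∀ t, δ * tent L p q t ≤ ψ t) ∧
      (∀ t, ψ t ≤ δ * tent L p q t + Λ) ∧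
      ∀ t, k t ≠ 0 → t ≤ p - L ∨ |t - (p + q) / 2| ≤ Λ ∨ q + L ≤ t := by
  obtain ⟨l, hl, hl'⟩ : ∃ l : ℝ, 1 ≤ l ∧ 4 * cS 0 / ε ≤ l := ⟨_, le_max_left _ _, le_max_right _ _⟩
  have h0 : 0 < l := by linarith
  refine ⟨5 * l + 2, by linarith, fun δ hδ hδ1 L p q hL hpq => ?_⟩
  obtain ⟨a, ha⟩ : ∃ a, a = p - L - l - 1 := ⟨_, rfl⟩
  obtain ⟨b, hb⟩ : ∃ b, b = (p + q) / 2 := ⟨_, rfl⟩
  obtain ⟨c, hc⟩ : ∃ c, c = q + L + 1 := ⟨_, rfl⟩
  have ab : a + l ≤ b := by linarith
  have bc : b + l ≤ c := by linarith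
  let ς : ℝ → ℝ := (2 : ℝ) • up b l - (up a l + up c l)
  let ψ : ℝ → ℝ := fun t => δ * (2 * l + 1 + (Up a l t - 2 * Up b l t + Up c l t))
  let k : ℝ → ℝ := 1 - (up (a + l) 1 * dn b 1 + up (b + l) 1 * dn c 1)
  have eς : ∀ t, ς t = 2 * up b l t - (up a l t + up c l t) := fun t => rfl
  have ek : ∀ t, k t = 1 - (up (a + l) 1 t * dn b 1 t + up (b + l) 1 t * dn c 1 t) := fun t => rfl
  have sa := Neck67.sm_up hl a
  have sb := Neck67.sm_up hl b
  have sc := Neck67.sm_up hl c
  have sς : Neck67.Sm ς := (sb.smul 2).sub (sa.add sc)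
  have dψ : ∀ t, HasDerivAt ψ ((-δ • ς) t) t := fun t => by
    refine (((((hasDerivAt_Up (a := a) hl t).sub ((hasDerivAt_Up (a := b) hl t).const_mul 2)).add
      (hasDerivAt_Up (a := c) hl t)).const_add (2 * l + 1)).const_mul δ).congr_deriv ?_
    rw [Pi.smul_apply, eς, smul_eq_mul]
    ring
  have eψ : deriv ψ = -δ • ς := funext fun t => (dψ t).deriv
  have bς : ∀ j, Bd j ς (4 * cS j) := fun j =>
    (Bd.sub (sb.smul 2).cd (sa.add sc).cd ((Neck67.bd_up j hl b).of_succ.smul 2)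
      (Bd.add sa.cd sc.cd (Neck67.bd_up j hl a).of_succ (Neck67.bd_up j hl c).of_succ)).mono
      (by rw [abs_two]; linarith)
  have bψ : ∀ j, Bd j (deriv ψ) (4 * cS j) := fun j => by
    rw [eψ]
    refine ((bς j).smul _).mono (mul_le_of_le_one_left (bς j).nonneg ?_)
    rwa [abs_neg, abs_of_pos hδ]
  have hT : ∀ t, δ * tent L p q t ≤ ψ t ∧ ψ t ≤ δ * tent L p q t + (5 * l + 2) := fun t => by
    have e := tent_eq (L := L) (by linarith) hpq t
    obtain ⟨a1, a2⟩ := Up_bd (a := a) hl t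
    obtain ⟨b1, b2⟩ := Up_bd (a := b) hl t
    obtain ⟨c1, c2⟩ := Up_bd (a := c) hl t
    obtain ⟨d1, d2⟩ := max_sh (show a ≤ p - L by linarith) t
    obtain ⟨f1, f2⟩ := max_sh (show q + L ≤ c by linarith) t
    rw [← hb] at e
    refine ⟨mul_le_mul_of_nonneg_left (by linarith) hδ.le, ?_⟩
    have : ψ t ≤ δ * (tent L p q t + (5 * l + 2)) := mul_le_mul_of_nonneg_left (by linarith) hδ.le
    nlinarith
  have v1 : ∀ t ∈ Ioo (a + l) b, ς t = -1 := fun t ht => by
    rw [eς, Neck67.up_one h0 ht.1.le, Neck67.up_zero h0 ht.2.le,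
      Neck67.up_zero h0 (show t ≤ c by linarith [ht.2])]
    ring
  have v2 : ∀ t ∈ Ioo (b + l) c, ς t = 1 := fun t ht => by
    rw [eς, Neck67.up_one h0 ht.1.le, Neck67.up_zero h0 ht.2.le,
      Neck67.up_one h0 (show a + l ≤ t by linarith [ht.1])]
    ring
  have hcd : ContDiff ℝ ∞ ψ :=
    contDiff_infty_iff_deriv.2 ⟨fun t => (dψ t).differentiableAt, eψ ▸ (sς.smul _).cd⟩
  have hA : ∀ t, |ψ t| ≤ L + (q - p) + (5 * l + 2) := fun t => by
    obtain ⟨t1, t2⟩ := tent_mem (L := L) (by linarith) hpq t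
    obtain ⟨u1, u2⟩ := hT t
    rw [abs_of_nonneg ((mul_nonneg hδ.le t1).trans u1)]
    nlinarith
  refine ⟨ψ, ς, k, ⟨⟨hcd, fun j => ?_⟩, sς, Neck67.Sm.one.sub
    (((Neck67.sm_up le_rfl _).mul (Neck67.sm_dn le_rfl _)).add
      ((Neck67.sm_up le_rfl _).mul (Neck67.sm_dn le_rfl _))), eψ, fun t => ?_, fun t => ?_,
    fun t => ?_, fun t ht => ?_⟩, bψ, fun t => (hT t).1, fun t => (hT t).2, fun t ht => ?_⟩
  · cases j with
    | zero => exact ⟨_, hA⟩
    | succ j => exact ⟨max _ _, fun t => (hA t).trans (le_max_left _ _),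
        (bψ j).mono (le_max_right _ _)⟩
  · obtain ⟨a1, a2⟩ := Neck67.up_mem a l t
    obtain ⟨b1, b2⟩ := Neck67.up_mem b l t
    obtain ⟨c1, c2⟩ := Neck67.up_mem c l t
    rw [eς, abs_le]
    rcases le_total t b with h | h
    · rw [Neck67.up_zero h0 h, Neck67.up_zero h0 (show t ≤ c by linarith)]
      constructor <;> linarith
    · rw [Neck67.up_one h0 (show a + l ≤ t by linarith)]
      rcases le_total t c with h' | h'
      · rw [Neck67.up_zero h0 h']
        constructor <;> linarith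
      · rw [Neck67.up_one h0 (show b + l ≤ t by linarith)]
        constructor <;> linarith
  · have e : deriv ς t = 2 * deriv (up b l) t - (deriv (up a l) t + deriv (up c l) t) :=
      (((sb.diff t).hasDerivAt.const_mul 2).sub
        ((sa.diff t).hasDerivAt.add (sc.diff t).hasDerivAt)).deriv
    have a1 := abs_le.1 ((Neck67.bd_deriv_up 0 hl a).abs_le t)
    have b1 := abs_le.1 ((Neck67.bd_deriv_up 0 hl b).abs_le t)
    have c1 := abs_le.1 ((Neck67.bd_deriv_up 0 hl c).abs_le t)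
    have h4 : 4 * (l⁻¹ * cS 0) ≤ ε := by
      rw [div_le_iff₀ hε] at hl'
      rw [mul_left_comm, inv_mul_le_iff₀ h0]
      exact hl'
    rw [e, abs_le]
    constructor <;> linarith [a1.1, a1.2, b1.1, b1.2, c1.1, c1.2]
  · obtain ⟨a1, a2⟩ := Neck67.up_mem (a + l) 1 t
    obtain ⟨b1, b2⟩ := Neck67.dn_mem b 1 t
    obtain ⟨c1, c2⟩ := Neck67.up_mem (b + l) 1 t
    obtain ⟨d1, d2⟩ := Neck67.dn_mem c 1 t
    have e1 := mul_nonneg a1 b1
    have e2 := mul_le_one₀ a2 b1 b2
    have e3 := mul_nonneg c1 d1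
    have e4 := mul_le_one₀ c2 d1 d2
    rw [ek, abs_le]
    constructor <;> linarith
  · have z : ∀ {x y : ℝ}, t ∉ Ioo x y → up x 1 t * dn y 1 t = 0 := fun {x y} h => by
      rw [mem_Ioo, not_and_or, not_lt, not_lt] at h
      rcases h with h | h
      · rw [Neck67.up_zero one_pos h, zero_mul]
      · rw [Neck67.dn_zero one_pos h, mul_zero]
    by_cases h1 : t ∈ Ioo (a + l) b
    · exact ⟨by rw [v1 t h1]; norm_num, Neck67.deriv_zero_off isOpen_Ioo.isClosed_compl
        (fun s hs => v1 s (not_not.1 hs)) t (not_not.2 h1)⟩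
    · by_cases h2 : t ∈ Ioo (b + l) c
      · exact ⟨by rw [v2 t h2]; norm_num, Neck67.deriv_zero_off isOpen_Ioo.isClosed_compl
          (fun s hs => v2 s (not_not.1 hs)) t (not_not.2 h2)⟩
      · exact (ht (by rw [ek, z h1, z h2]; ring)).elim
  · by_contra hn
    simp only [not_or, not_le, ← hb] at hn
    obtain ⟨n1, n2, n3⟩ := hn
    refine ht ?_
    rcases lt_abs.1 n2 with h | h
    · rw [ek, Neck67.dn_zero one_pos (show b ≤ t by linarith),
        Neck67.up_one one_pos (show b + l + 1 ≤ t by linarith),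
        Neck67.dn_one one_pos (show t ≤ c - 1 by linarith)]
      ring
    · rw [ek, Neck67.up_one one_pos (show a + l + 1 ≤ t by linarith),
        Neck67.dn_one one_pos (show t ≤ b - 1 by linarith),
        Neck67.up_zero one_pos (show t ≤ b + l by linarith)]
      ring

variable {E3 : Type} [NormedAddCommGroup E3] [NormedSpace ℝ E3] [FiniteDimensional ℝ E3]
  [MeasurableSpace E3] [BorelSpace E3]
  {H3 : Type} [TopologicalSpace H3] {I3 : ModelWithCorners ℝ E3 H3} [I3.Boundaryless]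
  {Y : Type} [TopologicalSpace Y] [ChartedSpace H3 Y] [IsManifold I3 ∞ Y] [T2Space Y]
  [MeasurableSpace Y] [BorelSpace Y] [SecondCountableTopology Y] [CompactSpace Y]
  {κ : Type} [Fintype κ] {lam : Type} [Fintype lam]

/-- functions of the time -/
theorem cb_snd (F : Pre I3 Y κ) (j : ℕ) : ∀ {f : ℝ → ℝ} {M : ℝ}, ContDiff ℝ ∞ f → Bd j f M →
    (cylP F).CB j (fun x => f x.2) M := by
  induction j with
  | zero => exact fun _ h => CB_zero.2 fun x => h x.2
  | succ j ih =>
    intro f M hf h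
    refine CB_succ.2 ⟨fun x => h.1 x.2, fun a => ?_⟩
    cases a with
    | none =>
      rw [D_none_snd F hf]
      exact ih (Neck67.cd_deriv hf) h.2
    | some a =>
      rw [D_some_snd F hf]
      exact ih (f := fun _ => 0) contDiff_const (Bd.const (by simpa using h.nonneg))

/-- **DEC-WGT** -/
theorem wgt : WgtStmt I3 Y κ lam := fun D ε hε => by
  obtain ⟨Λ, h1, h⟩ := line hε
  refine ⟨Λ, h1, fun j => 4 * cS j, fun δ hδ hδ1 L p q hL hpq => ?_⟩
  obtain ⟨ψ, ς, k, pf, bψ, lo, hi, sup⟩ := h δ hδ hδ1 L p q hL hpq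
  have hc := pf.sψ.cd
  obtain ⟨A, hA⟩ := pf.sψ.bd 0
  refine ⟨ψ, ς, k, pf, ⟨sm_snd hc, fun x => (mul_nonneg hδ.le (le_max_left _ _)).trans (lo x.2),
    ⟨A, fun x => (le_abs_self _).trans (hA x.2)⟩, fun a x => ?_, fun a => ?_⟩, lo, hi, sup⟩
  · rw [cyl_toPre]
    cases a with
    | none =>
      rw [D_none_snd _ hc, pf.e]
      show |-δ * ς x.2| ≤ δ
      rw [abs_mul, abs_neg, abs_of_pos hδ]
      exact mul_le_of_le_one_right hδ.le (pf.s1 _)
    | some a =>
      rw [D_some_snd _ hc]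
      simpa using hδ.le
  · refine ⟨Pre.sm_D _ (sm_snd hc) a, fun j => ?_⟩
    rw [cyl_toPre]
    cases a with
    | none =>
      rw [D_none_snd _ hc]
      exact cb_snd _ j (Neck67.cd_deriv hc) (bψ j)
    | some a =>
      rw [D_some_snd _ hc]
      exact cb_snd _ j (f := fun _ => 0) contDiff_const (Bd.const (by simpa using (bψ j).nonneg))

end Crest.Agent.X212.Lad50.Wg
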