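import Crest.Agent.X212.Lad50.PL
import Crest.Agent.X212.Prd34.Defs

/-!
# Row 212, layer T: PL polar coordinates (`Prd34.PolStmt`)
-/

open Set Filter Topology Metric

namespace Crest.Agent.X212.Lad50

open Crest.Agent.R096.Ce_537

/-! ### interpolation of a sequence -/

/-- linear interpolation of a sequence -/
noncomputable def itp (v : ℤ → ℝ) (t : ℝ) : ℝ := v ⌊t⌋ + (t - ⌊t⌋) * (v (⌊t⌋ + 1) - v ⌊t⌋)

lemma itp_eq (v : ℤ → ℝ) (n : ℤ) {t : ℝ} (h1 : (n : ℝ) ≤ t) (h2 : t ≤ n + 1) :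
    itp v t = v n + (t - n) * (v (n + 1) - v n) := by
  rcases h2.lt_or_eq with h | h
  · rw [itp, Int.floor_eq_iff.2 ⟨h1, h⟩]
  · have : ⌊t⌋ = n + 1 := by rw [h]; exact_mod_cast Int.floor_intCast (R := ℝ) (n + 1)
    rw [itp, this, h]; push_cast; ring

lemma plOn_itp (v : ℤ → ℝ) (n : ℤ) : PLOn (itp v) (Icc (n : ℝ) (n + 1)) := by
  have h : PLOn (fun t : ℝ => v n + (v (n + 1) - v n) * (t - n)) (Icc (n : ℝ) (n + 1)) :=
    pl_add (plOn_const _ _) (pl_mul _ (pl_sub (plOn_id _) (plOn_const _ _)))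
  exact h.congr fun t ht => by rw [itp_eq v n ht.1 ht.2]; ring

lemma locPL_itp (v : ℤ → ℝ) : LocPL (itp v) univ := by
  intro t _
  refine ⟨1, one_pos, (((plOn_itp v (⌊t⌋ - 1)).union (plOn_itp v ⌊t⌋) isClosed_Icc
    isClosed_Icc).union (plOn_itp v (⌊t⌋ + 1)) (isClosed_Icc.union isClosed_Icc)
    isClosed_Icc).mono fun s hs => ?_⟩
  rw [mem_ball, Real.dist_eq, abs_lt] at hs
  have h1 := Int.floor_le t
  have h2 := Int.lt_floor_add_one t
  simp only [mem_union, mem_Icc]; push_cast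
  rcases le_total s ⌊t⌋ with h | h
  · exact Or.inl (Or.inl ⟨by linarith, by linarith⟩)
  · rcases le_total s (⌊t⌋ + 1) with h' | h'
    · exact Or.inl (Or.inr ⟨h, h'⟩)
    · exact Or.inr ⟨h', by linarith⟩

lemma itp_mem {v : ℤ → ℝ} (hv : StrictMono v) (t : ℝ) : v ⌊t⌋ ≤ itp v t ∧ itp v t < v (⌊t⌋ + 1) := by
  have h1 := Int.floor_le t
  have h2 := Int.lt_floor_add_one t
  have h3 := hv (lt_add_one ⌊t⌋)
  unfold itp
  constructor <;> nlinarith

lemma itp_strictMono {v : ℤ → ℝ} (hv : StrictMono v) : StrictMono (itp v) := by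
  intro s t hst
  rcases (Int.floor_mono hst.le).lt_or_eq with h | h
  · exact (itp_mem hv s).2.trans_le ((hv.monotone (Int.add_one_le_iff.2 h)).trans (itp_mem hv t).1)
  · have h3 := hv (lt_add_one ⌊t⌋)
    unfold itp; rw [h]; nlinarith

/-- the sequence of radii -/
noncomputable def rv (n : ℤ) : ℝ := 1 + n / (2 * (|(n : ℝ)| + 1))

lemma rv_mem (n : ℤ) : 1 / 2 < rv n ∧ rv n < 3 / 2 := by
  have h0 : 0 < 2 * (|(n : ℝ)| + 1) := by positivity
  have h1 : -(1 / 2) < (n : ℝ) / (2 * (|(n : ℝ)| + 1)) := by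
    rw [lt_div_iff₀ h0]; linarith [neg_abs_le (n : ℝ)]
  have h2 : (n : ℝ) / (2 * (|(n : ℝ)| + 1)) < 1 / 2 := by
    rw [div_lt_iff₀ h0]; linarith [le_abs_self (n : ℝ)]
  unfold rv; constructor <;> linarith

lemma rv_strictMono : StrictMono rv := by
  refine strictMono_int_of_lt_succ fun n => ?_
  unfold rv
  push_cast
  rw [add_lt_add_iff_left, div_lt_div_iff₀ (by positivity) (by positivity)]
  rcases le_or_gt 0 n with h | h
  · have : (0 : ℝ) ≤ n := by exact_mod_cast h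
    rw [abs_of_nonneg this, abs_of_nonneg (by linarith)]; nlinarith
  · have : (n : ℝ) + 1 ≤ 0 := by exact_mod_cast Int.add_one_le_iff.2 h
    rw [abs_of_nonpos this, abs_of_nonpos (by linarith)]; nlinarith

/-- the radius function -/
noncomputable def rho (t : ℝ) : ℝ := itp rv (4 * t)

lemma rho_mem (t : ℝ) : 1 / 2 < rho t ∧ rho t < 3 / 2 :=
  ⟨(rv_mem _).1.trans_le (itp_mem rv_strictMono _).1,
    (itp_mem rv_strictMono _).2.trans (rv_mem _).2⟩

lemma rho_strictMono : StrictMono rho := fun _ _ h =>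
  itp_strictMono rv_strictMono (by linarith)

lemma locPL_rho : LocPL rho univ :=
  locPL_comp (f := fun t : ℝ => 4 * t) (g := itp rv) (locPL_itp rv)
    (locPL_of_plOn (pl_mul 4 (plOn_id _)) _) (mapsTo_univ _ _)

lemma rho_of_le {t : ℝ} (h : |t| ≤ 1 / 4) : rho t = 1 + t := by
  rw [abs_le] at h
  unfold rho
  rcases le_total 0 t with h0 | h0
  · rw [itp_eq rv 0 (by push_cast; linarith) (by push_cast; linarith)]
    norm_num [rv]; ring
  · rw [itp_eq rv (-1) (by push_cast; linarith) (by push_cast; linarith)]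
    norm_num [rv]; ring

/-! ### the square by arc length -/

/-- clamp -/
noncomputable def clp (R x : ℝ) : ℝ := max (-R) (min R x)

/-- the square of half side `R`, by arc length from the middle of the top side -/
noncomputable def sqr (l R : ℝ) : Fin 2 → ℝ :=
  ![clp R (max (min l (4 * R - l)) (l - 8 * R)), clp R (max (min (l + 2 * R) (2 * R - l)) (l - 6 * R))]

lemma sqr_cases {l R : ℝ} (hR : 0 < R) (h1 : -R ≤ l) (h2 : l ≤ 9 * R) :
    (l ≤ R ∧ sqr l R = ![l, R]) ∨ (R ≤ l ∧ l ≤ 3 * R ∧ sqr l R = ![R, 2 * R - l]) ∨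
    (3 * R ≤ l ∧ l ≤ 5 * R ∧ sqr l R = ![4 * R - l, -R]) ∨
    (5 * R ≤ l ∧ l ≤ 7 * R ∧ sqr l R = ![-R, l - 6 * R]) ∨
    (7 * R ≤ l ∧ sqr l R = ![l - 8 * R, R]) := by
  have key : ∀ a b : ℝ, clp R (max (min l (4 * R - l)) (l - 8 * R)) = a →
      clp R (max (min (l + 2 * R) (2 * R - l)) (l - 6 * R)) = b → sqr l R = ![a, b] :=
    fun a b ha hb => by rw [sqr, ha, hb]
  rcases le_total l R with a1 | a1
  · refine Or.inl ⟨a1, key _ _ ?_ ?_⟩ <;>
      simp only [clp, max_def, min_def] <;> split_ifs <;> linarith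
  rcases le_total l (3 * R) with a2 | a2
  · refine Or.inr (Or.inl ⟨a1, a2, key _ _ ?_ ?_⟩) <;>
      simp only [clp, max_def, min_def] <;> split_ifs <;> linarith
  rcases le_total l (5 * R) with a3 | a3
  · refine Or.inr (Or.inr (Or.inl ⟨a2, a3, key _ _ ?_ ?_⟩)) <;>
      simp only [clp, max_def, min_def] <;> split_ifs <;> linarith
  rcases le_total l (7 * R) with a4 | a4
  · refine Or.inr (Or.inr (Or.inr (Or.inl ⟨a3, a4, key _ _ ?_ ?_⟩))) <;>
      simp only [clp, max_def, min_def] <;> split_ifs <;> linarith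
  · refine Or.inr (Or.inr (Or.inr (Or.inr ⟨a4, key _ _ ?_ ?_⟩))) <;>
      simp only [clp, max_def, min_def] <;> split_ifs <;> linarith

lemma norm_vec2 (a b : ℝ) : ‖(![a, b] : Fin 2 → ℝ)‖ = max |a| |b| := by
  apply le_antisymm
  · refine (pi_norm_le_iff_of_nonneg (le_max_of_le_left (abs_nonneg a))).2 fun i => ?_
    fin_cases i <;> simp
  · exact max_le (by simpa using norm_le_pi_norm (![a, b] : Fin 2 → ℝ) 0)
      (by simpa using norm_le_pi_norm (![a, b] : Fin 2 → ℝ) 1)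

lemma norm_sqr {l R : ℝ} (hR : 0 < R) (h1 : -R ≤ l) (h2 : l ≤ 9 * R) : ‖sqr l R‖ = R := by
  have e1 : |R| = R := abs_of_pos hR
  have e2 : |-R| = R := by rw [abs_neg, e1]
  rcases sqr_cases hR h1 h2 with ⟨a, e⟩ | ⟨a, b, e⟩ | ⟨a, b, e⟩ | ⟨a, b, e⟩ | ⟨a, e⟩ <;>
    rw [e, norm_vec2]
  · rw [e1, max_eq_right (abs_le.2 ⟨by linarith, by linarith⟩)]
  · rw [e1, max_eq_left (abs_le.2 ⟨by linarith, by linarith⟩)]
  · rw [e2, max_eq_right (abs_le.2 ⟨by linarith, by linarith⟩)]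
  · rw [e2, max_eq_left (abs_le.2 ⟨by linarith, by linarith⟩)]
  · rw [e1, max_eq_right (abs_le.2 ⟨by linarith, by linarith⟩)]

lemma sqr_inj {l l' R : ℝ} (hR : 0 < R) (h1 : -R ≤ l) (h2 : l ≤ 9 * R) (h1' : -R ≤ l')
    (h2' : l' ≤ 9 * R) (hd : |l - l'| < 8 * R) (h : sqr l R = sqr l' R) : l = l' := by
  rw [abs_lt] at hd
  obtain ⟨d1, d2⟩ := hd
  rcases sqr_cases hR h1 h2 with ⟨a, e⟩ | ⟨a, b, e⟩ | ⟨a, b, e⟩ | ⟨a, b, e⟩ | ⟨a, e⟩ <;>
  rcases sqr_cases hR h1' h2' with ⟨a', e'⟩ | ⟨a', b', e'⟩ | ⟨a', b', e'⟩ | ⟨a', b', e'⟩ | ⟨a', e'⟩ <;>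
  · rw [e, e'] at h
    have x0 := congrFun h 0
    have x1 := congrFun h 1
    simp only [Matrix.cons_val_zero, Matrix.cons_val_one] at x0 x1
    linarith

lemma sqr_surj {R : ℝ} (hR : 0 < R) {z : Fin 2 → ℝ} (hz : ‖z‖ = R) :
    ∃ l, -R ≤ l ∧ l ≤ 7 * R ∧ sqr l R = z := by
  have hz' : z = ![z 0, z 1] := by funext i; fin_cases i <;> rfl
  rw [hz', norm_vec2] at hz
  have b0 := abs_le.1 ((le_max_left _ _).trans hz.le)
  have b1 := abs_le.1 ((le_max_right _ _).trans hz.le)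
  have key : ∀ l, -R ≤ l → l ≤ 7 * R → ((l ≤ R → l = z 0 ∧ R = z 1) ∧
      (R ≤ l → l ≤ 3 * R → R = z 0 ∧ 2 * R - l = z 1) ∧
      (3 * R ≤ l → l ≤ 5 * R → 4 * R - l = z 0 ∧ -R = z 1) ∧
      (5 * R ≤ l → -R = z 0 ∧ l - 6 * R = z 1)) → ∃ l, -R ≤ l ∧ l ≤ 7 * R ∧ sqr l R = z := by
    intro l h1 h2 ⟨c1, c2, c3, c4⟩
    refine ⟨l, h1, h2, ?_⟩
    rw [hz']
    rcases sqr_cases hR h1 (by linarith) with ⟨a, e⟩ | ⟨a, b, e⟩ | ⟨a, b, e⟩ | ⟨a, b, e⟩ | ⟨a, e⟩
    · rw [e, ← (c1 a).1, ← (c1 a).2]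
    · rw [e, ← (c2 a b).1, ← (c2 a b).2]
    · rw [e, ← (c3 a b).1, ← (c3 a b).2]
    · rw [e, ← (c4 a).1, ← (c4 a).2]
    · obtain ⟨f1, f2⟩ := c4 (by linarith)
      rw [e, ← f1, ← f2, show l - 8 * R = -R by linarith, show l - 6 * R = R by linarith]
  rcases max_choice |z 0| |z 1| with h | h <;> rw [h] at hz <;>
    rcases (abs_eq hR.le).1 hz with h | h
  · refine key (2 * R - z 1) (by linarith) (by linarith) ⟨?_, ?_, ?_, ?_⟩ <;>
      intros <;> constructor <;> linarith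
  · refine key (6 * R + z 1) (by linarith) (by linarith) ⟨?_, ?_, ?_, ?_⟩ <;>
      intros <;> constructor <;> linarith
  · refine key (z 0) (by linarith) (by linarith) ⟨?_, ?_, ?_, ?_⟩ <;>
      intros <;> constructor <;> linarith
  · refine key (4 * R - z 0) (by linarith) (by linarith) ⟨?_, ?_, ?_, ?_⟩ <;>
      intros <;> constructor <;> linarith

/-- arc length as a function of the angle in `[-1/4, 3/4]` -/
noncomputable def arc (s R : ℝ) : ℝ := s + min (24 * max (s - 1 / 4) 0) (8 * R - 1)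

lemma arc_strictMono (R : ℝ) : StrictMono fun s => arc s R := fun s t h => by
  have : min (24 * max (s - 1 / 4) 0) (8 * R - 1) ≤ min (24 * max (t - 1 / 4) 0) (8 * R - 1) :=
    min_le_min (by have := max_le_max (show s - 1 / 4 ≤ t - 1 / 4 by linarith) (le_refl (0 : ℝ))
                   linarith) le_rfl
  simp only [arc]; linarith

lemma arc_lo {s R : ℝ} (hR : 1 / 2 < R) (h : s ≤ 1 / 4) : arc s R = s := by
  rw [arc, max_eq_right (by linarith), min_eq_left (by linarith)]; ring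

lemma arc_hi {s R : ℝ} (hR : R < 3 / 2) (h : 17 / 24 ≤ s) : arc s R = s - 1 + 8 * R := by
  rw [arc, max_eq_left (by linarith), min_eq_right (by linarith)]; ring

/-- the reduced angle -/
noncomputable def red (s : ℝ) : ℝ := s - ⌊s + 1 / 4⌋

lemma red_mem (s : ℝ) : -(1 / 4) ≤ red s ∧ red s < 3 / 4 := by
  have h1 := Int.floor_le (s + 1 / 4)
  have h2 := Int.lt_floor_add_one (s + 1 / 4)
  unfold red; constructor <;> linarith

lemma red_eq {s : ℝ} (n : ℤ) (h1 : n - 1 / 4 ≤ s) (h2 : s < n + 3 / 4) : red s = s - n := by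
  rw [red, Int.floor_eq_iff.2 ⟨show (n : ℝ) ≤ s + 1 / 4 by linarith, by linarith⟩]

lemma arc_mem {s R : ℝ} (hR : 1 / 2 < R) (hR' : R < 3 / 2) (h1 : -(1 / 4) ≤ s) (h2 : s < 3 / 4) :
    -(1 / 4) ≤ arc s R ∧ arc s R < 8 * R - 1 / 4 := by
  have a1 := (arc_strictMono R).monotone h1
  have a2 := arc_strictMono R h2
  simp only at a1 a2
  rw [arc_lo (s := -(1 / 4)) hR (by norm_num)] at a1
  rw [arc_hi (s := 3 / 4) hR' (by norm_num)] at a2
  exact ⟨a1, by linarith⟩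

/-- PL polar coordinates -/
noncomputable def pol (y : Fin 2 → ℝ) : Fin 2 → ℝ := sqr (arc (red (y 0)) (rho (y 1))) (rho (y 1))

lemma pol_top {y : Fin 2 → ℝ} (n : ℤ) (h1 : n - 7 / 24 ≤ y 0) (h2 : y 0 ≤ n + 1 / 4) :
    pol y = ![y 0 - n, rho (y 1)] := by
  obtain ⟨r1, r2⟩ := rho_mem (y 1)
  unfold pol
  rcases le_or_gt ((n : ℝ) - 1 / 4) (y 0) with h | h
  · rw [red_eq n h (by linarith), arc_lo r1 (by linarith)]
    rcases sqr_cases (l := y 0 - n) (R := rho (y 1)) (by linarith) (by linarith) (by linarith)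
      with ⟨a, e⟩ | ⟨a, b, e⟩ | ⟨a, b, e⟩ | ⟨a, b, e⟩ | ⟨a, e⟩
    exacts [e, by linarith, by linarith, by linarith, by linarith]
  · rw [red_eq (n - 1) (by push_cast; linarith) (by push_cast; linarith),
      arc_hi r2 (by push_cast; linarith)]
    push_cast
    rcases sqr_cases (l := y 0 - (n - 1) - 1 + 8 * rho (y 1)) (R := rho (y 1)) (by linarith)
      (by linarith) (by linarith) with ⟨a, e⟩ | ⟨a, b, e⟩ | ⟨a, b, e⟩ | ⟨a, b, e⟩ | ⟨a, e⟩
    · linarith
    · linarith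
    · linarith
    · linarith
    · rw [e]; congr 1; ring

lemma locPL_pol : LocPL pol univ := by
  have hρ : LocPL (fun y : Fin 2 → ℝ => rho (y 1)) univ :=
    locPL_comp locPL_rho (locPL_of_plOn (pl_coord 1 _) _) (mapsTo_univ _ _)
  have hy : ∀ n : ℤ, LocPL (fun y : Fin 2 → ℝ => (y 0 - n, rho (y 1))) univ := fun n =>
    locPL_prod (locPL_of_plOn (pl_sub (pl_coord 0 _) (plOn_const _ _)) _) hρ
  have p1 : PLOn (fun p : ℝ × ℝ => p.1) univ := pl_fst (plOn_id _)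
  have p2 : PLOn (fun p : ℝ × ℝ => p.2) univ := pl_snd (plOn_id _)
  have pa : PLOn (fun p : ℝ × ℝ => arc p.1 p.2) univ :=
    pl_add p1 (pl_min (pl_mul _ (pl_max (pl_sub p1 (plOn_const _ _)) (plOn_const _ _)))
      (pl_sub (pl_mul _ p2) (plOn_const _ _)))
  have ps : PLOn (fun p : ℝ × ℝ => sqr (arc p.1 p.2) p.2) univ :=
    pl_vec2 (pl_max (pl_neg p2) (pl_min p2 (pl_max (pl_min pa (pl_sub (pl_mul _ p2) pa))
      (pl_sub pa (pl_mul _ p2)))))
      (pl_max (pl_neg p2) (pl_min p2 (pl_max (pl_min (pl_add pa (pl_mul _ p2))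
        (pl_sub (pl_mul _ p2) pa)) (pl_sub pa (pl_mul _ p2)))))
  intro y _
  have h1 := Int.floor_le (y 0 + 1 / 4)
  have h2 := Int.lt_floor_add_one (y 0 + 1 / 4)
  set n := ⌊y 0 + 1 / 4⌋ with hn
  have hc : Continuous fun z : Fin 2 → ℝ => z 0 := continuous_apply 0
  rcases h1.lt_or_eq with h | h
  · refine locPL_congr (Ω := {y}) (locPL_mono (locPL_comp (locPL_of_plOn ps univ) (hy n)
      (mapsTo_univ _ _)) (subset_univ _)) (fun z hz => ?_) y rfl
    rw [mem_singleton_iff.1 hz]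
    filter_upwards [hc.continuousAt (Ioo_mem_nhds (show (n : ℝ) - 1 / 4 < y 0 by linarith)
      (show y 0 < n + 3 / 4 by linarith))] with z hz
    rw [pol, red_eq n hz.1.le hz.2]
  · refine locPL_congr (Ω := {y}) (locPL_mono (locPL_comp (locPL_of_plOn (pl_vec2 p1 p2) univ)
      (hy n) (mapsTo_univ _ _)) (subset_univ _)) (fun z hz => ?_) y rfl
    rw [mem_singleton_iff.1 hz]
    filter_upwards [hc.continuousAt (Ioo_mem_nhds (show (n : ℝ) - 7 / 24 < y 0 by linarith)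
      (show y 0 < n + 1 / 4 by linarith))] with z hz
    exact pol_top n hz.1.le hz.2.le

lemma norm_pol (y : Fin 2 → ℝ) : ‖pol y‖ = rho (y 1) := by
  obtain ⟨r1, r2⟩ := rho_mem (y 1)
  obtain ⟨a1, a2⟩ := arc_mem r1 r2 (red_mem (y 0)).1 (red_mem (y 0)).2
  exact norm_sqr (by linarith) (by linarith) (by linarith)

lemma pol_fib (y y' : Fin 2 → ℝ) : pol y = pol y' ↔ (∃ m : ℤ, y 0 - y' 0 = m) ∧ y 1 = y' 1 := by
  constructor
  · intro h
    have h1 : y 1 = y' 1 := rho_strictMono.injective (by rw [← norm_pol, ← norm_pol, h])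
    refine ⟨?_, h1⟩
    obtain ⟨r1, r2⟩ := rho_mem (y' 1)
    obtain ⟨a1, a2⟩ := arc_mem r1 r2 (red_mem (y 0)).1 (red_mem (y 0)).2
    obtain ⟨b1, b2⟩ := arc_mem r1 r2 (red_mem (y' 0)).1 (red_mem (y' 0)).2
    rw [pol, pol, h1] at h
    have h2 := (arc_strictMono _).injective (sqr_inj (by linarith) (by linarith) (by linarith)
      (by linarith) (by linarith) (abs_lt.2 ⟨by linarith, by linarith⟩) h)
    exact ⟨⌊y 0 + 1 / 4⌋ - ⌊y' 0 + 1 / 4⌋, by unfold red at h2; push_cast; linarith⟩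
  · rintro ⟨⟨m, hm⟩, h1⟩
    have h2 : red (y 0) = red (y' 0) := by
      obtain ⟨a1, a2⟩ := red_mem (y' 0)
      rw [red_eq (⌊y' 0 + 1 / 4⌋ + m) (by unfold red at a1; push_cast; linarith)
        (by unfold red at a2; push_cast; linarith), red]
      push_cast; linarith
    rw [pol, pol, h1, h2]

lemma pol_sur (t : ℝ) (z : Fin 2 → ℝ) (hz : ‖z‖ = rho t) : ∃ s, pol ![s, t] = z := by
  obtain ⟨r1, r2⟩ := rho_mem t
  have hR : 0 < rho t := by linarith
  obtain ⟨l, l1, l2, hl⟩ : ∃ l, -(1 / 4) ≤ l ∧ l < 8 * rho t - 1 / 4 ∧ sqr l (rho t) = z := by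
    obtain ⟨l, l1, l2, hl⟩ := sqr_surj hR hz
    rcases le_or_gt (-(1 / 4)) l with h | h
    · exact ⟨l, h, by linarith, hl⟩
    · refine ⟨l + 8 * rho t, by linarith, by linarith, ?_⟩
      rw [← hl]
      rcases sqr_cases hR l1 (by linarith) with ⟨a, e⟩ | ⟨a, b, e⟩ | ⟨a, b, e⟩ | ⟨a, b, e⟩ | ⟨a, e⟩ <;>
        try linarith
      rcases sqr_cases (l := l + 8 * rho t) hR (by linarith) (by linarith) with
        ⟨a', e'⟩ | ⟨a', b', e'⟩ | ⟨a', b', e'⟩ | ⟨a', b', e'⟩ | ⟨a', e'⟩ <;> try linarith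
      · rw [e, e', show l = -rho t by linarith]; congr 2; ring
      · rw [e, e', add_sub_cancel_right]
  have hc : Continuous fun s => arc s (rho t) := by unfold arc; fun_prop
  obtain ⟨s, hs, e⟩ := intermediate_value_Ico (show (-(1 / 4) : ℝ) ≤ 3 / 4 by norm_num)
    hc.continuousOn (show l ∈ Ico (arc (-(1 / 4)) (rho t)) (arc (3 / 4) (rho t)) by
      rw [arc_lo r1 (by norm_num), arc_hi r2 (by norm_num)]; exact ⟨l1, by linarith⟩)
  refine ⟨s, ?_⟩
  simp only [pol, Matrix.cons_val_zero, Matrix.cons_val_one]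
  rw [red_eq 0 (by simpa using hs.1) (by simpa using hs.2), Int.cast_zero, sub_zero, ← hl, ← e]

lemma continuous_rho : Continuous rho :=
  continuous_iff_continuousAt.2 fun t => locPL_continuousAt locPL_rho (mem_univ t)

lemma isOpenMap_pol : IsOpenMap pol := by
  have hc : Continuous pol :=
    continuous_iff_continuousAt.2 fun t => locPL_continuousAt locPL_pol (mem_univ t)
  intro O hO
  rw [isOpen_iff_mem_nhds]
  rintro _ ⟨y, hy, rfl⟩
  have h1 : IsClosed (pol '' (closedBall y (1 / 2) \ O)) :=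
    (((isCompact_closedBall y _).diff hO).image hc).isClosed
  have h2 : pol y ∉ pol '' (closedBall y (1 / 2) \ O) := by
    rintro ⟨z, hz, e⟩
    obtain ⟨⟨m, hm⟩, e1⟩ := (pol_fib _ _).1 e
    have h3 := norm_le_pi_norm (z - y) 0
    have h4 := mem_closedBall_iff_norm.1 hz.1
    rw [Pi.sub_apply, hm, Real.norm_eq_abs] at h3
    have h5 : |m| < 1 := by
      have : |(m : ℝ)| < 1 := by linarith
      exact_mod_cast this
    rw [Int.abs_lt_one_iff.1 h5, Int.cast_zero, sub_eq_zero] at hm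
    have : z = y := by funext i; fin_cases i <;> assumption
    exact hz.2 (this ▸ hy)
  have h3 : norm ⁻¹' Ioo (rho (y 1 - 1 / 2)) (rho (y 1 + 1 / 2)) ∈ 𝓝 (pol y) :=
    continuous_norm.continuousAt (Ioo_mem_nhds
      (by rw [norm_pol]; exact rho_strictMono (by linarith))
      (by rw [norm_pol]; exact rho_strictMono (by linarith)))
  filter_upwards [h1.isOpen_compl.mem_nhds h2, h3] with w hw1 hw2
  obtain ⟨t, ht, e⟩ := intermediate_value_Ioo (show y 1 - 1 / 2 ≤ y 1 + 1 / 2 by linarith)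
    continuous_rho.continuousOn hw2
  obtain ⟨s, hs⟩ := pol_sur t w e.symm
  have h4 : pol ![s - round (s - y 0), t] = w := by
    rw [← hs]; exact (pol_fib _ _).2 ⟨⟨-round (s - y 0), by simp⟩, rfl⟩
  by_contra hw
  refine hw1 ⟨_, ⟨?_, fun h => hw ⟨_, h, h4⟩⟩, h4⟩
  rw [mem_closedBall_iff_norm]
  refine (pi_norm_le_iff_of_nonneg (by norm_num)).2 fun i => ?_
  fin_cases i
  · have := abs_sub_round (s - y 0)
    simpa [Real.norm_eq_abs, sub_right_comm] using this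
  · simp only [Fin.mk_one, Pi.sub_apply, Matrix.cons_val_one, Matrix.cons_val_zero,
      Real.norm_eq_abs, abs_le]
    exact ⟨by linarith [ht.1], by linarith [ht.2]⟩

/-- **PL polar coordinates exist.** -/
theorem polStmt : Prd34.PolStmt := by
  refine ⟨pol, rho, locPL_pol, isOpenMap_pol, pol_fib, rho_strictMono, continuous_rho,
    fun t => by linarith [(rho_mem t).1], norm_pol, pol_sur, fun y hy => ?_⟩
  have h0 := abs_le.1 ((norm_le_pi_norm y 0).trans hy)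
  rw [pol_top 0 (by push_cast; linarith [h0.1]) (by push_cast; linarith [h0.2]),
    rho_of_le ((norm_le_pi_norm y 1).trans hy)]
  simp

end Crest.Agent.X212.Lad50
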