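import Crest.Agent.X212.Lad50.Comp
import Crest.Agent.X212.Dsc4.St

/-!
# Row 212, layer T, loop theorem road A: an essential disc is the zero level of a family
(`Dsc4.ThickE → Dsc4.FamStmt`)
-/

open Set Filter Topology Metric

namespace Crest.Agent.X212.Lad50

open Crest.Agent.R096.Ce_537 Prd34 Dsc4
open Crest.Agent.X212.Lev33 (Coc Prim lo)
open Crest.Agent.R096.Cx_609 (equivOfInjOn finConv_closedBall finConv_sphere)

lemma ropen_of_nhds {X : Type*} [TopologicalSpace X] {W S : Set X} (hs : S ⊆ W)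
    (h : ∀ x ∈ S, S ∈ 𝓝[W] x) : ROpen W S := by
  refine ⟨interior (S ∪ Wᶜ), isOpen_interior, Subset.antisymm (fun x hx => ⟨?_, hs hx⟩)
    fun x hx => (interior_subset hx.1).resolve_right fun h => h hx.2⟩
  rw [mem_interior_iff_mem_nhds]
  filter_upwards [eventually_nhdsWithin_iff.1 (h x hx)] with z hz
  by_cases hW : z ∈ W
  exacts [Or.inl (hz hW), Or.inr hW]

/-- half space germs of the cube (away from top and bottom) whose first coordinate is the height -/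
lemma cube_germ {y : V} (hy : y ∈ cube 3) (hy2 : |y 2| < 1) :
    ∃ (φ : V → V) (v₀ : V) (N : Set V), φ v₀ = y ∧ N ∈ 𝓝 v₀ ∧ PLOn φ N ∧ InjOn φ N ∧
      ∀ v ∈ N, (φ v ∈ cube 3 ↔ 0 ≤ v 2) ∧ (0 ≤ v 2 → (φ v ∈ side ↔ v 2 = 0)) ∧ φ v 2 = v 0 := by
  by_cases hs : y ∈ side
  · obtain ⟨φ, f1, f2, f3, f4⟩ := wall_germ
      (le_antisymm (mem_cube_iff.1 hy).1 ((mem_side_iff hy).1 hs))
    set a : V → V := fun v => ![v 1, v 0 - y 2, v 2] with ha
    have pa : PLOn a univ :=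
      pl_vec3 (pl_coord 1 _) (pl_sub (pl_coord 0 _) (plOn_const _ _)) (pl_coord 2 _)
    have ca := continuousOn_univ.1 pa.1
    have a0 : a ![y 2, 0, 0] = 0 := by funext i; fin_cases i <;> simp [ha]
    have n1 : ∀ᶠ v in 𝓝 (![y 2, 0, 0] : V), |v 0| < 1 :=
      (by fun_prop : Continuous fun v : V => |v 0|).continuousAt.eventually_lt continuousAt_const hy2
    have n2 : a ⁻¹' closedBall 0 (1 / 4) ∈ 𝓝 (![y 2, 0, 0] : V) :=
      ca.continuousAt (by rw [a0]; exact closedBall_mem_nhds 0 (by norm_num))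
    have h2 : ∀ v, φ (a v) 2 = v 0 := fun v => by
      rw [(f4 _).2.2]; change y 2 + (v 0 - y 2) = v 0; ring
    have h3 : ∀ v : V, |v 0| < 1 → (φ (a v) ∈ cube 3 ↔ 0 ≤ v 2) := fun v hv => by
      rw [mem_cube_iff, h2, (f4 _).1]; exact and_iff_left hv.le
    refine ⟨fun v => φ (a v), ![y 2, 0, 0], _, by simp only [a0, f3], inter_mem n1 n2,
      (plOn_of_locPL f1 (isCompact_closedBall 0 (1 / 4)) (subset_univ _)).comp
        (pa.mono (subset_univ _)) fun v hv => hv.2, fun v hv v' hv' e => ?_,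
      fun v hv => ⟨h3 v hv.1, fun h => ?_, h2 v⟩⟩
    · have e' := f2 (closedBall_subset_ball (by norm_num) hv.2)
        (closedBall_subset_ball (by norm_num) hv'.2) e
      have e1 : v 0 - y 2 = v' 0 - y 2 := congrFun e' 1
      funext i; fin_cases i
      · exact sub_left_injective e1
      · exact congrFun e' 0
      · exact congrFun e' 2
    · rw [mem_side_iff ((h3 v hv.1).2 h), (f4 _).2.1]
      exact ⟨fun h' => le_antisymm h' h, fun h' => le_of_eq h'⟩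
  · set φ : V → V := fun v => ![v 1, v 2 - 2, v 0] with hφ
    have pa : PLOn φ univ :=
      pl_vec3 (pl_coord 1 _) (pl_sub (pl_coord 2 _) (plOn_const _ _)) (pl_coord 0 _)
    have ca := continuousOn_univ.1 pa.1
    have a0 : φ ![y 2, y 0, y 1 + 2] = y := by funext i; fin_cases i <;> simp [hφ]
    have h3 : ‖pr y‖ < 1 := not_le.1 fun h => hs ((mem_side_iff hy).2 h)
    have c2 : Continuous fun w => ‖pr (φ w)‖ := (continuous_pr.comp ca).norm
    have c3 : Continuous fun w => |φ w 2| := ((continuous_apply 2).comp ca).abs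
    have n1 : ∀ᶠ w in 𝓝 (![y 2, y 0, y 1 + 2] : V), ‖pr (φ w)‖ < 1 ∧ |φ w 2| < 1 :=
      (c2.continuousAt.eventually_lt continuousAt_const (by rw [a0]; exact h3)).and
        (c3.continuousAt.eventually_lt continuousAt_const (by rw [a0]; exact hy2))
    refine ⟨φ, _, _, a0, n1, pa.mono (subset_univ _), fun v _ v' _ e => ?_, fun v hv => ?_⟩
    · have e1 : v 2 - 2 = v' 2 - 2 := congrFun e 1
      funext i; fin_cases i
      · exact congrFun e 2
      · exact congrFun e 0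
      · exact sub_left_injective e1
    · have h4 : φ v ∈ cube 3 := mem_cube_iff.2 ⟨hv.1.le, hv.2.le⟩
      have h5 : |v 2 - 2| ≤ 1 := (norm_le_pi_norm (φ v) 1).trans (mem_closedBall_zero_iff.1 h4)
      have h6 := (abs_le.1 h5).1
      refine ⟨iff_of_true h4 (by linarith), fun _ => iff_of_false (fun h => ?_) (by linarith), rfl⟩
      exact absurd ((mem_side_iff h4).1 h) (not_le.2 hv.1)

variable {E : Type} [NormedAddCommGroup E] [NormedSpace ℝ E]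

lemma exists_layer {W R : Set E} (e : PLEquiv (cube 3) R) (hR : R ⊆ W)
    (hn : ∀ x ∈ e.f '' (cube 3 ∩ fl), R ∈ 𝓝[W] x) :
    ∃ ε : ℝ, 0 < ε ∧ ε < 1 ∧ ∀ y ∈ lo ε, R ∈ 𝓝[W] (e.f y) := by
  have h1 : ∀ y ∈ cube 3 ∩ fl, ∀ᶠ z in 𝓝 y, z ∈ cube 3 → R ∈ 𝓝[W] (e.f z) := fun y hy => by
    have h2 := eventually_eventually_nhdsWithin.2 (hn _ ⟨y, hy, rfl⟩)
    have h3 : Tendsto e.f (𝓝[cube 3] y) (𝓝[W] (e.f y)) := tendsto_nhdsWithin_iff.2
      ⟨e.pf.1 y hy.1, eventually_nhdsWithin_of_forall fun z hz => hR (e.mf hz)⟩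
    exact eventually_nhdsWithin_iff.1 (h3 h2)
  set O := interior {z : V | z ∈ cube 3 → R ∈ 𝓝[W] (e.f z)} with hO
  have h4 : IsCompact (cube 3 \ O) := (isCompact_closedBall _ _).diff isOpen_interior
  obtain ⟨δ, hδ, h5⟩ := h4.exists_forall_le' (f := fun z : V => |z 2|) (a := 0) (by fun_prop)
    fun z hz => abs_pos.2 fun h => hz.2 (mem_interior_iff_mem_nhds.2 (h1 z ⟨hz.1, h⟩))
  refine ⟨min δ (1 / 2), lt_min hδ (by norm_num), (min_le_right _ _).trans_lt (by norm_num),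
    fun y hy => ?_⟩
  have h6 : y ∈ O := by
    by_contra hc
    exact absurd (h5 y ⟨hy.1, hc⟩) (not_le.2 (hy.2.trans_le (min_le_left _ _)))
  exact interior_subset h6 hy.1

/-- charts of a layer of a thickened disc -/
lemma exists_ch [FiniteDimensional ℝ E] {W dW R : Set E} (e : PLEquiv (cube 3) R) (hR : R ⊆ W)
    (hs : R ∩ dW = e.f '' side) {ε : ℝ} (e1 : ε < 1) (hε : ∀ y ∈ lo ε, R ∈ 𝓝[W] (e.f y))
    {y : V} (hy : y ∈ lo ε) :
    ∃ k : Ch W dW, e.f y ∈ k.O ∧ k.O ⊆ e.f '' lo ε ∧ ∀ z ∈ k.O, k.e.f z 0 = e.g z 2 := by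
  obtain ⟨φ, v₀, N, rfl, hN, p1, p2, p3⟩ := cube_germ hy.1 (hy.2.trans e1)
  have n1 : ∀ᶠ v in 𝓝 v₀, |v 0| < ε :=
    (by fun_prop : Continuous fun v : V => |v 0|).continuousAt.eventually_lt continuousAt_const
      (by rw [← (p3 v₀ (mem_of_mem_nhds hN)).2.2]; exact hy.2)
  obtain ⟨r, hr, hb⟩ := Metric.nhds_basis_closedBall.mem_iff.1 (inter_mem hN n1)
  have cu : Convex ℝ up := convex_halfSpace_ge (f := fun y : V => y 2) ⟨fun _ _ => rfl, fun _ _ => rfl⟩ 0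
  have q1 : ∀ v ∈ closedBall v₀ r ∩ up, φ v ∈ cube 3 := fun v hv => (p3 v (hb hv.1).1).1.2 hv.2
  have q2 : ∀ v ∈ closedBall v₀ r ∩ up, φ v ∈ lo ε := fun v hv =>
    ⟨q1 v hv, by rw [(p3 v (hb hv.1).1).2.2]; exact (hb hv.1).2⟩
  set a := equivOfInjOn ((convex_closedBall v₀ r).inter cu).finConv
    (isClosed_closedBall.inter (isClosed_le continuous_const (continuous_apply 2)))
    (f := fun v => e.f (φ v)) (e.pf.comp (p1.mono fun v hv => (hb hv.1).1) q1)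
    (fun v hv v' hv' h => p2 (hb hv.1).1 (hb hv'.1).1 (e.injOn (q1 v hv) (q1 v' hv') h)) with ha
  have hsub : ball v₀ r ∩ up ⊆ closedBall v₀ r ∩ up :=
    inter_subset_inter_left _ ball_subset_closedBall
  have af : ∀ v, a.f v = e.f (φ v) := fun _ => rfl
  have hT : IsOpen (φ '' ball v₀ r) := R105.Iod1_690.isOpen_image_fd rfl isOpen_ball
    (p1.1.mono fun v hv => (hb (ball_subset_closedBall hv)).1)
    (p2.mono fun v hv => (hb (ball_subset_closedBall hv)).1)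
  refine ⟨⟨a.f '' (ball v₀ r ∩ up), ball v₀ r ∩ up, (a.restrImage hsub).symm,
    ropen_of_nhds ?_ ?_, ⟨_, isOpen_ball, rfl⟩, ?_⟩,
    ⟨v₀, ⟨mem_ball_self hr, (p3 v₀ (mem_of_mem_nhds hN)).1.1 hy.1⟩, rfl⟩, ?_, ?_⟩
  · rintro _ ⟨v, hv, rfl⟩; exact hR (e.mf (q1 v (hsub hv)))
  · rintro _ ⟨v, hv, rfl⟩
    have h1 : e.g ⁻¹' (φ '' ball v₀ r) ∈ 𝓝[R] (e.f (φ v)) :=
      e.pg.1 _ (e.mf (q1 v (hsub hv))) (by
        rw [e.li _ (q1 v (hsub hv))]; exact hT.mem_nhds ⟨v, hv.1, rfl⟩)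
    rw [af]
    filter_upwards [hε _ (q2 v (hsub hv)),
      mem_nhdsWithin_of_mem_nhds (eventually_nhdsWithin_iff.1 h1)] with z z1 z2
    obtain ⟨w, hw, ew⟩ := z2 z1
    refine ⟨w, ⟨hw, (p3 w (hb (ball_subset_closedBall hw)).1).1.1 (ew ▸ e.mg z1)⟩, ?_⟩
    rw [af, ew, e.ri z z1]
  · rintro _ ⟨v, hv, rfl⟩
    change _ ↔ a.g (a.f v) 2 = 0
    rw [a.li v (hsub hv), ← (p3 v (hb (hsub hv).1).1).2.1 hv.2, af]
    constructor
    · intro h
      obtain ⟨u, hu, eu⟩ := hs.subset ⟨e.mf (q1 v (hsub hv)), h⟩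
      exact e.injOn hu.1 (q1 v (hsub hv)) eu ▸ hu
    · exact fun h => (hs.superset ⟨_, h, rfl⟩).2
  · rintro _ ⟨v, hv, rfl⟩; exact ⟨_, q2 v (hsub hv), rfl⟩
  · rintro _ ⟨v, hv, rfl⟩
    change a.g (a.f v) 0 = _
    rw [a.li v (hsub hv), af, e.li _ (q1 v (hsub hv)), (p3 v (hb (hsub hv).1).1).2.2]

lemma MfE_nhds {W dW : Set E} (h : MfE W dW) {x : E} (hx : x ∈ W) (hd : x ∉ dW) :
    dWᶜ ∈ 𝓝 x := by
  obtain ⟨k, hk⟩ := h.2 x hx
  obtain ⟨A, hA, eA⟩ := k.opn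
  have h1 : ∀ᶠ z in 𝓝[k.O] x, k.e.f z 2 ≠ 0 :=
    ((continuous_apply 2).comp_continuousOn k.e.pf.1 x hk).eventually_ne
      fun h => hd ((k.bd x hk).2 h)
  filter_upwards [eventually_nhdsWithin_iff.1 h1, hA.mem_nhds (eA ▸ hk).1] with z z1 z2 z3
  have : z ∈ k.O := eA ▸ ⟨z2, h.1 z3⟩
  exact z1 this ((k.bd z this).1 z3)

/-- **An essential disc is the zero level of a family.** -/
theorem fam_of (hT : ThickE) : FamStmt := by
  intro E _ _ _ Γ _ W dW G c D hW ⟨A, hA, eA⟩ hc ⟨d1, d2, d3, d4⟩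
  obtain ⟨R, e, r1, r2, r3, r4⟩ := hT E W dW D (interior {z | z ∈ dW → z ∈ G}) hW d1 d2
    isOpen_interior fun x hx => mem_interior_iff_mem_nhds.2 (by
      by_cases h : x ∈ dW
      · filter_upwards [hA.mem_nhds (eA ▸ d3 ⟨hx, h⟩).1] with z z1 z2
        exact eA ▸ ⟨z1, z2⟩
      · filter_upwards [MfE_nhds hW (d2 hx) h] with z z1 z2
        exact absurd z2 z1)
  have hRW : R ⊆ W := fun x hx => (r1 hx).1
  have hRG : ∀ x ∈ R, x ∈ dW → x ∈ G := fun x hx => interior_subset (r1 hx).2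
  obtain ⟨η, e0, e1, hη⟩ := exists_layer e hRW (by rwa [r2])
  have l1 : ∀ a : ℝ, |a| ≤ 1 → ∀ y ∈ cube 2, lv a y ∈ cube 3 := fun a ha y hy =>
    mem_cube_iff.2 ⟨by rw [pr_lv]; exact mem_closedBall_zero_iff.1 hy, ha⟩
  have l2 : ∀ a : ℝ, |a| ≤ 1 → ∀ y ∈ sph 2, lv a y ∈ side := fun a ha y hy =>
    (mem_side_iff (l1 a ha y (sph_subset_cube hy))).2
      (by rw [pr_lv]; exact (mem_sphere_zero_iff_norm.1 hy).ge)
  have l3 : ∀ a : ℝ, |a| ≤ 1 → (fun y => e.f (lv a y)) '' cube 2 ∩ dW =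
      (fun y => e.f (lv a y)) '' sph 2 := fun a ha => by
    ext x; constructor
    · rintro ⟨⟨y, hy, rfl⟩, h⟩
      obtain ⟨u, hu, eu⟩ := r3.subset ⟨e.mf (l1 a ha y hy), h⟩
      rw [e.injOn hu.1 (l1 a ha y hy) eu, mem_side_iff (l1 a ha y hy), pr_lv] at hu
      exact ⟨y, mem_sphere_zero_iff_norm.2 (le_antisymm (mem_closedBall_zero_iff.1 hy) hu), rfl⟩
    · rintro ⟨y, hy, rfl⟩
      exact ⟨⟨y, sph_subset_cube hy, rfl⟩, (r3.superset ⟨_, l2 a ha y hy, rfl⟩).2⟩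
  have l4 : ∀ y ∈ cube 3, pr y ∈ cube 2 := fun y hy =>
    mem_closedBall_zero_iff.2 (mem_cube_iff.1 hy).1
  refine ⟨e.f '' lo η, fun x => e.g x 2, η, e0, ?_, fun a ha => ?_, fun a ha => ?_⟩
  · rintro _ ⟨y, hy, rfl⟩
    exact exists_ch e hRW r3 e1 hη hy
  · convert ((isCompact_closedBall (0 : V) 1).inter_right (isClosed_le (f := fun y : V => |y 2|)
      (g := fun _ => a) (by fun_prop) continuous_const)).image_of_continuousOn
      (e.pf.1.mono inter_subset_left) using 1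
    ext x; constructor
    · rintro ⟨⟨y, hy, rfl⟩, h⟩
      exact ⟨y, ⟨hy.1, by rwa [e.li y hy.1] at h⟩, rfl⟩
    · rintro ⟨y, hy, rfl⟩
      exact ⟨⟨y, ⟨hy.1, lt_of_le_of_lt hy.2 ha⟩, rfl⟩, by rw [e.li y hy.1]; exact hy.2⟩
  · have ha1 : |a| ≤ 1 := (ha.trans e1).le
    have k1 : {x | x ∈ e.f '' lo η ∧ e.g x 2 = a} = (fun y => e.f (lv a y)) '' cube 2 := by
      ext x; constructor
      · rintro ⟨⟨y, hy, rfl⟩, h⟩
        rw [e.li y hy.1] at h
        exact ⟨pr y, l4 y hy.1, by simp only [← h, lv_pr]⟩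
      · rintro ⟨y, hy, rfl⟩
        exact ⟨⟨_, ⟨l1 a ha1 y hy, ha⟩, rfl⟩, by rw [e.li _ (l1 a ha1 y hy)]; rfl⟩
    rw [k1, Ess, l3 a ha1]
    refine ⟨R096.Cx_609.isBall_of_injOn (e.pf.comp (plOn_lv a _) (l1 a ha1))
      fun y hy y' hy' h => lv_injective a (e.injOn (l1 a ha1 y hy) (l1 a ha1 y' hy') h), ?_, ?_,
      fun ⟨b, hb⟩ => d4 ?_⟩
    · rintro _ ⟨y, hy, rfl⟩; exact hRW (e.mf (l1 a ha1 y hy))
    · rintro _ ⟨y, hy, rfl⟩
      exact hRG _ (e.mf (l2 a ha1 y hy).1) (r3.superset ⟨_, l2 a ha1 y hy, rfl⟩).2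
    · have m1 : ∀ p ∈ sph 2 ×ˢ Icc (0 : ℝ) 1, lv ((1 - p.2) * a) p.1 ∈ side := fun p hp =>
        l2 _ (by
          rw [abs_mul, abs_of_nonneg (sub_nonneg.2 hp.2.2)]
          nlinarith [hp.2.1, hp.2.2, abs_nonneg a]) _ hp.1
      obtain ⟨b1, hb1⟩ := hc.homotopy (T := sph 2) (H := fun p => e.f (lv ((1 - p.2) * a) p.1))
        (e.pf.1.comp (f := fun p : P × ℝ => lv ((1 - p.2) * a) p.1)
          (Continuous.continuousOn (by unfold lv; fun_prop)) fun p hp => (m1 p hp).1)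
        (fun p hp => hRG _ (e.mf (m1 p hp).1) (r3.superset ⟨_, m1 p hp, rfl⟩).2)
        (b0 := fun y => b (e.f (lv a y))) (by
          simpa only [sub_zero, one_mul] using hb.comp (f := fun y => e.f (lv a y))
            (e.pf.1.comp (continuous_lv a).continuousOn fun y hy => (l2 a ha1 y hy).1)
            (mapsTo_image _ _))
      simp only [sub_self, zero_mul] at hb1
      have k2 : D = (fun y => e.f (lv 0 y)) '' cube 2 := by
        rw [← r2]; ext x; constructor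
        · rintro ⟨y, hy, rfl⟩
          have h : y 2 = 0 := hy.2
          exact ⟨pr y, l4 y hy.1, by simp only [← h, lv_pr]⟩
        · rintro ⟨y, hy, rfl⟩; exact ⟨_, ⟨l1 0 (by simp) y hy, rfl⟩, rfl⟩
      rw [k2, l3 0 (by simp)]
      have k3 : ∀ y ∈ sph 2, pr (e.g (e.f (lv 0 y))) = y := fun y hy => by
        rw [e.li _ (l2 0 (by simp) y hy).1, pr_lv]
      refine ⟨_, (hb1.comp (f := fun x => pr (e.g x)) (continuous_pr.comp_continuousOn
        (e.pg.1.mono ?_)) ?_).congr fun x hx => ?_⟩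
      · rintro _ ⟨y, hy, rfl⟩; exact e.mf (l2 0 (by simp) y hy).1
      · rintro _ ⟨y, hy, rfl⟩; simp only [k3 y hy]; exact hy
      · filter_upwards [self_mem_nhdsWithin] with z hz
        obtain ⟨y, hy, rfl⟩ := hx
        obtain ⟨y', hy', rfl⟩ := hz
        simp only [k3 y hy, k3 y' hy']

end Crest.Agent.X212.Lad50
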