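import Crest.Agent.X212.Lad50.PL
import Crest.Agent.X212.Ann83.Sq
import Crest.Agent.X212.Dsc4.St
import Crest.Agent.R096.Gn1_296
import Crest.Agent.R096.Cx3_609

/-!
# Row 212, layer T: compact connected PL one-manifolds (`Dsc4.OneStmt`)
-/

open Set Filter Topology Metric

namespace Crest.Agent.X212.Lad50

open Crest.Agent.R096.Ce_537 Crest.Agent.R096.Cb_609 Dsc4
open Crest.Agent.R096.Pl (S1)
open Crest.Agent.X212.Ann83 (II isBall_I arc_param)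

variable {E : Type*} [NormedAddCommGroup E] [NormedSpace ℝ E]

/-- `x` lies on two members of `t` -/
def Two (t : Set (Set E)) (x : E) : Prop := ∃ J ∈ t, ∃ J' ∈ t, J ≠ J' ∧ x ∈ J ∧ x ∈ J'

/-- growing a path in a finite family of arcs -/
lemma grow {s : Set (Set E)} {Q : Set E} (hs : s.Finite)
    (ha : ∀ J ∈ s, IsBall 1 J (J ∩ Q)) (hb : ∀ J ∈ s, ∀ J' ∈ s, J ≠ J' → J ∩ J' ⊆ Q)
    (hc : ∀ J ∈ s, ∀ J' ∈ s, ∀ J'' ∈ s, J ≠ J' → ∀ x ∈ J, x ∈ J' → x ∈ J'' → J'' = J ∨ J'' = J')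
    (hconn : IsPreconnected (⋃₀ s)) : ∀ (n : ℕ) (t : Set (Set E)) (p q : E), t ⊆ s →
    (s \ t).ncard = n → IsBall 1 (⋃₀ t) {p, q} → p ∈ Q → q ∈ Q →
    (∀ x ∈ ⋃₀ t, x ∈ Q → (Two t x ↔ x ∉ ({p, q} : Set E))) →
    (Nonempty (PLEquiv (S1 ℝ) (⋃₀ s)) ∧ ∀ x ∈ ⋃₀ s, x ∈ Q → Two s x) ∨
      ∃ p q, IsBall 1 (⋃₀ s) {p, q} ∧ p ∈ Q ∧ q ∈ Q ∧
        ∀ x ∈ ⋃₀ s, x ∈ Q → (Two s x ↔ x ∉ ({p, q} : Set E)) := by
  have hcl : ∀ t ⊆ s, IsClosed (⋃₀ t) := fun t ht => by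
    rw [sUnion_eq_biUnion]; exact (hs.subset ht).isClosed_biUnion fun J hJ => (ha J (ht hJ)).isClosed
  have hall : ∀ t ⊆ s, (⋃₀ t).Nonempty → (∀ J ∈ s, J ∉ t → Disjoint J (⋃₀ t)) → t = s := by
    intro t ht hne hd
    by_contra hn
    obtain ⟨J, hJ, hJt⟩ := not_subset.1 fun h => hn (Subset.antisymm ht h)
    obtain ⟨x, hx⟩ := (ha J hJ).nonempty
    obtain ⟨y, hy⟩ := hne
    obtain ⟨z, -, z1, K, hK, z2⟩ := isPreconnected_closed_iff.1 hconn _ _ (hcl t ht)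
      (hcl (s \ t) sdiff_subset) (by
        rintro w ⟨K, hK, hw⟩
        by_cases h : K ∈ t
        exacts [Or.inl ⟨K, h, hw⟩, Or.inr ⟨K, ⟨hK, h⟩, hw⟩])
      ⟨y, sUnion_mono ht hy, hy⟩ ⟨x, ⟨J, hJ, hx⟩, J, ⟨hJ, hJt⟩, hx⟩
    exact disjoint_left.1 (hd K hK.1 hK.2) z2 z1
  have hmeet : ∀ t ⊆ s, ∀ J ∈ s, J ∉ t → ∀ x ∈ J, x ∈ ⋃₀ t → x ∈ Q ∧ ¬ Two t x := by
    rintro t ht J hJ hJt x hx ⟨K, hK, hxK⟩
    refine ⟨hb J hJ K (ht hK) (fun e => hJt (e ▸ hK)) ⟨hx, hxK⟩, ?_⟩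
    rintro ⟨K1, k1, K2, k2, hne, x1, x2⟩
    rcases hc K1 (ht k1) K2 (ht k2) J hJ hne x x1 x2 hx with rfl | rfl
    exacts [hJt k1, hJt k2]
  have hmono : ∀ {t t' : Set (Set E)} {x}, t ⊆ t' → Two t x → Two t' x :=
    fun h ⟨a, b, c, d, e⟩ => ⟨a, h b, c, h d, e⟩
  intro n
  induction n using Nat.strong_induction_on with
  | _ n ih =>
  intro t p q ht hn hX hp hq hI
  by_cases hd : ∀ J ∈ s, J ∉ t → Disjoint J (⋃₀ t)
  · obtain rfl := hall t ht hX.nonempty hd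
    exact Or.inr ⟨p, q, hX, hp, hq, hI⟩
  push Not at hd
  obtain ⟨j, hj, hjt, hjd⟩ := hd
  obtain ⟨x, hxj, hxt⟩ := not_disjoint_iff.1 hjd
  have hm : ∀ y ∈ j, y ∈ ⋃₀ t → y ∈ ({p, q} : Set E) := fun y h1 h2 => by
    obtain ⟨a, b⟩ := hmeet t ht j hj hjt y h1 h2
    by_contra hc; exact b ((hI y h2 a).2 hc)
  wlog hxq : x = q generalizing p q
  · refine this q p (by rwa [pair_comm]) hq hp (by rwa [pair_comm]) (by rwa [pair_comm]) ?_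
    exact (hm x hxj hxt).resolve_right hxq
  subst hxq
  obtain ⟨r, hr⟩ : ∃ r, j ∩ Q = {x, r} := by
    obtain ⟨a, b, -, e⟩ := R096.Gn_296.exists_ends (ha j hj)
    have : x ∈ ({a, b} : Set E) := e ▸ ⟨hxj, hq⟩
    rcases this with rfl | rfl
    exacts [⟨b, e⟩, ⟨a, e.trans (pair_comm _ _)⟩]
  have hja : IsBall 1 j {x, r} := hr ▸ ha j hj
  have hr' : r ∈ j ∩ Q := hr ▸ Or.inr rfl
  have hpX : p ∈ ⋃₀ t := hX.subset (Or.inl rfl)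
  have ht' : insert j t ⊆ s := insert_subset hj ht
  have htwo : ∀ y ∈ j, y ∈ ⋃₀ t → Two (insert j t) y := fun y h1 ⟨K, hK, h2⟩ =>
    ⟨j, Or.inl rfl, K, Or.inr hK, fun e => hjt (e ▸ hK), h1, h2⟩
  by_cases hpj : p ∈ j
  · have e1 : r = p := by
      have : p ∈ ({x, r} : Set E) := hr ▸ ⟨hpj, hp⟩
      exact (this.resolve_left (arc_ne hX)).symm
    subst e1
    have h2 : ∀ y ∈ ⋃₀ (insert j t), y ∈ Q → Two (insert j t) y := fun y hy hyQ => by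
      by_cases h : y ∈ ({r, x} : Set E)
      · rcases h with rfl | rfl
        exacts [htwo _ hpj hpX, htwo _ hxj hxt]
      · rw [sUnion_insert] at hy
        rcases hy with hy | hy
        · exact absurd (pair_comm x r ▸ hr ▸ ⟨hy, hyQ⟩) h
        · exact hmono (subset_insert _ _) ((hI y hy hyQ).2 h)
    have e2 := hall _ ht' ⟨x, j, Or.inl rfl, hxj⟩ fun J hJ hJt => disjoint_left.2 fun y y1 y2 => by
      obtain ⟨a, b⟩ := hmeet _ ht' J hJ hJt y y1 y2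
      exact b (h2 y y2 a)
    rw [← e2]
    refine Or.inl ⟨?_, h2⟩
    rw [sUnion_insert]
    refine R096.Gn_296.circle_of_two (pair_comm x r ▸ hja) hX (Subset.antisymm
      (fun y hy => hm y hy.1 hy.2) ?_)
    rintro y (rfl | rfl)
    exacts [⟨hpj, hpX⟩, ⟨hxj, hxt⟩]
  · have e1 : ⋃₀ t ∩ j = {x} := Subset.antisymm
      (fun y hy => (hm y hy.2 hy.1).resolve_left fun e => hpj (e ▸ hy.2))
      (singleton_subset_iff.2 ⟨hxt, hxj⟩)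
    have hrx : x ≠ r := arc_ne hja
    have hrX : r ∉ ⋃₀ t := fun h => hrx (e1.subset ⟨h, hr'.1⟩).symm
    refine ih _ ?_ (insert j t) p r ht' rfl ?_ hp hr'.2 fun y hy hyQ => ⟨fun h2 hy' => ?_, fun h => ?_⟩
    · rw [← hn]
      refine ncard_lt_ncard ⟨sdiff_subset_sdiff_right (subset_insert _ _), fun h => ?_⟩
        (hs.subset sdiff_subset)
      exact (h ⟨hj, hjt⟩).2 (Or.inl rfl)
    · rw [sUnion_insert, union_comm]; exact arc_glue hX hja e1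
    · obtain ⟨K1, k1, K2, k2, hne, x1, x2⟩ := h2
      rcases hy' with rfl | rfl
      · exact (hI y hpX hp).1 ⟨K1, k1.resolve_left fun e => hpj (e ▸ x1), K2,
          k2.resolve_left fun e => hpj (e ▸ x2), hne, x1, x2⟩ (Or.inl rfl)
      · rcases k1 with rfl | k1
        · exact hrX ⟨K2, k2.resolve_left hne.symm, x2⟩
        · exact hrX ⟨K1, k1, x1⟩
    · by_cases hyx : y = x
      · rw [hyx]; exact htwo x hxj hxt
      · rw [sUnion_insert] at hy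
        rcases hy with hy | hy
        · have : y ∈ ({x, r} : Set E) := hr ▸ ⟨hy, hyQ⟩
          exact absurd (Or.inr (this.resolve_left hyx)) h
        · exact hmono (subset_insert _ _) ((hI y hy hyQ).2 fun h' =>
            h'.elim (fun e => h (Or.inl e)) hyx)

lemma exists_succ {T : Set ℝ} (hT : T.Finite) (h0 : (-1 : ℝ) ∈ T) (h1 : (1 : ℝ) ∈ T) {t : ℝ}
    (a1 : -1 ≤ t) (a2 : t < 1) :
    ∃ a ∈ T, ∃ b ∈ T, a ≤ t ∧ t < b ∧ ∀ u ∈ T, u ≤ a ∨ b ≤ u := by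
  obtain ⟨a, ha, hm⟩ := exists_max_image {u | u ∈ T ∧ u ≤ t} id (hT.subset fun _ h => h.1)
    ⟨_, h0, a1⟩
  obtain ⟨b, hb, hm'⟩ := exists_min_image {u | u ∈ T ∧ t < u} id (hT.subset fun _ h => h.1)
    ⟨_, h1, a2⟩
  refine ⟨a, ha.1, b, hb.1, ha.2, hb.2, fun u hu => ?_⟩
  rcases le_or_gt u t with h | h
  exacts [Or.inl (hm u ⟨hu, h⟩), Or.inr (hm' u ⟨hu, h⟩)]

lemma exists_pred {T : Set ℝ} (hT : T.Finite) (h0 : (-1 : ℝ) ∈ T) {t : ℝ} (ht : t ∈ T)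
    (a1 : -1 < t) : ∃ a ∈ T, a < t ∧ ∀ u ∈ T, u ≤ a ∨ t ≤ u := by
  obtain ⟨a, ha, hm⟩ := exists_max_image {u | u ∈ T ∧ u < t} id (hT.subset fun _ h => h.1)
    ⟨_, h0, a1⟩
  refine ⟨a, ha.1, ha.2, fun u hu => ?_⟩
  rcases lt_or_ge u t with h | h
  exacts [Or.inl (hm u ⟨hu, h⟩), Or.inr h]

lemma isBall_Icc {a b : ℝ} (h : a < b) : IsBall 1 (Icc a b) {a, b} := by
  have h1 := isBall_I.image_injOn (f := fun t : ℝ => (a + b) / 2 + (b - a) / 2 * t)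
    (pl_add (plOn_const _ _) (pl_mul _ (plOn_id _))) fun s _ t _ e =>
      mul_left_cancel₀ (by linarith : (b - a) / 2 ≠ 0) (add_left_cancel e)
  convert h1 using 1
  · ext y; constructor
    · intro hy
      have hb : 0 < b - a := by linarith
      refine ⟨(2 * y - a - b) / (b - a), ⟨?_, ?_⟩, by field_simp; ring⟩
      · rw [le_div_iff₀ hb]; linarith [hy.1]
      · rw [div_le_iff₀ hb]; linarith [hy.2]
    · rintro ⟨t, ht, rfl⟩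
      constructor <;> nlinarith [ht.1, ht.2]
  · rw [image_pair]; congr 1
    · ring
    · congr 1; ring

omit [NormedSpace ℝ E] in
lemma image_mem_nhds {φ : ℝ → E} (hc : ContinuousOn φ II) (hi : InjOn φ II) {c : Set E}
    {O : Set ℝ} (hO : IsOpen O) {t : ℝ} (ht : t ∈ II) (htO : t ∈ O) (h : φ '' II ∈ 𝓝[c] (φ t)) :
    φ '' (O ∩ II) ∈ 𝓝[c] (φ t) := by
  have h1 : IsClosed (φ '' (II \ O)) :=
    ((isCompact_Icc.diff hO).image_of_continuousOn (hc.mono sdiff_subset)).isClosed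
  filter_upwards [h, mem_nhdsWithin_of_mem_nhds (h1.isOpen_compl.mem_nhds
    fun ⟨u, hu, e⟩ => hu.2 (hi hu.1 ht e ▸ htO))] with z z1 z2
  obtain ⟨u, hu, rfl⟩ := z1
  by_contra hn
  exact z2 ⟨u, ⟨hu, fun h => hn ⟨u, ⟨h, hu⟩, rfl⟩⟩, rfl⟩

/-- a chart arc -/
structure ArcCh (c B : Set E) (φ : ℝ → E) (b : Prop) : Prop where
  pl : PLOn φ II
  inj : InjOn φ II
  sub : MapsTo φ II c
  opn : ∀ t ∈ II, t < 1 → (-1 < t ∨ b) → φ '' II ∈ 𝓝[c] (φ t)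
  bd : ∀ t ∈ II, φ t ∈ B ↔ b ∧ t = -1

lemma exists_arcCh {c B A : Set E} {p q x : E} (hA : IsBall 1 A {p, q}) (hs : A ⊆ c)
    (h : (x ∈ A \ {p, q} ∧ ROpen c (A \ {p, q}) ∧ Disjoint A B) ∨
      (x ∈ A \ {q} ∧ ROpen c (A \ {q}) ∧ A ∩ B = {p})) :
    ∃ φ b, ArcCh c B φ b ∧ ∃ t ∈ II, t < 1 ∧ (-1 < t ∨ b) ∧ φ t = x := by
  obtain ⟨e, rfl, rfl⟩ := arc_param hA
  have m1 : (-1 : ℝ) ∈ II := ⟨le_rfl, by norm_num⟩
  have m2 : (1 : ℝ) ∈ II := ⟨by norm_num, le_rfl⟩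
  have key : ∀ {D : Set E}, ROpen c (A \ D) → ∀ t ∈ II, e.f t ∉ D → e.f '' II ∈ 𝓝[c] (e.f t) := by
    rintro D ⟨O, hO, eO⟩ t ht hD
    rw [e.image_eq]
    have h1 : e.f t ∈ O ∩ c := eO ▸ ⟨e.mf ht, hD⟩
    filter_upwards [mem_nhdsWithin_of_mem_nhds (hO.mem_nhds h1.1), self_mem_nhdsWithin] with z z1 z2
    exact (eO.superset ⟨z1, z2⟩).1
  rcases h with ⟨⟨h1, h2⟩, h3, h4⟩ | ⟨⟨h1, h2⟩, h3, h4⟩
  · obtain ⟨t, ht, rfl⟩ := e.image_eq.superset h1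
    refine ⟨e.f, False, ⟨e.pf, e.injOn, fun t ht => hs (e.mf ht), fun t ht a b => key h3 t ht ?_,
      fun t ht => iff_of_false (disjoint_left.1 h4 (e.mf ht)) fun h => h.1⟩, t, ht,
      ht.2.lt_of_ne fun h => h2 (Or.inr (by rw [h]; rfl)),
      Or.inl (ht.1.lt_of_ne fun h => h2 (Or.inl (by rw [h]))), rfl⟩
    rintro (h | h)
    · exact (b.resolve_right id).ne' (e.injOn ht m1 h)
    · exact a.ne (e.injOn ht m2 h)
  · obtain ⟨t, ht, rfl⟩ := e.image_eq.superset h1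
    refine ⟨e.f, True, ⟨e.pf, e.injOn, fun t ht => hs (e.mf ht),
      fun t ht a _ => key h3 t ht fun h => a.ne (e.injOn ht m2 h), fun t ht => ⟨fun h => ?_, ?_⟩⟩,
      t, ht, ht.2.lt_of_ne fun h => h2 (by rw [h]; rfl), Or.inr trivial, rfl⟩
    · exact ⟨trivial, e.injOn ht m1 (h4.subset ⟨e.mf ht, h⟩)⟩
    · rintro ⟨-, rfl⟩; exact (h4.superset rfl).2

/-- **Compact connected PL one-manifolds are circles or arcs.** -/
theorem oneStmt : OneStmt := by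
  intro E _ _ _ c B hc hconn hne h
  have h' : ∀ x : c, ∃ φ b, ArcCh c B φ b ∧ ∃ t ∈ II, t < 1 ∧ (-1 < t ∨ b) ∧ φ t = x := fun x => by
    obtain ⟨A, p, q, a1, a2, a3⟩ := h x x.2
    exact exists_arcCh a1 a2 a3
  choose φ b hφ hx using h'
  obtain ⟨F, hF⟩ : ∃ F : Finset c, ∀ y ∈ c, ∃ k ∈ F, ∃ t ∈ II, t < 1 ∧ (-1 < t ∨ b k) ∧ φ k t = y := by
    have h1 : ∀ x : c, ∃ U ∈ 𝓝 (x : E), ∀ y ∈ U, y ∈ c →
        ∃ t ∈ II, t < 1 ∧ (-1 < t ∨ b x) ∧ φ x t = y := fun x => by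
      obtain ⟨t, ht, t1, t2, e⟩ := hx x
      have ho : IsOpen {u : ℝ | u < 1 ∧ (-1 < u ∨ b x)} :=
        isOpen_Iio.inter (isOpen_Ioi.union isOpen_const)
      have := image_mem_nhds (hφ x).pl.1 (hφ x).inj ho ht ⟨t1, t2⟩ ((hφ x).opn t ht t1 t2)
      rw [e] at this
      exact ⟨_, eventually_nhdsWithin_iff.1 this, fun y hy hyc => by
        obtain ⟨u, hu, rfl⟩ := hy hyc
        exact ⟨u, hu.2, hu.1.1, hu.1.2, rfl⟩⟩
    choose U hU hU' using h1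
    obtain ⟨F, hF⟩ := hc.elim_nhds_subcover' (fun x hx => U ⟨x, hx⟩) fun x hx => hU ⟨x, hx⟩
    refine ⟨F, fun y hy => ?_⟩
    obtain ⟨k, hk, hyk⟩ := mem_iUnion₂.1 (hF hy)
    exact ⟨k, hk, hU' k y hyk hy⟩
  set Q : Set E := ⋃ k ∈ F, {φ k (-1), φ k 1} with hQ
  have hQf : Q.Finite := F.finite_toSet.biUnion fun k _ => toFinite _
  set T : c → Set ℝ := fun k => II ∩ φ k ⁻¹' Q with hT
  have hTf : ∀ k, (T k).Finite := fun k =>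
    (hQf.subset (by rintro _ ⟨t, ht, rfl⟩; exact ht.2)).of_finite_image
      ((hφ k).inj.mono inter_subset_left)
  have m1 : ∀ k ∈ F, (-1 : ℝ) ∈ T k := fun k hk =>
    ⟨⟨le_rfl, by norm_num⟩, mem_iUnion₂.2 ⟨k, hk, Or.inl rfl⟩⟩
  have m2 : ∀ k ∈ F, (1 : ℝ) ∈ T k := fun k hk =>
    ⟨⟨by norm_num, le_rfl⟩, mem_iUnion₂.2 ⟨k, hk, Or.inr rfl⟩⟩
  set s : Set (Set E) := {J | ∃ k ∈ F, ∃ a ∈ T k, ∃ a' ∈ T k, a < a' ∧
    (∀ u ∈ T k, u ≤ a ∨ a' ≤ u) ∧ J = φ k '' Icc a a'} with hs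
  have hsf : s.Finite := by
    refine (F.finite_toSet.biUnion fun k _ => ((hTf k).prod (hTf k)).image
      fun p => φ k '' Icc p.1 p.2).subset ?_
    rintro _ ⟨k, hk, a, ha, a', ha', -, -, rfl⟩
    exact mem_iUnion₂.2 ⟨k, hk, (a, a'), ⟨ha, ha'⟩, rfl⟩
  have hI : ∀ {k a a'}, a ∈ T k → a' ∈ T k → Icc a a' ⊆ II := fun ha ha' =>
    Icc_subset_Icc ha.1.1 ha'.1.2
  have ha : ∀ J ∈ s, IsBall 1 J (J ∩ Q) := by
    rintro _ ⟨k, hk, a, ha, a', ha', lt, hu, rfl⟩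
    convert (isBall_Icc lt).image_injOn ((hφ k).pl.mono (hI ha ha'))
      ((hφ k).inj.mono (hI ha ha')) using 1
    ext y; constructor
    · rintro ⟨⟨t, ht, rfl⟩, hy⟩
      refine ⟨t, ?_, rfl⟩
      rcases hu t ⟨hI ha ha' ht, hy⟩ with h | h
      exacts [Or.inl (le_antisymm h ht.1), Or.inr (le_antisymm ht.2 h)]
    · rintro ⟨t, rfl | rfl, rfl⟩
      exacts [⟨⟨t, ⟨le_rfl, lt.le⟩, rfl⟩, ha.2⟩, ⟨⟨t, ⟨lt.le, le_rfl⟩, rfl⟩, ha'.2⟩]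
  have hsc : ∀ J ∈ s, J ⊆ c := by
    rintro _ ⟨k, hk, a, ha, a', ha', -, -, rfl⟩ _ ⟨t, ht, rfl⟩
    exact (hφ k).sub (hI ha ha' ht)
  have hop : ∀ J ∈ s, ∀ x ∈ J, x ∉ Q → J ∈ 𝓝[c] x := by
    rintro _ ⟨k, hk, a, ha, a', ha', lt, hu, rfl⟩ _ ⟨t, ht, rfl⟩ hq
    have t1 : a < t := ht.1.lt_of_ne fun e => hq (e ▸ ha.2)
    have t2 : t < a' := ht.2.lt_of_ne fun e => hq (e ▸ ha'.2)
    exact mem_of_superset (image_mem_nhds (hφ k).pl.1 (hφ k).inj isOpen_Ioo (hI ha ha' ht) ⟨t1, t2⟩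
      ((hφ k).opn t (hI ha ha' ht) (t2.trans_le ha'.1.2) (Or.inl (ha.1.1.trans_lt t1))))
      (image_mono fun u hu => Ioo_subset_Icc_self hu.1)
  have hdiff : ∀ J : Set E, J \ (J ∩ Q) = J \ Q := fun J => by simp
  have hb : ∀ J ∈ s, ∀ J' ∈ s, J ≠ J' → J ∩ J' ⊆ Q := by
    have key : ∀ J ∈ s, ∀ J' ∈ s, ∀ x ∈ J ∩ J', x ∉ Q → J ⊆ J' := by
      intro J hJ J' hJ' x hx hq
      have h1 := (ha J hJ).isPreconnected_diff
      rw [hdiff] at h1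
      have h2 : J \ Q ⊆ J' := by
        by_contra hn
        obtain ⟨y, hy, hy'⟩ := not_subset.1 hn
        have h4 : ∀ z ∈ J \ Q, z ∈ J' → z ∈ interior (J' ∪ cᶜ) := fun z hz hz' => by
          rw [mem_interior_iff_mem_nhds]
          filter_upwards [eventually_nhdsWithin_iff.1 (hop J' hJ' z hz' hz.2)] with w hw
          by_cases hwc : w ∈ c
          exacts [Or.inl (hw hwc), Or.inr hwc]
        obtain ⟨z, hz, z1, z2⟩ := h1 _ _ isOpen_interior (ha J' hJ').isClosed.isOpen_compl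
          (fun z hz => by
            by_cases h : z ∈ J'
            exacts [Or.inl (h4 z hz h), Or.inr h])
          ⟨x, ⟨hx.1, hq⟩, h4 x ⟨hx.1, hq⟩ hx.2⟩ ⟨y, hy, hy'⟩
        exact z2 ((interior_subset z1).resolve_right fun h => h (hsc J hJ hz.1))
      rw [← (ha J hJ).closure_diff, hdiff]
      exact closure_minimal h2 (ha J' hJ').isClosed
    intro J hJ J' hJ' hne x hx
    by_contra hq
    exact hne (Subset.antisymm (key J hJ J' hJ' x hx hq) (key J' hJ' J hJ x ⟨hx.2, hx.1⟩ hq))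
  have hnear : ∀ J ∈ s, ∀ x ∈ J, ∀ N ∈ 𝓝[c] x, ∃ y ∈ N, y ∈ J ∧ y ∉ Q := fun J hJ x hx N hN => by
    have h1 : x ∈ closure (J \ Q) := by rw [← hdiff, (ha J hJ).closure_diff]; exact hx
    obtain ⟨y, y1, y2⟩ := mem_closure_iff_nhds.1 h1 _ (eventually_nhdsWithin_iff.1 hN)
    exact ⟨y, y1 (hsc J hJ y2.1), y2.1, y2.2⟩
  have hloc : ∀ x ∈ c, x ∈ Q → (x ∉ B ∧ ∃ J1 ∈ s, ∃ J2 ∈ s, J1 ≠ J2 ∧ x ∈ J1 ∧ x ∈ J2 ∧
      ∀ J ∈ s, x ∈ J → J = J1 ∨ J = J2) ∨ (x ∈ B ∧ ∃ J1, ∀ J ∈ s, x ∈ J → J = J1) := by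
    intro x hxc hxQ
    obtain ⟨k, hk, t, ht, t1, t2, rfl⟩ := hF x hxc
    obtain ⟨a, ha1, a', ha', l1, l2, hu⟩ := exists_succ (hTf k) (m1 k hk) (m2 k hk) ht.1 t1
    obtain rfl : a = t := le_antisymm l1 ((hu t ⟨ht, hxQ⟩).resolve_right (not_le.2 l2))
    have hJ2 : φ k '' Icc a a' ∈ s := ⟨k, hk, a, ha1, a', ha', l2, hu, rfl⟩
    rcases ht.1.lt_or_eq with h | h
    · obtain ⟨a₀, ha₀, l0, hu0⟩ := exists_pred (hTf k) (m1 k hk) ha1 h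
      have hJ1 : φ k '' Icc a₀ a ∈ s := ⟨k, hk, a₀, ha₀, a, ha1, l0, hu0, rfl⟩
      refine Or.inl ⟨fun hB => h.ne' (((hφ k).bd a ht).1 hB).2, _, hJ1, _, hJ2, fun e => ?_,
        ⟨a, ⟨l0.le, le_rfl⟩, rfl⟩, ⟨a, ⟨le_rfl, l2.le⟩, rfl⟩, fun J hJ hxJ => ?_⟩
      · obtain ⟨u, hu, eu⟩ := e.subset ⟨a₀, ⟨le_rfl, l0.le⟩, rfl⟩
        have := (hφ k).inj (hI ha1 ha' hu) ha₀.1 eu
        linarith [hu.1]
      · obtain ⟨_, ⟨u, hu, rfl⟩, y1, y2⟩ := hnear J hJ _ hxJ _ (image_mem_nhds (hφ k).pl.1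
          (hφ k).inj isOpen_Ioo ht (show a ∈ Ioo a₀ a' from ⟨l0, l2⟩) ((hφ k).opn a ht t1 t2))
        rcases le_total u a with h' | h'
        · exact Or.inl (by_contra fun hn => y2 (hb J hJ _ hJ1 hn ⟨y1, u, ⟨hu.1.1.le, h'⟩, rfl⟩))
        · exact Or.inr (by_contra fun hn => y2 (hb J hJ _ hJ2 hn ⟨y1, u, ⟨h', hu.1.2.le⟩, rfl⟩))
    · refine Or.inr ⟨((hφ k).bd a ht).2 ⟨t2.resolve_left h.not_lt, h.symm⟩, φ k '' Icc a a',
        fun J hJ hxJ => ?_⟩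
      obtain ⟨_, ⟨u, hu, rfl⟩, y1, y2⟩ := hnear J hJ _ hxJ _ (image_mem_nhds (hφ k).pl.1
        (hφ k).inj isOpen_Iio ht (show a ∈ Iio a' from l2) ((hφ k).opn a ht t1 t2))
      exact by_contra fun hn => y2 (hb J hJ _ hJ2 hn ⟨y1, u, ⟨h ▸ hu.2.1, le_of_lt hu.1⟩, rfl⟩)
  have hcs : ⋃₀ s = c := Subset.antisymm (sUnion_subset hsc) fun y hy => by
    obtain ⟨k, hk, t, ht, t1, -, rfl⟩ := hF y hy
    obtain ⟨a, ha1, a', ha', l1, l2, hu⟩ := exists_succ (hTf k) (m1 k hk) (m2 k hk) ht.1 t1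
    exact ⟨_, ⟨k, hk, a, ha1, a', ha', l1.trans_lt l2, hu, rfl⟩, t, ⟨l1, l2.le⟩, rfl⟩
  have hBQ : ∀ x ∈ c, x ∈ B → x ∈ Q := fun x hxc hB => by
    obtain ⟨k, hk, t, ht, -, -, rfl⟩ := hF x hxc
    rw [(((hφ k).bd t ht).1 hB).2]; exact (m1 k hk).2
  have hT2 : ∀ x ∈ c, x ∈ Q → (Two s x ↔ x ∉ B) := fun x hxc hq => by
    rcases hloc x hxc hq with ⟨h1, J1, j1, J2, j2, h2, h3, h4, -⟩ | ⟨h1, J1, h2⟩
    · exact iff_of_true ⟨J1, j1, J2, j2, h2, h3, h4⟩ h1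
    · refine iff_of_false (fun ⟨K1, k1, K2, k2, hne, x1, x2⟩ => hne ?_) fun h => h h1
      rw [h2 K1 k1 x1, h2 K2 k2 x2]
  obtain ⟨x₀, J₀, hJ₀, -⟩ : (⋃₀ s).Nonempty := hcs ▸ hne
  obtain ⟨p, q, -, e⟩ := R096.Gn_296.exists_ends (ha J₀ hJ₀)
  have := grow hsf ha hb (fun J hJ J' hJ' J'' hJ'' hne x x1 x2 x3 => by
    rcases hloc x (hsc J hJ x1) (hb J hJ J' hJ' hne ⟨x1, x2⟩) with
      ⟨-, J1, -, J2, -, -, -, -, h⟩ | ⟨-, J1, h⟩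
    · rcases h J hJ x1 with rfl | rfl <;> rcases h J' hJ' x2 with rfl | rfl
      exacts [absurd rfl hne, h J'' hJ'' x3, (h J'' hJ'' x3).symm, absurd rfl hne]
    · exact absurd ((h J hJ x1).trans (h J' hJ' x2).symm) hne) (hcs ▸ hconn) _ {J₀} p q
    (singleton_subset_iff.2 hJ₀) rfl (by rw [sUnion_singleton, ← e]; exact ha J₀ hJ₀)
    (e.superset (Or.inl rfl)).2 (e.superset (Or.inr rfl)).2 fun x hx hq => iff_of_false
      (fun ⟨K1, k1, K2, k2, hne, _⟩ => hne (k1.trans k2.symm))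
      fun h => h (e ▸ ⟨by simpa using hx, hq⟩)
  rw [hcs] at this
  rcases this with ⟨h1, h2⟩ | ⟨p, q, h1, hp, hq, h2⟩
  · exact Or.inl ⟨h1, disjoint_left.2 fun x hx hB =>
      (hT2 x hx (hBQ x hx hB)).1 (h2 x hx (hBQ x hx hB)) hB⟩
  · refine Or.inr ⟨p, q, h1, Subset.antisymm (fun x hx => ?_) fun x hx => ?_⟩
    · by_contra hn
      exact (hT2 x hx.1 (hBQ x hx.1 hx.2)).1 ((h2 x hx.1 (hBQ x hx.1 hx.2)).2 hn) hx.2
    · have hxc := h1.subset hx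
      have hxQ : x ∈ Q := by rcases hx with rfl | rfl <;> assumption
      exact ⟨hxc, by_contra fun hn => (h2 x hxc hxQ).1 ((hT2 x hxc hxQ).2 hn) hx⟩

end Crest.Agent.X212.Lad50
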