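import Crest.Agent.X212.Flo2.Real
import Crest.Agent.X212.Lad50.Bas

/-!
# Row 212, ALG-5 (helper50): the marks `hi1`, `hi0` may be closed under one homotopy
-/

set_option autoImplicit false

open Filter

noncomputable section

namespace Crest.Agent.X212.Lad50.Cl

open Win22 Flo2
open Bor5 (K)

variable {S : Sk} (Z : Cs S)

/-- no differential leaves a high degree -/
theorem dz {e : S.E} (he : S.qhs e) (s : S.L e) {x : ℚ} (hx : (Z.A e).w s + Z.N e + 1 ≤ x) :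
    ∀ᶠ m in atTop, ∀ i, (Z.A e).lab m i = (s, x) → ∀ j, Z.d e m i j = 0 := by
  by_cases h : ∃ k : ℕ, x = (Z.A e).w s + k
  · obtain ⟨k, rfl⟩ := h
    have hN : Z.N e + 1 ≤ k := by
      have : (Z.N e : ℚ) + 1 ≤ k := by linarith
      exact_mod_cast this
    obtain ⟨k, rfl⟩ : ∃ k', k = k' + 1 := ⟨k - 1, by omega⟩
    rcases Nat.even_or_odd k with h | h
    · exact (Z.od e he s (k + 1) (by omega) h.add_one).mono fun m hm i hi => (hm i hi).elim
    · refine (Z.od e he s k (by omega) h).mono fun m hm i hi j => by_contra fun h0 => hm j ?_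
      rw [Z.hom e m i j h0, hi]
      simp only [sh, Nat.cast_add_one, Prod.mk.injEq, true_and]
      ring
  · refine Eventually.of_forall fun m i hi => (h ?_).elim
    have := (Z.A e).lat m i
    rwa [hi] at this

/-- the facets of a family without necks and caps cancel in high degrees -/
theorem van {a b : S.E} (ha : S.qhs a) (hb : S.qhs b) {ρ : S.F a b} {l : List (S.F a b)}
    (h : S.Bd ρ l []) (c : S.L a) : ∃ n : ℚ, ∀ x, n ≤ x → ∀ᶠ m in atTop, ∀ i,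
      (Z.A a).lab m i = (c, x) → ∀ k, (l.map fun τ => Z.z τ m i k).sum = 0 := by
  refine ⟨max ((Z.A a).w c + Z.N a + 1) ((Z.A b).w (S.t ρ) + Z.N b + 1 - Z.dg ρ), fun x hx => ?_⟩
  rw [max_le_iff] at hx
  filter_upwards [Bs.mas_bd Z h x, dz Z ha c hx.1,
    dz Z hb (S.t ρ) (x := x + Z.dg ρ) (by linarith [hx.2])] with m h1 h2 h3 i hi k
  have h4 := h1 i (by rw [hi]) k
  rw [List.map_nil, List.sum_nil, add_zero] at h4
  rw [← h4, Finset.sum_eq_zero fun j _ => by rw [h2 i hi j, zero_mul], zero_add]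
  refine Finset.sum_eq_zero fun j _ => ?_
  by_cases h0 : Z.z ρ m i j = 0
  · rw [h0, zero_mul]
  · rw [h3 j (by rw [(Z.hz ρ m i j h0).2, hi]) k, mul_zero]

/-- families that vanish in high degrees -/
theorem lst {a b : S.E} (c : S.L a) (l : List (S.F a b)) (h : ∀ τ ∈ l, S.hi0 τ) :
    ∃ n : ℚ, ∀ x, n ≤ x → ∀ᶠ m in atTop, ∀ i,
      (Z.A a).lab m i = (c, x) → ∀ k, (l.map fun τ => Z.z τ m i k).sum = 0 := by
  induction l with
  | nil => exact ⟨0, fun _ _ => Eventually.of_forall fun _ _ _ _ => rfl⟩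
  | cons τ l ih =>
    obtain ⟨n, hn⟩ := ih fun τ' h' => h τ' (List.mem_cons_of_mem _ h')
    obtain ⟨n', hn'⟩ := Z.hi0 τ (h τ List.mem_cons_self)
    refine ⟨max n n', fun x hx => ?_⟩
    rw [max_le_iff] at hx
    filter_upwards [hn x hx.1, hn' x hx.2] with m h1 h2 i hi k
    rw [List.map_cons, List.sum_cons, h1 i hi k, add_zero]
    by_contra h0
    have := (Z.hz τ m i k h0).1
    rw [hi] at this
    exact h0 (h2 i (by rw [hi, ← this]) k)

theorem hi1 {a b : S.E} (σ : S.F a b) (h : S.clo.hi1 σ) : ∃ n : ℚ, ∀ x, n ≤ x → ∀ᶠ m in atTop,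
    ∀ i, (Z.A a).lab m i = (S.s σ, x) → ∃ k, Z.z σ m i k ≠ 0 := by
  rcases h with h | ⟨ha, hb, ρ, τ, l, h, h1, hs, h0⟩
  · exact Z.hi1 σ h
  obtain ⟨n₁, e₁⟩ := van Z ha hb h (S.s σ)
  obtain ⟨n₂, e₂⟩ := lst Z (S.s σ) l h0
  obtain ⟨n₃, e₃⟩ := Z.hi1 τ h1
  refine ⟨max n₁ (max n₂ n₃), fun x hx => ?_⟩
  simp only [max_le_iff] at hx
  filter_upwards [e₁ x hx.1, e₂ x hx.2.1, e₃ x hx.2.2] with m k₁ k₂ k₃ i hi
  refine (k₃ i (by rw [hi, hs])).imp fun k hk h' => hk ?_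
  have := k₁ i hi k
  rwa [List.map_cons, List.map_cons, List.sum_cons, List.sum_cons, k₂ i hi k, h', zero_add,
    add_zero] at this

theorem hi0 {a b : S.E} (σ : S.F a b) (h : S.clo.hi0 σ) : ∃ n : ℚ, ∀ x, n ≤ x → ∀ᶠ m in atTop,
    ∀ i, (Z.A a).lab m i = (S.s σ, x) → ∀ k, Z.z σ m i k = 0 := by
  rcases h with h | ⟨ha, hb, ρ, l, h, h0⟩
  · exact Z.hi0 σ h
  obtain ⟨n₁, e₁⟩ := van Z ha hb h (S.s σ)
  obtain ⟨n₂, e₂⟩ := lst Z (S.s σ) l h0
  refine ⟨max n₁ n₂, fun x hx => ?_⟩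
  rw [max_le_iff] at hx
  filter_upwards [e₁ x hx.1, e₂ x hx.2] with m k₁ k₂ i hi k
  have := k₁ i hi k
  rwa [List.map_cons, List.sum_cons, k₂ i hi k, add_zero] at this

/-- **ALG-5** -/
theorem clo : CloStmt := fun _ ⟨Z⟩ => ⟨{ Z with hi1 := hi1 Z, hi0 := hi0 Z }⟩

end Crest.Agent.X212.Lad50.Cl
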