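import Crest.Agent.X212.Lad50.RealC
import Crest.Agent.X212.Geo46.Defs

/-!
# Row 212, layer T, loop theorem road B: realisation of a normal disc (`Geo46.RealStmt`)
-/

open Set Filter Topology Metric

namespace Crest.Agent.X212.Lad50

open Crest.Agent.R096.Ce_537 Dsc37 Geo46
open Crest.Agent.X212.Tw9 (Tri)
open Crest.Agent.X212.Lev33 (Prim)

section
variable {E : Type} [NormedAddCommGroup E] [NormedSpace ℝ E] {ι : Type} [Fintype ι] {Y : Set E}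
  {T : Tri ι Y}

lemma mem_supp {y : E} {u : ι} : u ∈ supp T y ↔ 0 < T.be u y := by simp [supp]

lemma be_eq_zero {y : E} (hy : y ∈ Y) {u : ι} : T.be u y = 0 ↔ u ∉ supp T y := by
  rw [mem_supp, not_lt]
  exact ⟨fun h => h.le, fun h => le_antisymm h (T.nn y hy u)⟩

lemma supp_nonempty {y : E} (hy : y ∈ Y) : (supp T y).Nonempty := by
  by_contra h
  have h1 := T.sum y hy
  rw [Finset.sum_eq_zero fun u _ => (be_eq_zero hy).2 fun hu => h ⟨u, hu⟩] at h1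
  exact zero_ne_one h1

lemma supp_mem_simp {y : E} (hy : y ∈ Y) : supp T y ∈ simp T :=
  ⟨supp_nonempty hy, y, hy, subset_rfl⟩

lemma supp_pt {y : E} (hy : y ∈ Y) {u : ι} (hu : u ∈ supp T y) :
    T.pt u ∈ Y ∧ supp T (T.pt u) = {u} := by
  classical
  obtain ⟨h1, h2⟩ := T.face y hy (Pi.single u 1) (fun v => by
    by_cases h : v = u <;> simp [h]) (by simp) fun v hv => by
    have : v ≠ u := fun e => (be_eq_zero hy).1 hv (e ▸ hu)
    simp [this]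
  have e : ∑ v, (Pi.single u 1 : ι → ℝ) v • T.pt v = T.pt u := by
    rw [Finset.sum_eq_single u] <;> simp +contextual
  rw [e] at h1 h2
  refine ⟨h1, Finset.ext fun v => ?_⟩
  rw [mem_supp, h2, Finset.mem_singleton]
  by_cases h : v = u <;> simp [h]

lemma convex_cell {s : Finset ι} (hs : s ∈ simp T) : Convex ℝ (cell T s) := by
  obtain ⟨-, y, hy, hsy⟩ := hs
  intro x hx z hz a b ha hb hab
  have h0 : ∀ u, u ∉ s → a * T.be u x + b * T.be u z = 0 := fun u hu => by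
    rw [(be_eq_zero hx.1).2 fun h => hu (hx.2 u h), (be_eq_zero hz.1).2 fun h => hu (hz.2 u h)]
    ring
  obtain ⟨h1, h2⟩ := T.face y hy (fun u => a * T.be u x + b * T.be u z)
    (fun u => add_nonneg (mul_nonneg ha (T.nn x hx.1 u)) (mul_nonneg hb (T.nn z hz.1 u)))
    (by rw [Finset.sum_add_distrib, ← Finset.mul_sum, ← Finset.mul_sum, T.sum x hx.1,
      T.sum z hz.1]; linarith)
    fun u hu => h0 u fun h => (be_eq_zero hy).1 hu (hsy h)
  have e : ∑ u, (a * T.be u x + b * T.be u z) • T.pt u = a • x + b • z := by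
    simp only [add_smul, mul_smul, Finset.sum_add_distrib, ← Finset.smul_sum, T.rep x hx.1,
      T.rep z hz.1]
  rw [e] at h1 h2
  refine ⟨h1, fun u hu => ?_⟩
  by_contra hn
  rw [mem_supp, h2, h0 u hn] at hu
  exact lt_irrefl _ hu

lemma mem_iff_supp {A : Set E} (hA : T.Sub A) {y : E} (hy : y ∈ Y) :
    y ∈ A ↔ supp T y ∈ simpIn T A :=
  ⟨fun h => ⟨supp_mem_simp hy, fun z hz => hA y hy z hz.1 h fun u hu =>
    (be_eq_zero hz.1).2 fun h' => (be_eq_zero hy).1 hu (hz.2 u h')⟩,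
    fun h => h.2 ⟨hy, fun _ hu => hu⟩⟩

end

/-- **Realisation of a normal disc.** -/
theorem real_of (hSd : SdStmt) (hLoc : LocStmt) (hCx : CxStmt) (hH1 : H1Stmt)
    (hDisc : DiscStmt) : RealStmt := by
  intro Γ _ M dM c X hM g ⟨w, hD⟩
  obtain ⟨hO, hL⟩ := hLoc Γ M dM c X hM g
  obtain ⟨T', t1, t2, t3⟩ := hSd _ X.V g.Y g.T
  rw [← g.hK] at t1 t3
  set S := Sf X.K w with hS
  have hsub : sd S ⊆ sd X.K := fun r hr => ⟨hr.1, fun σ hσ => (hr.2.1 σ hσ).1, hr.2.2⟩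
  have hsd : ∀ y ∈ g.Y, supp T' y ∈ sd X.K := fun y hy => t1 ▸ supp_mem_simp hy
  have htop : ∀ y ∈ g.Y, top (supp T' y) = supp g.T y := fun y hy =>
    Finset.Subset.antisymm ((t2 y hy).2 _ (top_mem (hsd y hy))) (sub_top (t2 y hy).1)
  have hdM : ∀ y ∈ g.Y, y ∈ dM ↔ top (supp T' y) ∈ X.F := fun y hy => by
    rw [htop y hy, g.hF]; exact mem_iff_supp g.sub hy
  set D := cell T' S with hDdef
  have hDe : {y | y ∈ g.Y ∧ supp T' y ∈ sd S} = D := by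
    ext y
    exact and_congr_right fun hy => ⟨fun h => h.2.1, fun h => ⟨(hsd y hy).1, h, (hsd y hy).2.2⟩⟩
  have hcx := hCx _ (Finset X.V) g.Y T' (sd S) (t1 ▸ hsub) fun s hs t ht hn =>
    (cx_sd S).down s hs t ht hn
  rw [hDe] at hcx
  have hdim : ∀ r ∈ sd S, r.card ≤ 3 := fun r hr => by
    obtain ⟨f, -, f2, f3⟩ := ex_flag hO hL hD hr
    exact f2 ▸ Finset.card_le_card f3
  have hpos : ∀ r : sd S, 1 ≤ r.1.card := fun r => r.2.1.card_pos
  have hlt : ∀ e f : sd S, e.1.card = 2 → (e < f ↔ f.1.card = 3 ∧ e.1 ⊆ f.1) := fun e f he => by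
    constructor
    · intro h
      have h1 : e.1 ⊂ f.1 := h
      have := Finset.card_lt_card h1
      have := hdim f.1 f.2
      exact ⟨by omega, h1.1⟩
    · rintro ⟨h1, h2⟩
      exact (Finset.ssubset_iff_subset_ne.2 ⟨h2, fun e' => by rw [e'] at he; omega⟩ : e.1 ⊂ f.1)
  have hpt : ∀ σ ∈ X.K, T'.pt σ ∈ g.Y ∧ supp T' (T'.pt σ) = {σ} := fun σ hσ =>
    supp_pt (t3 σ hσ).1 (by have := (t2 _ (t3 σ hσ).1).1; rwa [(t3 σ hσ).2] at this)
  have hcell : ∀ r ∈ sd (Sf X.F w), ∀ y ∈ cell T' r, y ∈ D ∩ dM := fun r hr y hy =>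
    ⟨⟨hy.1, fun σ hσ => sfF_sub hO (hr.2.1 σ (hy.2 σ hσ))⟩, (hdM y hy.1).2
      (hr.2.1 _ (hy.2 _ (top_mem (hsd y hy.1)))).1⟩
  have hSC : Srf12.SC D (D ∩ dM) (sd S) (fun s => s.1.card - 1) (fun s => cell T' s.1) := by
    refine ⟨hcx, fun r => by have := hdim r.1 r.2; omega, fun r => ?_,
      fun e f₁ f₂ f₃ he h1 h2 h3 => ?_, fun x => ⟨fun hx => ?_, ?_⟩,
      fun v κ hv hκ f f' hf hf' h1 h2 => ?_⟩
    · obtain ⟨f, f1, f2, f3⟩ := ex_flag hO hL hD r.2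
      exact ⟨⟨f, f1⟩, by simp [f2], f3⟩
    · have he' : e.1.card = 2 := by have := hpos e; omega
      have h4 := count_faces hO hD e.2 he'
      by_contra hn
      push Not at hn
      have h5 : ({f₁.1, f₂.1, f₃.1} : Set _) ⊆ {f | f ∈ sd (Sf X.K w) ∧ f.card = 3 ∧ e.1 ⊆ f} := by
        rintro _ (rfl | rfl | rfl)
        exacts [⟨f₁.2, (hlt _ _ he').1 h1⟩, ⟨f₂.2, (hlt _ _ he').1 h2⟩, ⟨f₃.2, (hlt _ _ he').1 h3⟩]
      have h6 := ncard_le_ncard h5 (toFinite _)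
      rw [ncard_eq_three.2 ⟨_, _, _, fun h => hn.1 (Subtype.ext h), fun h => hn.2.1 (Subtype.ext h),
        fun h => hn.2.2 (Subtype.ext h), rfl⟩, h4] at h6
      split_ifs at h6 <;> omega
    · have h1 := (hdM x hx.1.1).1 hx.2
      have h2 : supp T' x ∈ sd (Sf X.F w) := ⟨(hsd x hx.1.1).1, fun σ hσ =>
        ⟨hO.cxF.down _ h1 σ (sub_top hσ) (hO.cxK.ne σ (hx.1.2 σ hσ).1), (hx.1.2 σ hσ).2⟩,
        (hsd x hx.1.1).2.2⟩
      obtain ⟨e, e1, e2, e3⟩ := ex_flagF hO hD h2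
      have e4 : e ∈ sd S := ⟨e1.1, fun σ hσ => sfF_sub hO (e1.2.1 σ hσ), e1.2.2⟩
      have h4 := count_faces hO hD e4 e2
      rw [if_pos (top_memK e1).1] at h4
      obtain ⟨f, hf⟩ := ncard_eq_one.1 h4
      have h5 := hf.superset rfl
      exact ⟨⟨e, e4⟩, ⟨f, h5.1⟩, by simp [e2], ⟨hx.1.1, fun σ hσ => e3 hσ⟩, (hlt _ _ e2).2 h5.2,
        fun f' h => Subtype.ext (hf.subset ⟨f'.2, (hlt _ _ e2).1 h⟩)⟩
    · rintro ⟨e, f, he, hx, h1, h2⟩
      have he' : e.1.card = 2 := by have := hpos e; omega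
      have h4 := count_faces hO hD e.2 he'
      have h5 : {f | f ∈ sd (Sf X.K w) ∧ f.card = 3 ∧ e.1 ⊆ f} = {f.1} := by
        ext f'; constructor
        · intro h; exact congrArg Subtype.val (h2 ⟨f', h.1⟩ ((hlt _ _ he').2 h.2))
        · rintro rfl; exact ⟨f.2, (hlt _ _ he').1 h1⟩
      rw [h5, ncard_singleton] at h4
      have h6 : top e.1 ∈ X.F := by
        by_contra hn; rw [if_neg hn] at h4; omega
      exact hcell e.1 ⟨e.2.1, fun σ hσ => ⟨hO.cxF.down _ h6 σ (sub_top hσ)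
        (hO.cxK.ne σ (e.2.2.1 σ hσ).1), (e.2.2.1 σ hσ).2⟩, e.2.2.2⟩ x hx
    · obtain ⟨σ, hσ⟩ := Finset.card_eq_one.1 (show v.1.card = 1 by have := hpos v; omega)
      have hσS : σ ∈ S := v.2.2.1 σ (by rw [hσ]; simp)
      have k1 : ∀ ρ ∈ Lk X w σ, ∀ f : sd S, f.1.card = 3 → σ ∈ f.1 → ρ ∈ f.1 →
          ((∃ f' : sd S, f'.1.card = 3 ∧ σ ∈ f'.1 ∧ ρ ∈ f'.1 ∧ κ f') ↔ κ f) := by
        intro ρ hρ f a1 a2 a3
        refine ⟨fun ⟨f', b1, b2, b3, b4⟩ => ?_, fun h => ⟨f, a1, a2, a3, h⟩⟩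
        have p1 : ∀ f : sd S, σ ∈ f.1 → ρ ∈ f.1 → ({σ, ρ} : Finset _) ⊆ f.1 := fun f a b =>
          Finset.insert_subset a (Finset.singleton_subset_iff.2 b)
        have p2 : ({σ, ρ} : Finset _).card = 2 := Finset.card_pair hρ.2.1.symm
        set e : sd S := ⟨{σ, ρ}, (cx_sd S).down _ f.2 _ (p1 f a2 a3) (by simp)⟩ with he
        refine (hκ e f' f ?_ ((hlt e _ p2).2 ⟨b1, p1 f' b2 b3⟩)
          ((hlt e _ p2).2 ⟨a1, p1 f a2 a3⟩)).1 b4
        exact (Finset.ssubset_iff_subset_ne.2 ⟨by rw [hσ]; simp [he], fun h => by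
          rw [← show v.1 = {σ, ρ} from h, hσ] at p2; simp at p2⟩ : v.1 ⊂ e.1)
      have k2 := link_conn hO hL hD hσS
        (fun ρ => ∃ f' : sd S, f'.1.card = 3 ∧ σ ∈ f'.1 ∧ ρ ∈ f'.1 ∧ κ f') fun ρ hρ ρ' hρ' h => by
          obtain ⟨f, f1, f2, f3⟩ := ex_flag hO hL hD (r := {σ, ρ, ρ'}) ⟨by simp, by
            simp only [Finset.mem_insert, Finset.mem_singleton]
            rintro _ (rfl | rfl | rfl)
            exacts [hσS, hρ.1, hρ'.1], by
            simp only [Finset.mem_insert, Finset.mem_singleton]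
            rintro _ (rfl | rfl | rfl) _ (rfl | rfl | rfl)
            exacts [Or.inl subset_rfl, hρ.2.2, hρ'.2.2, hρ.2.2.symm, Or.inl subset_rfl, Or.inl h,
              hρ'.2.2.symm, Or.inr h, Or.inl subset_rfl]⟩
          exact (k1 ρ hρ ⟨f, f1⟩ f2 (f3 (by simp)) (f3 (by simp))).trans
            (k1 ρ' hρ' ⟨f, f1⟩ f2 (f3 (by simp)) (f3 (by simp))).symm
      have k3 : ∀ f : sd S, v < f → σ ∈ f.1 ∧ ∃ ρ ∈ Lk X w σ, ρ ∈ f.1 := fun f h => by
        have h1 : v.1 ⊂ f.1 := h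
        obtain ⟨ρ, a, b⟩ := Finset.exists_of_ssubset h1
        have h2 : σ ∈ f.1 := h1.1 (by rw [hσ]; simp)
        exact ⟨h2, ρ, ⟨f.2.2.1 ρ a, fun e => b (by rw [hσ, e]; simp), f.2.2.2 σ h2 ρ a⟩, a⟩
      obtain ⟨a1, ρ, a2, a3⟩ := k3 f h1
      obtain ⟨b1, ρ', b2, b3⟩ := k3 f' h2
      exact (k1 ρ a2 f (by have := hpos f; omega) a1 a3).symm.trans
        ((k2 ρ a2 ρ' b2).trans (k1 ρ' b2 f' (by have := hpos f'; omega) b1 b3))
  obtain ⟨hh1, hh2⟩ := hH1 _ (Finset X.V) g.Y T' S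
  have hpair : ∀ u ∈ X.K, ∀ v ∈ X.K, u ⊆ v → ({u, v} : Finset _) ∈ sd X.K := fun u hu v hv h =>
    ⟨by simp, by simp [hu, hv], by simp [h]⟩
  have hconn : IsConnected D := by
    refine hh2 ?_
    have e : {u | u ∈ S ∧ {u} ∈ simp T'} = S := by
      ext u
      exact and_iff_left_of_imp fun h => t1 ▸ ⟨by simp, by simpa using h.1, by simp⟩
    rw [e]
    refine ⟨hD.conn.1, fun κ hκ => hD.conn.2 κ fun x hx y hy h => hκ x hx y hy ?_⟩
    rw [t1]; convert hpair x hx.1 y hy.1 h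
  have hH : H1On (simp T') S := by
    rw [t1]
    intro θ hθ
    obtain ⟨l, hl⟩ := hD.h0 θ fun x hx y hy z hz h1 h2 => hθ {x, y, z}
      ⟨by simp, by simp [hx.1, hy.1, hz.1], by simp [h1, h2, h1.trans h2]⟩ x (by simp) y (by simp)
      z (by simp) hx hy hz
    refine ⟨l, fun r hr x hx y hy xS yS => ?_⟩
    have z2 : ∀ a b c : ZMod 2, b = a + c → c = a + b := by decide
    rcases hr.2.2 x hx y hy with h | h
    · exact z2 _ _ _ (hl x xS y yS h)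
    · have h1 := hθ r hr x hx y hy x hx xS yS xS
      have h2 := hθ r hr x hx x hx x hx xS xS xS
      have h3 := hl y yS x xS h
      revert h1 h2 h3
      generalize θ x x = a; generalize θ x y = b; generalize θ y x = c
      generalize l x = d; generalize l y = e
      revert a b c d e; decide
  have hptF : ∀ σ ∈ Sf X.F w, ∀ r : Finset (Finset X.V), σ ∈ r → T'.pt σ ∈ cell T' r :=
    fun σ hσ r h => ⟨(hpt σ (hO.FK hσ.1)).1, fun u hu => by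
      rw [(hpt σ (hO.FK hσ.1)).2, Finset.mem_singleton] at hu; exact hu ▸ h⟩
  obtain ⟨σ₀, hσ₀⟩ := hD.connB.1
  refine ⟨D, hDisc D _ _ _ _ hSC hconn (hh1 hH).2 ⟨_, hcell {σ₀} ⟨by simp, by simpa using hσ₀,
    by simp⟩ _ (hptF σ₀ hσ₀ _ (by simp))⟩, fun y hy => g.YM hy.1, inter_subset_right,
    fun ⟨β, hβ⟩ => hD.ess ?_⟩
  refine ⟨fun σ => Additive.ofMul (β (T'.pt σ) * (g.b σ (T'.pt σ))⁻¹), fun σ hσ ρ hρ h => ?_⟩
  have r1 : ({σ, ρ} : Finset _) ∈ sd (Sf X.F w) := ⟨by simp, by simp [hσ, hρ], by simp [h]⟩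
  have r2 := hpair σ (hO.FK hσ.1) ρ (hO.FK hρ.1) h
  have r3 : cell T' ({σ, ρ} : Finset _) ⊆ ost g.T σ ∩ dM := fun y hy => ⟨⟨hy.1, by
    have := hy.2 _ (t2 y hy.1).1
    simp only [Finset.coe_insert, Finset.coe_singleton, mem_insert_iff, mem_singleton_iff] at this
    rcases this with e | e <;> rw [e]
    exact h⟩, (hcell _ r1 y hy).2⟩
  have mt := sf_mt hD (sfF_sub hO hσ)
  have p1 := hptF σ hσ {σ, ρ} (by simp)
  have p2 := hptF ρ hρ {σ, ρ} (by simp)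
  have e1 := ((g.prim σ hσ.1 mt).mono r3).uniq (hβ.mono (hcell _ r1))
    (convex_cell (t1 ▸ r2)).isPreconnected p1 p2
  have e2 := g.geq σ hσ.1 mt ρ hρ.1 h (T'.pt ρ)
    ⟨⟨p2.1, (t3 ρ (hO.FK hρ.1)).2.ge⟩, (r3 p2).2⟩
  apply Additive.toMul.injective
  simp only [toMul_add, toMul_ofMul, e2, e1]
  group

end Crest.Agent.X212.Lad50
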