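import Crest.Agent.X212.Dsc37.Defs

/-!
# Row 212, layer T, loop theorem road B: barycentric subdivision keeps the pseudomanifold
conditions and double covers (`Dsc37.OkSubStmt`, `Dsc37.DcSubStmt`)
-/

namespace Crest.Agent.X212.Lad50

open Dsc37

section
variable {V : Type*} [DecidableEq V] {K F : Set (Finset V)} {r t : Finset (Finset V)}

lemma sub_top {σ : Finset V} (h : σ ∈ r) : σ ⊆ top r := Finset.subset_biUnion_of_mem id h

lemma top_mono {s : Finset (Finset V)} (h : r ⊆ s) : top r ⊆ top s :=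
  Finset.biUnion_subset_biUnion_of_subset_left _ h

lemma top_mem (hr : r ∈ sd K) : top r ∈ r := by
  obtain ⟨σ, hσ, hmax⟩ := r.exists_max_image Finset.card hr.1
  have : top r = σ := by
    refine Finset.Subset.antisymm (Finset.biUnion_subset.2 fun ρ hρ => ?_) (sub_top hσ)
    rcases hr.2.2 ρ hρ σ hσ with h | h
    · exact h
    · exact (Finset.eq_of_subset_of_card_le h (hmax ρ hρ)).ge
  rwa [this]

lemma top_memK (hr : r ∈ sd K) : top r ∈ K := hr.2.1 _ (top_mem hr)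

lemma mem_sd_iff (hK : Cx K) (hF : Cx F) (hr : r ∈ sd K) : r ∈ sd F ↔ top r ∈ F :=
  ⟨top_memK, fun h => ⟨hr.1, fun σ hσ => hF.down _ h σ (sub_top hσ) (hK.ne σ (hr.2.1 σ hσ)),
    hr.2.2⟩⟩

lemma top_image {W : Type*} [DecidableEq W] (p : V → W) (r : Finset (Finset V)) :
    top (r.image (Finset.image p)) = (top r).image p := by
  ext w; simp only [top, Finset.mem_biUnion, Finset.mem_image, id]
  constructor
  · rintro ⟨_, ⟨σ, hσ, rfl⟩, h⟩
    obtain ⟨a, ha, rfl⟩ := Finset.mem_image.1 h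
    exact ⟨a, ⟨σ, hσ, ha⟩, rfl⟩
  · rintro ⟨a, ⟨σ, hσ, ha⟩, rfl⟩
    exact ⟨_, ⟨σ, hσ, rfl⟩, Finset.mem_image_of_mem _ ha⟩

omit [DecidableEq V] in
lemma cx_sd (K : Set (Finset V)) : Cx (sd K) :=
  ⟨fun _ h => h.1, fun _ h _ hs hn => ⟨hn, fun σ hσ => h.2.1 σ (hs hσ),
    fun σ hσ ρ hρ => h.2.2 σ (hs hσ) ρ (hs hρ)⟩⟩

omit [DecidableEq V] in
lemma eq_of_card {σ ρ : Finset V} (h : σ ⊆ ρ ∨ ρ ⊆ σ) (e : σ.card = ρ.card) : σ = ρ :=
  h.elim (fun h => Finset.eq_of_subset_of_card_le h e.ge)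
    fun h => (Finset.eq_of_subset_of_card_le h e.le).symm

omit [DecidableEq V] in
lemma sub_of_card {σ ρ : Finset V} (h : σ ⊆ ρ ∨ ρ ⊆ σ) (e : σ.card ≤ ρ.card) : σ ⊆ ρ :=
  h.elim id fun h => (Finset.eq_of_subset_of_card_le h e).ge

omit [DecidableEq V] in
lemma card_image_card (hr : r ∈ sd K) : (r.image Finset.card).card = r.card :=
  Finset.card_image_of_injOn fun σ hσ ρ hρ e => eq_of_card (hr.2.2 σ hσ ρ hρ) e

omit [DecidableEq V] in
lemma image_card_sub (hK : Cx K) {d : ℕ} (hd : ∀ σ ∈ K, σ.card ≤ d) (hr : r ∈ sd K) :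
    r.image Finset.card ⊆ Finset.Icc 1 d := by
  intro n hn
  obtain ⟨σ, hσ, rfl⟩ := Finset.mem_image.1 hn
  exact Finset.mem_Icc.2 ⟨(hK.ne σ (hr.2.1 σ hσ)).card_pos, hd σ (hr.2.1 σ hσ)⟩

omit [DecidableEq V] in
lemma dim_sd (hK : Cx K) {d : ℕ} (hd : ∀ σ ∈ K, σ.card ≤ d) (hr : r ∈ sd K) : r.card ≤ d := by
  have := Finset.card_le_card (image_card_sub hK hd hr)
  rw [card_image_card hr] at this
  simpa using this

lemma ncard_between {L u : Finset V} (h : L ⊆ u) (hc : u.card = L.card + 2) :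
    {ρ : Finset V | L ⊆ ρ ∧ ρ ⊆ u ∧ ρ.card = L.card + 1}.ncard = 2 := by
  obtain ⟨x, y, hxy, e⟩ := Finset.card_eq_two.1
    (show (u \ L).card = 2 by rw [Finset.card_sdiff_of_subset h]; omega)
  have hx : x ∈ u \ L := by rw [e]; simp
  have hy : y ∈ u \ L := by rw [e]; simp
  rw [Finset.mem_sdiff] at hx hy
  refine Set.ncard_eq_two.2 ⟨insert x L, insert y L, fun h' => ?_, ?_⟩
  · have : x ∈ insert y L := h' ▸ Finset.mem_insert_self x L
    exact (Finset.mem_insert.1 this).elim hxy hx.2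
  · ext ρ
    simp only [Set.mem_ofPred_eq, Set.mem_insert_iff, Set.mem_singleton_iff]
    constructor
    · rintro ⟨h1, h2, h3⟩
      obtain ⟨z, hz, rfl⟩ := Finset.exists_eq_insert_iff.2 ⟨h1, h3.symm⟩
      have : z ∈ u \ L := Finset.mem_sdiff.2 ⟨h2 (Finset.mem_insert_self _ _), hz⟩
      rw [e] at this
      rcases Finset.mem_insert.1 this with rfl | h
      · exact Or.inl rfl
      · rw [Finset.mem_singleton.1 h]; exact Or.inr rfl
    · rintro (rfl | rfl)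
      · exact ⟨Finset.subset_insert _ _, Finset.insert_subset hx.1 h,
          Finset.card_insert_of_notMem hx.2⟩
      · exact ⟨Finset.subset_insert _ _, Finset.insert_subset hy.1 h,
          Finset.card_insert_of_notMem hy.2⟩

lemma ncard_ext (ht : t ∈ sd K) :
    {T | T ∈ sd K ∧ T.card = t.card + 1 ∧ t ⊆ T}.ncard =
      {ρ | ρ ∈ K ∧ ρ ∉ t ∧ ∀ σ ∈ t, σ ⊆ ρ ∨ ρ ⊆ σ}.ncard := by
  symm
  refine Set.ncard_congr (fun ρ _ => insert ρ t) (fun ρ h => ⟨⟨Finset.insert_nonempty _ _, ?_, ?_⟩,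
    Finset.card_insert_of_notMem h.2.1, Finset.subset_insert _ _⟩) (fun ρ ρ' h h' e => ?_)
    fun T hT => ?_
  · intro σ hσ
    rcases Finset.mem_insert.1 hσ with rfl | hσ
    exacts [h.1, ht.2.1 σ hσ]
  · intro σ hσ σ' hσ'
    rcases Finset.mem_insert.1 hσ with rfl | h1 <;> rcases Finset.mem_insert.1 hσ' with rfl | h2
    exacts [Or.inl subset_rfl, (h.2.2 σ' h2).symm, h.2.2 σ h1, ht.2.2 σ h1 σ' h2]
  · have : ρ ∈ insert ρ' t := e ▸ Finset.mem_insert_self ρ t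
    exact (Finset.mem_insert.1 this).resolve_right h.2.1
  · obtain ⟨ρ, hρ, rfl⟩ := Finset.exists_eq_insert_iff.2 ⟨hT.2.2, hT.2.1.symm⟩
    exact ⟨ρ, ⟨hT.1.2.1 ρ (Finset.mem_insert_self _ _), hρ, fun σ hσ =>
      hT.1.2.2 σ (Finset.mem_insert_of_mem hσ) ρ (Finset.mem_insert_self _ _)⟩, rfl⟩

/-- the cofaces of a chain of codimension one -/
lemma ext_cases (hK : Cx K) {d : ℕ} (hd : ∀ σ ∈ K, σ.card ≤ d) (ht : t ∈ sd K)
    (hc : t.card + 1 = d) :
    ((top t).card = d ∧ {T | T ∈ sd K ∧ T.card = d ∧ t ⊆ T}.ncard = 2) ∨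
    ((top t).card + 1 = d ∧ {T | T ∈ sd K ∧ T.card = d ∧ t ⊆ T}.ncard =
      {ρ | ρ ∈ K ∧ ρ.card = d ∧ top t ⊆ ρ}.ncard) := by
  have h1 := image_card_sub hK hd ht
  obtain ⟨k, hk, hins⟩ := Finset.exists_eq_insert_iff.2
    ⟨h1, by rw [card_image_card ht, hc]; simp⟩
  have hk1 : k ∈ Finset.Icc 1 d := hins ▸ Finset.mem_insert_self _ _
  rw [Finset.mem_Icc] at hk1
  have hne : ∀ σ ∈ t, σ.card ≠ k := fun σ hσ e => hk (Finset.mem_image.2 ⟨σ, hσ, e⟩)
  have hex : ∀ j, 1 ≤ j → j ≤ d → j ≠ k → ∃ σ ∈ t, σ.card = j := fun j a b c => by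
    have : j ∈ insert k (t.image Finset.card) := hins ▸ Finset.mem_Icc.2 ⟨a, b⟩
    exact Finset.mem_image.1 ((Finset.mem_insert.1 this).resolve_left c)
  have hcard : ∀ ρ ∈ K, ρ ∉ t → (∀ σ ∈ t, σ ⊆ ρ ∨ ρ ⊆ σ) → ρ.card = k := fun ρ a b c => by
    by_contra hn
    obtain ⟨σ, hσ, e⟩ := hex _ (hK.ne ρ a).card_pos (hd ρ a) hn
    exact b (eq_of_card (c σ hσ) e ▸ hσ)
  have hpos := ht.1.card_pos
  have htop := hd _ (top_memK ht)
  rw [← hc, ncard_ext ht, hc]
  rcases hk1.2.lt_or_eq with hlt | rfl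
  · left
    obtain ⟨c, hc1, hc2⟩ := hex d (by omega) le_rfl hlt.ne'
    refine ⟨le_antisymm htop (hc2 ▸ Finset.card_le_card (sub_top hc1)), ?_⟩
    obtain ⟨u, hu1, hu2⟩ := hex (k + 1) (by omega) hlt (by omega)
    obtain ⟨L, hL1, hL2⟩ : ∃ L : Finset V, L.card + 1 = k ∧ (L = ∅ ∨ L ∈ t) := by
      rcases hk1.1.lt_or_eq with h | h
      · obtain ⟨L, a, b⟩ := hex (k - 1) (by omega) (by omega) (by omega)
        exact ⟨L, by omega, Or.inr a⟩
      · exact ⟨∅, by simpa using h, Or.inl rfl⟩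
    have hLu : L ⊆ u := by
      rcases hL2 with rfl | h
      · exact Finset.empty_subset _
      · exact sub_of_card (ht.2.2 L h u hu1) (by omega)
    rw [← ncard_between hLu (by omega)]
    congr 1
    ext ρ
    simp only [Set.mem_ofPred_eq]
    constructor
    · rintro ⟨a, b, c⟩
      have e := hcard ρ a b c
      refine ⟨?_, sub_of_card (c u hu1).symm (by omega), by omega⟩
      rcases hL2 with rfl | h
      · exact Finset.empty_subset _
      · exact sub_of_card (c L h) (by omega)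
    · rintro ⟨a, b, c⟩
      refine ⟨hK.down u (ht.2.1 u hu1) ρ b (Finset.card_pos.1 (by omega)),
        fun h => hne ρ h (by omega), fun σ hσ => ?_⟩
      rcases lt_or_gt_of_ne (hne σ hσ) with h | h
      · rcases hL2 with rfl | h'
        · have := (hK.ne σ (ht.2.1 σ hσ)).card_pos
          simp at hL1; omega
        · exact Or.inl ((sub_of_card (ht.2.2 σ hσ L h') (by omega)).trans a)
      · exact Or.inr (b.trans (sub_of_card (ht.2.2 u hu1 σ hσ) (by omega)))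
  · right
    obtain ⟨c, hc1, hc2⟩ := hex (k - 1) (by omega) (by omega) (by omega)
    have h2 := Finset.card_le_card (sub_top hc1)
    have h3 := hne _ (top_mem ht)
    refine ⟨by omega, ?_⟩
    congr 1
    ext ρ
    simp only [Set.mem_ofPred_eq]
    constructor
    · rintro ⟨a, b, c⟩
      have e := hcard ρ a b c
      exact ⟨a, e, sub_of_card (c _ (top_mem ht)) (by omega)⟩
    · rintro ⟨a, b, c⟩
      exact ⟨a, fun h => hne ρ h b, fun σ hσ => Or.inl ((sub_top hσ).trans c)⟩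

lemma mt_top {A : Set V} (h : Mt {σ | σ ∈ K ∧ Mt A σ} r) : Mt A (top r) := by
  obtain ⟨σ, hσ, -, a, ha, hA⟩ := h
  exact ⟨a, sub_top hσ ha, hA⟩

omit [DecidableEq V] in
lemma image_mem_sd {W : Type*} [DecidableEq W] {L : Set (Finset W)} {p : V → W}
    (hp : ∀ σ ∈ K, σ.image p ∈ L) (hr : r ∈ sd K) : r.image (Finset.image p) ∈ sd L := by
  refine ⟨hr.1.image _, fun s hs => ?_, fun s hs s' hs' => ?_⟩
  · obtain ⟨σ, hσ, rfl⟩ := Finset.mem_image.1 hs
    exact hp σ (hr.2.1 σ hσ)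
  · obtain ⟨σ, hσ, rfl⟩ := Finset.mem_image.1 hs
    obtain ⟨ρ, hρ, rfl⟩ := Finset.mem_image.1 hs'
    exact (hr.2.2 σ hσ ρ hρ).imp Finset.image_subset_image Finset.image_subset_image

omit [DecidableEq V] in
lemma eq_of_image_eq {W : Type*} [DecidableEq W] {p : V → W} {T σ ρ : Finset V}
    (hi : Set.InjOn p T) (h1 : σ ⊆ T) (h2 : ρ ⊆ T) (e : σ.image p = ρ.image p) : σ = ρ := by
  have key : ∀ {σ ρ : Finset V}, σ ⊆ T → ρ ⊆ T → σ.image p = ρ.image p → σ ⊆ ρ := by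
    intro σ ρ h1 h2 e a ha
    obtain ⟨b, hb, eb⟩ := Finset.mem_image.1 (e ▸ Finset.mem_image_of_mem p ha)
    exact hi (h2 hb) (h1 ha) eb ▸ hb
  exact Finset.Subset.antisymm (key h1 h2 e) (key h2 h1 e.symm)

end

/-- **Subdivision keeps the pseudomanifold conditions.** -/
theorem okSubStmt : OkSubStmt := by
  intro G _ X h
  refine ⟨cx_sd _, cx_sd _, fun r hr => ⟨hr.1, fun σ hσ => h.FK (hr.2.1 σ hσ), hr.2.2⟩,
    fun r hr => dim_sd h.cxK h.dimK hr, fun r hr => dim_sd h.cxF h.dimF hr,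
    fun t ht hc hm hF => ?_, fun t ht hc hm => ?_, fun t ht hc hm => ?_, ?_⟩
  · rcases ext_cases h.cxK h.dimK ht (congrArg (· + 1) hc) with ⟨-, e⟩ | ⟨e1, e⟩
    · exact e
    · exact e.trans (h.triI _ (top_memK ht) (by omega) (mt_top hm)
        fun hf => hF ((mem_sd_iff h.cxK h.cxF ht).2 hf))
  · have ht' : t ∈ sd X.K := ⟨ht.1, fun σ hσ => h.FK (ht.2.1 σ hσ), ht.2.2⟩
    rcases ext_cases h.cxK h.dimK ht' (congrArg (· + 1) hc) with ⟨e1, -⟩ | ⟨e1, e⟩
    · have := h.dimF _ (top_memK ht); omega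
    · exact e.trans (h.triB _ (top_memK ht) (by omega) (mt_top hm))
  · rcases ext_cases h.cxF h.dimF ht (congrArg (· + 1) hc) with ⟨-, e⟩ | ⟨e1, e⟩
    · exact e
    · exact e.trans (h.edgB _ (top_memK ht) (by omega) (mt_top hm))
  · intro x hx y hy z hz h1 h2
    exact h.coc _ ⟨top_memK hx.1, mt_top hx.2⟩ _ ⟨top_memK hy.1, mt_top hy.2⟩ _
      ⟨top_memK hz.1, mt_top hz.2⟩ (top_mono h1) (top_mono h2)

/-- **Subdivision keeps double covers.** -/
theorem dcSubStmt : DcSubStmt := by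
  intro G _ U B hU hB d
  have pτ : ∀ σ : Finset U.V, (σ.image d.τ).image d.p = σ.image d.p := fun σ => by
    rw [Finset.image_image]; exact Finset.image_congr fun x _ => d.pτ x
  refine ⟨⟨Finset.image d.p, Finset.image d.τ, {σ | σ ∈ U.K ∧ Mt d.E σ}, fun σ => ?_, pτ,
    fun σ ⟨h, a, ha, hE⟩ => ⟨d.τK σ h, d.τ a, Finset.mem_image_of_mem _ ha, d.τE a hE⟩,
    fun σ ⟨h, a, ha, hA⟩ => ⟨h, a, ha, d.AE hA⟩,
    fun σ ⟨h, a, ha, hE⟩ => ⟨d.pK σ h, d.p a, Finset.mem_image_of_mem _ ha, d.pE a hE⟩,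
    fun r hr => image_mem_sd d.pK hr, fun r hr => image_mem_sd d.τK hr,
    fun r hr σ hσ ρ hρ e => eq_of_image_eq (d.inj _ (top_memK hr)) (sub_top hσ) (sub_top hρ) e,
    fun (σ : Finset U.V) ⟨h, a, ha, hE⟩ e => d.free a hE ?_,
    fun (σ : Finset U.V) ⟨h, a, ha, hE⟩ (ρ : Finset U.V) hρ e => ?_,
    fun (σ : Finset U.V) ⟨h, a, ha, hE⟩ (s : Finset (Finset B.V)) hs hσ => ?_,
    fun (σ : Finset U.V) ⟨h, a, ha, hE⟩ (r : Finset (Finset U.V)) hr (r' : Finset (Finset U.V))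
      hr' h1 h2 e => ?_,
    fun (r : Finset (Finset U.V)) hr hm => ?_,
    fun (r : Finset (Finset U.V)) hr (s : Finset (Finset U.V)) hs hm hrs => ?_⟩⟩
  · exact (Finset.image_image (s := (σ : Finset U.V))).trans
      ((Finset.image_congr fun x _ => d.ττ x).trans Finset.image_id)
  · have h1 : d.τ a ∈ σ := by
      have := Finset.mem_image_of_mem d.τ ha
      rwa [show Finset.image d.τ σ = σ from e] at this
    exact d.inj σ h h1 ha (d.pτ a)
  · have hρK : ρ ∈ U.K := hρ.2.1 ρ (Finset.mem_singleton_self _)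
    have e' : ρ.image d.p = σ.image d.p := e
    obtain ⟨b, hb, eb⟩ := Finset.mem_image.1 (e' ▸ Finset.mem_image_of_mem d.p ha)
    rcases d.fib a hE b (hU.cxK.down ρ hρK _ (Finset.singleton_subset_iff.2 hb)
      (Finset.singleton_nonempty b)) eb with rfl | rfl
    · exact Or.inl (d.uniq b hE ρ hρK σ h hb ha e')
    · exact Or.inr (d.uniq _ (d.τE a hE) ρ hρK _ (d.τK σ h) hb (Finset.mem_image_of_mem _ ha)
        (e'.trans (pτ σ).symm))
  · obtain ⟨T, hT, haT, eT⟩ := d.lift a hE _ (top_memK hs)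
      (sub_top hσ (Finset.mem_image_of_mem _ ha))
    have k1 : ∀ β ∈ s, (T.filter fun x => d.p x ∈ β).image d.p = β := fun β hβ => by
      ext w
      simp only [Finset.mem_image, Finset.mem_filter]
      constructor
      · rintro ⟨x, ⟨-, h⟩, rfl⟩; exact h
      · intro hw
        obtain ⟨x, hx, rfl⟩ := Finset.mem_image.1 (eT ▸ sub_top hβ hw)
        exact ⟨x, ⟨hx, hw⟩, rfl⟩
    have k2 : ∀ β ∈ s, (T.filter fun x => d.p x ∈ β) ∈ U.K := fun β hβ =>
      hU.cxK.down T hT _ (Finset.filter_subset _ _) (by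
        have := hB.cxK.ne β (hs.2.1 β hβ)
        rw [← k1 β hβ] at this
        exact this.of_image)
    refine ⟨s.image fun β => T.filter fun x => d.p x ∈ β, ⟨hs.1.image _, fun ρ hρ => ?_,
      fun ρ hρ ρ' hρ' => ?_⟩, Finset.mem_image.2 ⟨_, hσ, ?_⟩, ?_⟩
    · obtain ⟨β, hβ, rfl⟩ := Finset.mem_image.1 hρ
      exact k2 β hβ
    · obtain ⟨β, hβ, rfl⟩ := Finset.mem_image.1 hρ
      obtain ⟨β', hβ', rfl⟩ := Finset.mem_image.1 hρ'
      exact (hs.2.2 β hβ β' hβ').imp (fun h => Finset.monotone_filter_right _ fun x _ hx => h hx)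
        fun h => Finset.monotone_filter_right _ fun x _ hx => h hx
    · exact d.uniq a hE _ (k2 _ hσ) σ h
        (Finset.mem_filter.2 ⟨haT, Finset.mem_image_of_mem _ ha⟩) ha (k1 _ hσ)
    · exact (Finset.image_image (s := s)).trans
        ((Finset.image_congr fun β hβ => k1 β hβ).trans Finset.image_id)
  · have e1 : top r = top r' := d.uniq a hE _ (top_memK hr) _ (top_memK hr') (sub_top h1 ha)
      (sub_top h2 ha) (by rw [← top_image, ← top_image]; exact congrArg top e)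
    have key : ∀ {r r' : Finset (Finset U.V)}, r ∈ sd U.K → top r = top r' →
        r.image (Finset.image d.p) = r'.image (Finset.image d.p) → r ⊆ r' := by
      intro r r' hr e1 e ρ hρ
      obtain ⟨ρ', hρ', e2⟩ := Finset.mem_image.1 (e ▸ Finset.mem_image_of_mem _ hρ)
      exact eq_of_image_eq (d.inj _ (top_memK hr)) (e1 ▸ sub_top hρ') (sub_top hρ) e2 ▸ hρ'
    exact Finset.Subset.antisymm (key hr e1 e) (key hr' e1.symm e.symm)
  · refine (mem_sd_iff hU.cxK hU.cxF hr).trans (Iff.trans ?_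
      (mem_sd_iff hB.cxK hB.cxF (image_mem_sd d.pK hr)).symm)
    rw [top_image]
    exact d.bd _ (top_memK hr) (mt_top hm)
  · change U.g (top r) (top s) = B.g (top (r.image (Finset.image d.p)))
      (top (s.image (Finset.image d.p)))
    rw [top_image, top_image]
    exact d.geq _ (top_memK hr) _ (top_memK hs) (mt_top hm) (top_mono hrs)

end Crest.Agent.X212.Lad50
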