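import Crest.Agent.X212.Lad50.Rung
import Crest.Agent.R096.P2f_241

/-!
# Row 212, layer T: Alexander's theorem gives the `3`-handle and the ball blocks
-/

open Set Filter Topology Metric

namespace Crest.Agent.X212.Lad50

open Crest.Agent.R096.Ce_537 Prd34
open Crest.Agent.R096.Cx_609 (equivOfInjOn exists_equiv_of_bijOn finConv_closedBall finConv_sphere)

/-- **Alexander**: a compact set whose frontier lies in a parametrised PL sphere is a ball,
extending the parametrisation -/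
theorem alex {Q dQ W : Set V} {b : V → V} (hQ : IsBall 3 Q dQ) (hb : PLOn b dQ) (hi : InjOn b dQ)
    (hW : IsCompact W) (hf : frontier W ⊆ b '' dQ) (hn : ¬ W ⊆ b '' dQ) :
    ∃ e : PLEquiv Q W, EqOn e.f b dQ := by
  obtain ⟨a, ha⟩ := id hQ
  have h1 : R096.Cx_609.FinConv dQ := by
    rw [← ha]; exact (a.restrImage sph_subset_cube).finConv (finConv_sphere 3)
  set β := equivOfInjOn h1 hQ.isClosed_bdry hb hi with hβ
  obtain ⟨H, p1, p2, p3⟩ := R096.Ar_241.p2_fin (b '' dQ) ⟨by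
    subst ha; exact (a.restrImage sph_subset_cube).trans β⟩
  have h2 := R096.Ar_241.isBall_of_frontier (by norm_num) H p1 p2 hW (by rwa [p3]) (by rwa [p3])
  rw [p3] at h2
  obtain ⟨e, e1, -⟩ := hQ.extend h2 β
  exact ⟨e, e1⟩

/-- **The `3`-handle.** -/
theorem plhs_three : PLHS Finset.univ := by
  intro h hh hp
  have hsl : Prd34.slab Finset.univ = cube 3 := by
    ext x; simp [Prd34.slab, pi_norm_le_iff_of_nonneg]
  have hout : ∀ x ∈ cube 3, x ∈ out Finset.univ ↔ x ∈ sph 3 := fun x hx => by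
    have h1 := mem_closedBall_zero_iff.1 hx
    simp only [mem_sphere_zero_iff_norm]
    constructor
    · rintro ⟨i, -, hi⟩; exact le_antisymm h1 (hi.trans (norm_le_pi_norm x i))
    · intro h2
      by_contra hc
      have : ‖x‖ < 1 := (pi_norm_lt_iff one_pos).2 fun i =>
        not_le.1 fun h => hc ⟨i, Finset.mem_univ i, h⟩
      linarith
  obtain ⟨e, he⟩ := alex (isBall_cube 3) (plOn_of_locPL hp (isCompact_sphere 0 1) fun x hx =>
    out_subset_rim _ ((hout x (sph_subset_cube hx)).2 hx)) hh.injective.injOn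
    ((isCompact_closedBall 0 1).image hh.continuous) (fun z hz => by
      rw [((isCompact_closedBall 0 1).image hh.continuous).isClosed.frontier_eq] at hz
      obtain ⟨⟨x, hx, rfl⟩, h2⟩ := hz
      refine ⟨x, mem_sphere_zero_iff_norm.2 (le_antisymm (mem_closedBall_zero_iff.1 hx)
        (not_lt.1 fun h => h2 ?_)), rfl⟩
      exact mem_interior_iff_mem_nhds.2 (hh.isOpenMap.image_mem_nhds
        (closedBall_mem_nhds_of_mem (mem_ball_zero_iff.2 h))))
    (fun hs => by
      obtain ⟨x, hx, ex⟩ := hs ⟨0, by simp, rfl⟩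
      rw [hh.injective ex] at hx
      simp at hx)
  have hH := per_of_emb hh
  have L : Lad Finset.univ ∅ h e.f := by
    refine ⟨by rw [hsl]; exact lpl_of_plOn e.pf, fun x hx y hy => ?_, by rw [hsl, e.image_eq],
      fun x hx y hy _ i _ => ?_, fun x hx ho => he ((hout x (hsl ▸ hx)).1 ho)⟩
    · rw [(e.injOn).eq_iff (hsl ▸ hx) (hsl ▸ hy), ← hH.fib, hh.injective.eq_iff]
    · have h1 := hx i (Finset.mem_univ i)
      have h2 := hy i (Finset.mem_univ i)
      exact (abs_sub _ _).trans (by linarith)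
  refine final_pos (by simp) (by simp) hH hp L fun x hx => ?_
  obtain ⟨y, hy, e⟩ := L.img.subset ⟨x, hx.1, rfl⟩
  exact ⟨y, hy, fun j hj => absurd hj (Finset.notMem_empty j), e.symm, EventuallyEq.rfl⟩

/-- the box `[-1,1]² × [c, c+1]` is a ball -/
lemma isBall_lay (c : ℝ) : IsBall 3 (Lay {0, 1} c)
    {x | x ∈ Lay {0, 1} c ∧ (x ∈ out {0, 1} ∨ x 2 = c ∨ x 2 = c + 1)} := by
  set φ : V → V := fun w => ![w 0, w 1, c + 1 / 2 + 1 / 2 * w 2] with hφ
  have hn : ∀ w : V, ‖w‖ = max ‖pr w‖ |w 2| := fun w => by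
    apply le_antisymm
    · refine (pi_norm_le_iff_of_nonneg (le_max_of_le_left (norm_nonneg _))).2 fun i => ?_
      rw [norm_pr]
      fin_cases i <;> simp
    · rw [norm_pr]
      exact max_le (max_le (norm_le_pi_norm w 0) (norm_le_pi_norm w 1)) (norm_le_pi_norm w 2)
  have h := R096.Cx_609.isBall_of_injOn (k := 3) (φ := φ) (pl_vec3 (pl_coord 0 _) (pl_coord 1 _)
    (pl_add (plOn_const _ _) (pl_mul _ (pl_coord 2 _)))) fun w _ w' _ e => by
      have e2 : c + 1 / 2 + 1 / 2 * w 2 = c + 1 / 2 + 1 / 2 * w' 2 := congrFun e 2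
      funext i; fin_cases i
      · exact congrFun e 0
      · exact congrFun e 1
      · exact (by linarith : w 2 = w' 2)
  have hs : ∀ x : V, φ ![x 0, x 1, 2 * (x 2 - c) - 1] = x := fun x => by
    funext i; fin_cases i <;> simp [hφ]; ring
  have k1 : ∀ w, φ w ∈ Lay {0, 1} c ↔ w ∈ cube 3 := fun w => by
    rw [mem_closedBall_zero_iff, hn, max_le_iff, abs_le]
    change _ ∧ c ≤ c + 1 / 2 + 1 / 2 * w 2 ∧ c + 1 / 2 + 1 / 2 * w 2 ≤ c + 1 ↔ _
    rw [mem_slab_iff]
    exact and_congr Iff.rfl ⟨fun h => ⟨by linarith [h.1], by linarith [h.2]⟩,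
      fun h => ⟨by linarith [h.1], by linarith [h.2]⟩⟩
  have k2 : ∀ w, (φ w ∈ out {0, 1} ∨ φ w 2 = c ∨ φ w 2 = c + 1) → 1 ≤ ‖w‖ := fun w hw => by
    rw [hn, le_max_iff]
    rcases hw with h | h | h
    · exact Or.inl ((mem_out_iff (x := φ w)).1 h)
    · change c + 1 / 2 + 1 / 2 * w 2 = c at h
      exact Or.inr (le_abs.2 (Or.inr (by linarith)))
    · change c + 1 / 2 + 1 / 2 * w 2 = c + 1 at h
      exact Or.inr (le_abs.2 (Or.inl (by linarith)))
  convert h using 1
  · ext x; constructor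
    · intro hx; exact ⟨_, (k1 _).1 (by rwa [hs]), hs x⟩
    · rintro ⟨w, hw, rfl⟩; exact (k1 w).2 hw
  · ext x; constructor
    · intro hx
      exact ⟨_, mem_sphere_zero_iff_norm.2 (le_antisymm
        (mem_closedBall_zero_iff.1 ((k1 _).1 (by rw [hs]; exact hx.1)))
        (k2 _ (by rw [hs]; exact hx.2))), hs x⟩
    · rintro ⟨w, hw, rfl⟩
      refine ⟨(k1 w).2 (sph_subset_cube hw), ?_⟩
      have h1 := mem_sphere_zero_iff_norm.1 hw
      rw [hn] at h1
      rcases max_choice ‖pr w‖ |w 2| with h | h <;> rw [h] at h1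
      · exact Or.inl ((mem_out_iff (x := φ w)).2 h1.ge)
      · right
        change c + 1 / 2 + 1 / 2 * w 2 = c ∨ c + 1 / 2 + 1 / 2 * w 2 = c + 1
        rcases (abs_eq zero_le_one).1 h1 with h | h
        · exact Or.inr (by linarith)
        · exact Or.inl (by linarith)

section
variable {K J : Finset (Fin 3)} {H : V → V} {c δ : ℝ} {u : P → V}

lemma rung_out (hu : Rung K J H c δ u) {y : P} (h : u y ∈ out K) : u y = lv c y := by
  by_contra hc
  exact hu.ins y (fun h => hc (hu.bd y h)) h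

lemma joined_vert (h2 : (2 : Fin 3) ∉ K) (hu : Rung K J H c δ u) {x : V} (hx : x ∈ out K) {t : ℝ}
    (ht : c ∉ uIcc (x 2) t) : JoinedIn (range u)ᶜ x (lv t (pr x)) := by
  have hc : Continuous fun s => lv s (pr x) := by unfold lv; fun_prop
  have h1 := ((convex_uIcc (x 2) t).isPathConnected nonempty_uIcc).joinedIn _ left_mem_uIcc _
    right_mem_uIcc
  have h3 := h1.map hc
  rw [lv_pr] at h3
  refine h3.mono ?_
  rintro _ ⟨s, hs, rfl⟩ ⟨y, hy⟩
  have h4 : u y ∈ out K := by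
    obtain ⟨i, hi, h⟩ := hx
    refine ⟨i, hi, ?_⟩
    rw [hy]
    have : i ≠ 2 := fun e => h2 (e ▸ hi)
    revert h this; fin_cases i <;> simp [lv, pr]
  have h5 : c = s := congrFun ((rung_out hu h4).symm.trans hy) 2
  exact ht (h5 ▸ hs)

lemma le_of_out_up (h2 : (2 : Fin 3) ∉ K) (hu : Rung K J H c δ u) (hs : SepH u) {x : V}
    (hx : x ∈ out K) (h : x ∈ Up u ∪ range u) : c ≤ x 2 := by
  rcases h with h | ⟨y, rfl⟩
  · by_contra hc
    push Not at hc
    refine disjoint_left.1 hs.dis h ⟨lv (min (x 2) (c - δ)) (pr x), fun y => ?_,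
      joined_vert h2 hu hx fun hm => ?_⟩
    · exact (min_le_right _ _).trans_lt (by linarith [(abs_lt.1 (hu.ht y)).1])
    · rw [uIcc_of_ge (min_le_left _ _)] at hm; linarith [hm.2]
  · rw [rung_out hu hx]; exact le_rfl

lemma le_of_out_dn (h2 : (2 : Fin 3) ∉ K) (hu : Rung K J H c δ u) (hs : SepH u) {x : V}
    (hx : x ∈ out K) (h : x ∈ Dn u ∪ range u) : x 2 ≤ c := by
  rcases h with h | ⟨y, rfl⟩
  · by_contra hc
    push Not at hc
    refine disjoint_left.1 hs.dis ⟨lv (max (x 2) (c + δ)) (pr x), fun y => ?_,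
      joined_vert h2 hu hx fun hm => ?_⟩ h
    · exact lt_of_lt_of_le (by linarith [(abs_lt.1 (hu.ht y)).2]) (le_max_right _ _)
    · rw [uIcc_of_le (le_max_left _ _)] at hm; linarith [hm.1]
  · rw [rung_out hu hx]; exact le_rfl

lemma isClosed_up (hs : SepH u) : IsClosed (Up u ∪ range u) := by
  convert hs.oD.isClosed_compl using 1
  ext x; constructor
  · rintro (h | h) hd
    · exact disjoint_left.1 hs.dis h hd
    · exact not_mem_range_of_dn hd h
  · intro h; rcases hs.cov x with h1 | h1 | h1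
    exacts [Or.inl h1, absurd h1 h, Or.inr h1]

lemma isClosed_dn (hs : SepH u) : IsClosed (Dn u ∪ range u) := by
  convert hs.oU.isClosed_compl using 1
  ext x; constructor
  · rintro (h | h) hd
    · exact disjoint_left.1 hs.dis hd h
    · exact not_mem_range_of_up hd h
  · intro h; exact (hs.cov x).resolve_left h

end

/-- **Ball blocks.** -/
theorem blk_two (hS : SepStmt) : BlkStmt {0, 1} ∅ := by
  classical
  intro H hH hp c u u' hu hu'
  have hh := emb_of_per hH
  have hs := hS _ _ H _ _ u (by simp) (by simp) hH hu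
  have hs' := hS _ _ H _ _ u' (by simp) (by simp) hH hu'
  have h2 : (2 : Fin 3) ∉ ({0, 1} : Finset (Fin 3)) := by decide
  set a : V → V := fun x => if x 2 = c then u (pr x) else if x 2 = c + 1 then u' (pr x) else x
    with ha
  have a1 : ∀ x : V, x 2 = c → a x = u (pr x) := fun x hx => if_pos hx
  have a2 : ∀ x : V, x 2 = c + 1 → a x = u' (pr x) := fun x hx => by
    rw [ha]; simp only; rw [if_neg (by linarith), if_pos hx]
  have ho : ∀ (t : ℝ) (x : V), x ∈ out {0, 1} → lv t (pr x) ∈ out {0, 1} := fun t x hx => by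
    rw [mem_out_iff] at hx ⊢; rwa [pr_lv]
  have a3 : ∀ x ∈ out {0, 1}, a x = x := fun x hx => by
    by_cases e1 : x 2 = c
    · rw [a1 x e1, hu.bd _ (ho _ x hx), ← e1, lv_pr]
    · by_cases e2 : x 2 = c + 1
      · rw [a2 x e2, hu'.bd _ (ho _ x hx), ← e2, lv_pr]
      · rw [ha]; simp only; rw [if_neg e1, if_neg e2]
  have hQ := isBall_lay c
  have hB : IsCompact (Blk {0, 1} u u') := by
    refine Metric.isCompact_of_isClosed_isBounded
      (((isClosed_slab _).inter (isClosed_up hs)).inter (isClosed_dn hs')) ?_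
    refine isBounded_iff_forall_norm_le.2 ⟨|c| + 2, fun x hx => ?_⟩
    have b1 := lt_of_mem_up hu hs hx.1.2
    have b2 := lt_of_mem_dn hu' hs' hx.2
    have b3 := abs_nonneg c
    refine (pi_norm_le_iff_of_nonneg (by linarith)).2 fun i => ?_
    fin_cases i
    · exact (hx.1.1 0 (by decide)).trans (by linarith)
    · exact (hx.1.1 1 (by decide)).trans (by linarith)
    · exact abs_le.2 ⟨by change _ ≤ x 2; linarith [neg_abs_le c],
        by change x 2 ≤ _; linarith [le_abs_self c]⟩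
  have hinj : InjOn a {x | x ∈ Lay {0, 1} c ∧ (x ∈ out {0, 1} ∨ x 2 = c ∨ x 2 = c + 1)} := by
    have k1 : ∀ x ∈ out {0, 1}, ∀ y : V, (y 2 = c ∨ y 2 = c + 1) → a x = a y → x = y := by
      intro x hx y hy e
      rw [a3 x hx] at e
      rcases hy with hy | hy
      · rw [a1 y hy] at e
        rw [e, rung_out hu (e ▸ hx), ← hy, lv_pr]
      · rw [a2 y hy] at e
        rw [e, rung_out hu' (e ▸ hx), ← hy, lv_pr]
    have k2 : ∀ x y : V, x 2 = c → y 2 = c + 1 → a x ≠ a y := fun x y hx hy e => by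
      rw [a1 x hx, a2 y hy] at e
      have b1 := (abs_lt.1 (hu.ht (pr x))).2
      have b2 := (abs_lt.1 (hu'.ht (pr y))).1
      rw [e] at b1; linarith
    rintro x ⟨-, hx | hx⟩ y ⟨-, hy | hy⟩ e
    · rwa [a3 x hx, a3 y hy] at e
    · exact k1 x hx y hy e
    · exact (k1 y hy x hx e.symm).symm
    · rcases hx with hx | hx <;> rcases hy with hy | hy
      · rw [a1 x hx, a1 y hy] at e
        rw [← lv_pr x, ← lv_pr y, hu.inj e, hx, hy]
      · exact absurd e (k2 x y hx hy)
      · exact absurd e.symm (k2 y x hy hx)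
      · rw [a2 x hx, a2 y hy] at e
        rw [← lv_pr x, ← lv_pr y, hu'.inj e, hx, hy]
  have hL := hQ.isCompact
  have c2 : ∀ t : ℝ, IsClosed {x : V | x 2 = t} := fun t =>
    isClosed_eq (continuous_apply 2) continuous_const
  have hpl : PLOn (fun x => H (a x))
      {x | x ∈ Lay {0, 1} c ∧ (x ∈ out {0, 1} ∨ x 2 = c ∨ x 2 = c + 1)} := by
    have q : ∀ {v : P → V}, LocPL (fun y => H (v y)) univ → ∀ t : ℝ,
        PLOn (fun x => H (v (pr x))) (Lay {0, 1} c ∩ {x | x 2 = t}) := fun {v} hv t =>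
      plOn_of_locPL (locPL_comp (g := fun y => H (v y)) hv (locPL_of_plOn (plOn_pr _) univ) (mapsTo_univ _ _))
        (hL.inter_right (c2 t)) (subset_univ _)
    have p1 : PLOn (fun x => H (a x)) (Lay {0, 1} c ∩ out {0, 1}) :=
      (plOn_of_locPL hp (hL.inter_right (isClosed_out _)) fun x hx =>
        out_subset_rim _ hx.2).congr fun x hx => by simp only [a3 x hx.2]
    have p2 : PLOn (fun x => H (a x)) (Lay {0, 1} c ∩ {x | x 2 = c}) :=
      (q hu.pl c).congr fun x hx => by simp only [a1 x hx.2]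
    have p3 : PLOn (fun x => H (a x)) (Lay {0, 1} c ∩ {x | x 2 = c + 1}) :=
      (q hu'.pl (c + 1)).congr fun x hx => by simp only [a2 x hx.2]
    have l1 := isClosed_lay {0, 1} c
    refine (p1.union (p2.union p3 (l1.inter (c2 _)) (l1.inter (c2 _))) (l1.inter (isClosed_out _))
      ((l1.inter (c2 _)).union (l1.inter (c2 _)))).mono ?_
    rintro x ⟨hx, h | h | h⟩
    exacts [Or.inl ⟨hx, h⟩, Or.inr (Or.inl ⟨hx, h⟩), Or.inr (Or.inr ⟨hx, h⟩)]
  obtain ⟨e, he⟩ := alex hQ hpl (hh.injective.comp_injOn hinj) (hB.image hh.continuous)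
    (fun z hz => by
      rw [(hB.image hh.continuous).isClosed.frontier_eq] at hz
      obtain ⟨⟨x, hx, rfl⟩, h3⟩ := hz
      by_cases o1 : x ∈ out {0, 1}
      · exact ⟨x, ⟨⟨hx.1.1, le_of_out_up h2 hu hs o1 hx.1.2, le_of_out_dn h2 hu' hs' o1 hx.2⟩,
          Or.inl o1⟩, by simp only [a3 x o1]⟩
      rcases hx.1.2 with o2 | ⟨y, rfl⟩
      · rcases hx.2 with o3 | ⟨y, rfl⟩
        · refine absurd (mem_interior_iff_mem_nhds.2 (hh.isOpenMap.image_mem_nhds ?_)) h3
          filter_upwards [(isClosed_out _).isOpen_compl.mem_nhds o1, hs.oU.mem_nhds o2,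
            hs'.oD.mem_nhds o3] with w w1 w2 w3
          exact ⟨⟨mem_slab_of_not_mem w1, Or.inl w2⟩, Or.inl w3⟩
        · exact ⟨lv (c + 1) y, ⟨⟨lv_mem_slab hu' hx.1.1, by change c ≤ c + 1; linarith, le_rfl⟩,
            Or.inr (Or.inr rfl)⟩, by simp only [a2 (lv (c + 1) y) rfl, pr_lv]⟩
      · exact ⟨lv c y, ⟨⟨lv_mem_slab hu hx.1.1, le_rfl, by change c ≤ c + 1; linarith⟩,
          Or.inr (Or.inl rfl)⟩, by simp only [a1 (lv c y) rfl, pr_lv]⟩)
    (fun hsub => by
      have m0 : lv (c + 1 / 2) 0 ∉ out {0, 1} := by rw [mem_out_iff, pr_lv]; simp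
      have m1 : lv (c + 1 / 2) 0 ∈ Up u := mem_up_of_le hu (by change _ ≤ c + 1 / 2; linarith)
      have m2 : lv (c + 1 / 2) 0 ∈ Dn u' := mem_dn_of_le hu' (by change c + 1 / 2 ≤ _; linarith)
      obtain ⟨x, hx, ex⟩ := hsub ⟨_, ⟨⟨mem_slab_of_not_mem m0, Or.inl m1⟩, Or.inl m2⟩, rfl⟩
      have ex' := hh.injective ex
      rcases hx.2 with h | h | h
      · rw [a3 x h] at ex'; exact m0 (ex' ▸ h)
      · exact not_mem_range_of_up m1 ⟨_, (a1 x h).symm.trans ex'⟩
      · exact not_mem_range_of_dn m2 ⟨_, (a2 x h).symm.trans ex'⟩)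
  refine ⟨e.f, lpl_of_plOn e.pf, fun x hx h => ?_, fun x hx h => ?_, fun x hx h => ?_,
    fun x hx y hy => ?_, e.image_eq⟩
  · rw [he ⟨hx, Or.inr (Or.inl h)⟩]; simp only [a1 x h]
  · rw [he ⟨hx, Or.inr (Or.inr h)⟩]; simp only [a2 x h]
  · rw [he ⟨hx, Or.inl h⟩]; simp only [a3 x h]
  · rw [e.injOn.eq_iff hx hy, ← hH.fib, hh.injective.eq_iff]

end Crest.Agent.X212.Lad50
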