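import Crest.Agent.X212.Lad50.Rung
import Crest.Agent.X212.Lev33.St
import Crest.Agent.R105.Iod1_690

/-!
# Row 212, layer T: a two-handle changes sides (`Lev33.CompStmt`)
-/

open Set Filter Topology Metric

namespace Crest.Agent.X212.Lad50

open Crest.Agent.R096.Ce_537 Prd34 Lev33
open Crest.Agent.R096.Cx_609 (equivOfInjOn finConv_closedBall)

/-- an injective PL germ which reads `A`, `B` as the two half spaces is a flat chart -/
lemma fl_of_germ {A B N : Set V} {Φ : V → V} (hN : N ∈ 𝓝 (0 : V)) (hp : PLOn Φ N)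
    (hi : InjOn Φ N) (h : ∀ w ∈ N, (Φ w ∈ A ↔ 0 ≤ w 2) ∧ (Φ w ∈ B ↔ w 2 ≤ 0)) : Fl A B (Φ 0) := by
  obtain ⟨r, hr, hb⟩ := Metric.nhds_basis_closedBall.mem_iff.1 hN
  have hm : ∀ w ∈ cube 3, r • w ∈ N := fun w hw => hb (by
    rw [mem_closedBall_zero_iff, norm_smul, Real.norm_of_nonneg hr.le]
    exact mul_le_of_le_one_right hr.le (mem_closedBall_zero_iff.1 hw))
  have p1 : PLOn (fun w => Φ (r • w)) (cube 3) := hp.comp (pl_smul r (plOn_id _)) hm
  have p2 : InjOn (fun w => Φ (r • w)) (cube 3) := fun w hw w' hw' e =>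
    smul_right_injective V hr.ne' (hi (hm w hw) (hm w' hw') e)
  have h2 : ∀ w : V, (r • w) 2 = r * w 2 := fun _ => rfl
  refine ⟨_, equivOfInjOn (finConv_closedBall 3) isClosed_closedBall p1 p2, by simp, ?_, ?_, ?_⟩
  · refine mem_of_superset ((R105.Iod1_690.isOpen_image_fd rfl isOpen_ball
      (p1.1.mono ball_subset_closedBall) (p2.mono ball_subset_closedBall)).mem_nhds
      ⟨0, mem_ball_self one_pos, by simp⟩) (image_mono ball_subset_closedBall)
  · ext z; constructor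
    · rintro ⟨⟨w, hw, rfl⟩, hA⟩
      have := (h _ (hm w hw)).1.1 hA
      rw [h2] at this
      exact ⟨w, ⟨hw, nonneg_of_mul_nonneg_right this hr |> id⟩, rfl⟩
    · rintro ⟨w, hw, rfl⟩
      exact ⟨⟨w, hw.1, rfl⟩, (h _ (hm w hw.1)).1.2 (by rw [h2]; exact mul_nonneg hr.le hw.2)⟩
  · ext z; constructor
    · rintro ⟨⟨w, hw, rfl⟩, hA⟩
      have := (h _ (hm w hw)).2.1 hA
      rw [h2] at this
      exact ⟨w, ⟨hw, show w 2 ≤ 0 by nlinarith⟩, rfl⟩
    · rintro ⟨w, hw, rfl⟩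
      exact ⟨⟨w, hw.1, rfl⟩, (h _ (hm w hw.1)).2.2
        (by rw [h2]; exact mul_nonpos_of_nonneg_of_nonpos hr.le hw.2)⟩

/-- the same with a corner: `A` a quadrant, `B` the other three -/
lemma fl_of_corner {A B N : Set V} {Φ : V → V} {s : ℝ} (hs : s * s = 1) (hN : N ∈ 𝓝 (0 : V))
    (hp : PLOn Φ N) (hi : InjOn Φ N)
    (h : ∀ w ∈ N, (Φ w ∈ A ↔ 0 ≤ min (w 2) (s * w 1)) ∧ (Φ w ∈ B ↔ min (w 2) (s * w 1) ≤ 0)) :
    Fl A B (Φ 0) := by
  set κ : V → V := fun v => ![v 0, s * (v 2 + max (v 1) 0), v 2 + max (-v 1) 0] with hκ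
  have p1 : PLOn κ univ := pl_vec3 (pl_coord 0 _)
    (pl_mul _ (pl_add (pl_coord 2 _) (pl_max (pl_coord 1 _) (plOn_const _ _))))
    (pl_add (pl_coord 2 _) (pl_max (pl_neg (pl_coord 1 _)) (plOn_const _ _)))
  have k0 : κ 0 = 0 := by funext i; fin_cases i <;> simp [hκ]
  have k1 : ∀ v, s * κ v 1 = v 2 + max (v 1) 0 := fun v => by
    change s * (s * _) = _; rw [← mul_assoc, hs, one_mul]
  have k2 : ∀ v, κ v 2 = v 2 + max (-v 1) 0 := fun v => rfl
  have k3 : ∀ v, min (κ v 2) (s * κ v 1) = v 2 := fun v => by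
    rw [k1, k2]
    rcases le_total (v 1) 0 with h | h
    · rw [max_eq_right h, max_eq_left (by linarith), min_eq_right (by linarith), add_zero]
    · rw [max_eq_left h, max_eq_right (by linarith), min_eq_left (by linarith), add_zero]
  have k4 : ∀ v, s * κ v 1 - κ v 2 = v 1 := fun v => by
    rw [k1, k2]
    rcases le_total (v 1) 0 with h | h
    · rw [max_eq_right h, max_eq_left (by linarith)]; ring
    · rw [max_eq_left h, max_eq_right (by linarith)]; ring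
  have := fl_of_germ (A := A) (B := B) (N := κ ⁻¹' N) (Φ := fun v => Φ (κ v))
    ((continuousOn_univ.1 p1.1).continuousAt (by rwa [k0]))
    (hp.comp (p1.mono (subset_univ _)) fun _ h => h)
    (fun v hv v' hv' e => by
      have e' := hi hv hv' e
      funext i; fin_cases i
      · exact congrFun e' 0
      · exact (k4 v).symm.trans (by rw [e', k4]; rfl)
      · exact (k3 v).symm.trans (by rw [e', k3]; rfl))
    fun v hv => by rw [← k3 v]; exact h _ hv
  simpa only [k0] using this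

lemma chart_mem {C A D : Set V} (c : PLEquiv (cube 3) C) (h : C ∩ A = c.f '' (cube 3 ∩ D))
    {w : V} (hw : w ∈ cube 3) : c.f w ∈ A ↔ w ∈ D := by
  constructor
  · intro hA
    obtain ⟨v, hv, e⟩ := h.subset ⟨c.mf hw, hA⟩
    exact c.injOn hv.1 hw e ▸ hv.2
  · exact fun hD => (h.superset ⟨w, ⟨hw, hD⟩, rfl⟩).2

/-- `Fl` only depends on the germs -/
lemma fl_congr {A B A' B' : Set V} {x : V} (h : Fl A B x)
    (e : ∀ᶠ z in 𝓝 x, (z ∈ A' ↔ z ∈ A) ∧ (z ∈ B' ↔ z ∈ B)) : Fl A' B' x := by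
  obtain ⟨C, c, rfl, -, h1, h2⟩ := h
  have hc : cube 3 ∈ 𝓝 (0 : V) := closedBall_mem_nhds 0 one_pos
  refine fl_of_germ (inter_mem hc ((c.pf.1.continuousAt hc) e)) (c.pf.mono inter_subset_left)
    (c.injOn.mono inter_subset_left) fun w hw => ?_
  exact ⟨hw.2.1.trans (chart_mem c h1 hw.1), hw.2.2.trans (chart_mem c h2 hw.1)⟩

lemma pol_spec : Pol pol rho := by
  refine ⟨locPL_pol, isOpenMap_pol, pol_fib, rho_strictMono, continuous_rho,
    fun t => by linarith [(rho_mem t).1], norm_pol, pol_sur, fun y hy => ?_⟩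
  have h0 := abs_le.1 ((norm_le_pi_norm y 0).trans hy)
  rw [pol_top 0 (by push_cast; linarith [h0.1]) (by push_cast; linarith [h0.2]),
    rho_of_le ((norm_le_pi_norm y 1).trans hy)]
  simp

/-- flattening the wall of `B² × ℝ`, keeping the height -/
lemma wall_germ {p : V} (hp : ‖pr p‖ = 1) :
    ∃ φ : V → V, LocPL φ univ ∧ InjOn φ (ball 0 (1 / 2)) ∧ φ 0 = p ∧
      ∀ w, (‖pr (φ w)‖ ≤ 1 ↔ 0 ≤ w 2) ∧ (1 ≤ ‖pr (φ w)‖ ↔ w 2 ≤ 0) ∧ φ w 2 = p 2 + w 1 := by
  obtain ⟨s, hs⟩ := pol_sur 0 (pr p) (by rw [hp, rho_zero])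
  set q : V → P := fun w => pol ![s + w 0, -w 2] with hq
  have e1 : ∀ w, pr ![q w 0, q w 1, p 2 + w 1] = q w := fun w => by
    funext i; fin_cases i <;> rfl
  refine ⟨fun w => ![q w 0, q w 1, p 2 + w 1], ?_, fun w hw w' hw' e => ?_, ?_, fun w => ?_⟩
  · have h1 : LocPL q univ := locPL_comp locPL_pol (locPL_of_plOn (pl_vec2
      (pl_add (plOn_const _ _) (pl_coord 0 _)) (pl_neg (pl_coord 2 _))) _) (mapsTo_univ _ _)
    exact locPL_comp (f := fun w : V => (q w, p 2 + w 1))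
      (g := fun z : P × ℝ => (![z.1 0, z.1 1, z.2] : V))
      (locPL_of_plOn (pl_vec3 (pl_apply (pl_fst (plOn_id _)) 0) (pl_apply (pl_fst (plOn_id _)) 1)
        (pl_snd (plOn_id _))) univ)
      (locPL_prod h1 (locPL_of_plOn (pl_add (plOn_const _ _) (pl_coord 1 _)) _)) (mapsTo_univ _ _)
  · have e2 : q w = q w' := by rw [← e1, ← e1 w']; exact congrArg pr e
    obtain ⟨⟨m, hm⟩, e3⟩ := (pol_fib _ _).1 e2
    have e4 : p 2 + w 1 = p 2 + w' 1 := congrFun e 2
    change s + w 0 - (s + w' 0) = m at hm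
    change -w 2 = -w' 2 at e3
    have b1 := abs_lt.1 ((norm_le_pi_norm w 0).trans_lt (mem_ball_zero_iff.1 hw))
    have b2 := abs_lt.1 ((norm_le_pi_norm w' 0).trans_lt (mem_ball_zero_iff.1 hw'))
    have h5 : |m| < 1 := by
      have : |(m : ℝ)| < 1 := abs_lt.2 ⟨by linarith, by linarith⟩
      exact_mod_cast this
    rw [Int.abs_lt_one_iff.1 h5, Int.cast_zero] at hm
    funext i; fin_cases i
    · exact (by linarith : w 0 = w' 0)
    · exact (by linarith : w 1 = w' 1)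
    · exact (by linarith : w 2 = w' 2)
  · have : q 0 = pr p := by rw [← hs, hq]; simp
    simp only [this]
    funext i; fin_cases i <;> simp [pr]
  · have e : ‖q w‖ = rho (-w 2) := norm_pol _
    simp only [e1]
    rw [e, ← rho_zero, rho_strictMono.le_iff_le, rho_strictMono.le_iff_le]
    exact ⟨neg_nonpos, neg_nonneg, rfl⟩

lemma mem_side_iff {y : V} (hy : y ∈ cube 3) : y ∈ side ↔ 1 ≤ ‖pr y‖ := by
  have h := fun i => (norm_le_pi_norm y i).trans (mem_closedBall_zero_iff.1 hy)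
  rw [norm_pr, le_max_iff]
  exact ⟨fun h1 => h1.2.imp Eq.ge Eq.ge,
    fun h1 => ⟨hy, h1.imp (le_antisymm (h 0)) (le_antisymm (h 1))⟩⟩

lemma mem_cube_iff {y : V} : y ∈ cube 3 ↔ ‖pr y‖ ≤ 1 ∧ |y 2| ≤ 1 := by
  rw [mem_closedBall_zero_iff, pi_norm_le_iff_of_nonneg zero_le_one, norm_pr, max_le_iff]
  exact ⟨fun h => ⟨⟨h 0, h 1⟩, h 2⟩, fun h i => by fin_cases i; exacts [h.1.1, h.1.2, h.2]⟩

/-- extension of a half chart across the surface -/
lemma exists_corner_chart {A B R : Set V} (e : PLEquiv (cube 3) R) (hR : R ⊆ A)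
    (hs : R ∩ (A ∩ B) = e.f '' side) {y : V} (hy : y ∈ side) (hy2 : |y 2| < 1)
    (hf : Fl A B (e.f y)) :
    ∃ (Φ φ : V → V) (N : Set V), N ∈ 𝓝 (0 : V) ∧ PLOn Φ N ∧ InjOn Φ N ∧ Φ 0 = e.f y ∧
      ∀ w ∈ N, (Φ w ∈ A ↔ 0 ≤ w 2) ∧ (Φ w ∈ B ↔ w 2 ≤ 0) ∧ φ w 2 = y 2 + w 1 ∧
        (0 ≤ w 2 → φ w ∈ cube 3 ∧ Φ w = e.f (φ w)) := by
  classical
  obtain ⟨C, c, -, hC, c1, c2⟩ := hf
  obtain ⟨φ, f1, f2, f3, f4⟩ := wall_germ
    (le_antisymm (mem_cube_iff.1 hy.1).1 ((mem_side_iff hy.1).1 hy))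
  have hφ : ContinuousAt φ 0 := locPL_continuousAt f1 (mem_univ _)
  have n1 : ∀ᶠ w in 𝓝 (0 : V), φ w ∈ cube 3 → e.f (φ w) ∈ C := by
    have := eventually_nhdsWithin_iff.1 (e.pf.1 y hy.1 hC)
    rw [← f3] at this
    exact hφ this
  have n2 : ∀ᶠ w in 𝓝 (0 : V), |w 1| < 1 - |y 2| :=
    (by fun_prop : Continuous fun w : V => |w 1|).continuousAt (Iio_mem_nhds (by simpa using hy2))
  obtain ⟨r, hr, hb⟩ := Metric.nhds_basis_closedBall.mem_iff.1
    (inter_mem (inter_mem n1 n2) (ball_mem_nhds (0 : V) (show (0 : ℝ) < 1 / 2 by norm_num)))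
  set N := closedBall (0 : V) r with hN
  have g1 : ∀ w ∈ N, 0 ≤ w 2 → φ w ∈ cube 3 := fun w hw h =>
    mem_cube_iff.2 ⟨(f4 w).1.2 h, by
      rw [(f4 w).2.2]
      have : |w 1| < 1 - |y 2| := (hb hw).1.2
      exact (abs_add_le _ _).trans (by linarith)⟩
  have g2 : ∀ w ∈ N, 0 ≤ w 2 → e.f (φ w) ∈ C := fun w hw h => (hb hw).1.1 (g1 w hw h)
  have g3 : ∀ w ∈ N, 0 ≤ w 2 → (e.f (φ w) ∈ B ↔ w 2 ≤ 0) := fun w hw h => by
    rw [← (f4 w).2.1, ← mem_side_iff (g1 w hw h)]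
    constructor
    · intro hB
      obtain ⟨v, hv, ev⟩ := hs.subset ⟨e.mf (g1 w hw h), hR (e.mf (g1 w hw h)), hB⟩
      exact e.injOn hv.1 (g1 w hw h) ev ▸ hv
    · exact fun h => (hs.superset ⟨_, h, rfl⟩).2.2
  set π : V → V := fun w => lv 0 (pr w) with hπ
  have π1 : ∀ w ∈ N, π w ∈ N := fun w hw => by
    rw [hN, mem_closedBall_zero_iff] at hw ⊢
    refine (pi_norm_le_iff_of_nonneg hr.le).2 fun i => ?_
    fin_cases i
    exacts [(norm_le_pi_norm w 0).trans hw, (norm_le_pi_norm w 1).trans hw, by simpa [hπ, lv] using hr.le]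
  have π2 : ∀ w, π w 2 = 0 := fun _ => rfl
  set g : V → V := fun w => c.g (e.f (φ (π w))) with hg
  have g4 : ∀ w ∈ N, g w ∈ cube 3 := fun w hw => c.mg (g2 _ (π1 w hw) (π2 w).ge)
  have g5 : ∀ w ∈ N, c.f (g w) = e.f (φ (π w)) := fun w hw => c.ri _ (g2 _ (π1 w hw) (π2 w).ge)
  have g6 : ∀ w ∈ N, g w 2 = 0 := fun w hw => le_antisymm
    ((chart_mem c c2 (g4 w hw)).1 (by rw [g5 w hw]; exact (g3 _ (π1 w hw) (π2 w).ge).2 (π2 w).le))
    ((chart_mem c c1 (g4 w hw)).1 (by rw [g5 w hw]; exact hR (e.mf (g1 _ (π1 w hw) (π2 w).ge))))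
  set k : V → V := fun w => lv (w 2) (pr (g w)) with hk
  have k1 : ∀ w ∈ N, k w ∈ cube 3 := fun w hw => mem_cube_iff.2
    ⟨by rw [hk]; simp only [pr_lv]; exact (mem_cube_iff.1 (g4 w hw)).1,
      ((norm_le_pi_norm w 2).trans (mem_ball_zero_iff.1 (hb hw).2).le).trans (by norm_num)⟩
  have k2 : ∀ w, k w 2 = w 2 := fun _ => rfl
  have k3 : ∀ w ∈ N, w 2 = 0 → c.f (k w) = e.f (φ w) := fun w hw h => by
    have e1 : π w = w := by rw [hπ]; simp only; rw [← h, lv_pr]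
    have e2 : k w = g w := by rw [hk]; simp only; rw [h, ← g6 w hw, lv_pr]
    rw [e2, g5 w hw, e1]
  set Φ : V → V := fun w => if 0 ≤ w 2 then e.f (φ w) else c.f (k w) with hΦ
  have a1 : ∀ w, 0 ≤ w 2 → Φ w = e.f (φ w) := fun w h => if_pos h
  have a2 : ∀ w ∈ N, w 2 ≤ 0 → Φ w = c.f (k w) := fun w hw h => by
    by_cases h' : 0 ≤ w 2
    · rw [a1 w h', k3 w hw (le_antisymm h h')]
    · exact if_neg h'
  have mA : ∀ w ∈ N, Φ w ∈ A ↔ 0 ≤ w 2 := fun w hw => by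
    rcases le_total 0 (w 2) with h | h
    · rw [a1 w h]; exact iff_of_true (hR (e.mf (g1 w hw h))) h
    · rw [a2 w hw h]; exact chart_mem c c1 (k1 w hw)
  have mB : ∀ w ∈ N, Φ w ∈ B ↔ w 2 ≤ 0 := fun w hw => by
    rcases le_total 0 (w 2) with h | h
    · rw [a1 w h]; exact g3 w hw h
    · rw [a2 w hw h]; exact chart_mem c c2 (k1 w hw)
  have hφp : PLOn φ N := plOn_of_locPL f1 (isCompact_closedBall _ _) (subset_univ _)
  have iu : ∀ w ∈ N, ∀ w' ∈ N, 0 ≤ w 2 → 0 ≤ w' 2 → e.f (φ w) = e.f (φ w') → w = w' :=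
    fun w hw w' hw' h h' ee => f2 (hb hw).2 (hb hw').2 (e.injOn (g1 w hw h) (g1 w' hw' h') ee)
  refine ⟨Φ, φ, N, closedBall_mem_nhds 0 hr, ?_, fun w hw w' hw' ee => ?_, by rw [a1 0 le_rfl, f3],
    fun w hw => ⟨mA w hw, mB w hw, (f4 w).2.2, fun h => ⟨g1 w hw h, a1 w h⟩⟩⟩
  · have p1 : PLOn (fun w => e.f (φ w)) (N ∩ up) :=
      e.pf.comp (hφp.mono inter_subset_left) fun w hw => g1 w hw.1 hw.2
    have p2 : PLOn π N := (plOn_lv 0 univ).comp (plOn_pr N) (mapsTo_univ _ _)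
    have p3 : PLOn g N := c.pg.comp (f := fun w => e.f (φ (π w)))
      (p1.comp p2 fun w hw => ⟨π1 w hw, (π2 w).ge⟩) fun w hw => g2 _ (π1 w hw) (π2 w).ge
    have p4 : PLOn k N := pl_vec3 (pl_apply p3 0) (pl_apply p3 1) (pl_coord 2 _)
    have p5 : PLOn (fun w => c.f (k w)) N := c.pf.comp p4 k1
    refine (PLOn.union (K := N ∩ up) (L := N ∩ dn) (p1.congr fun w hw => a1 w hw.2)
      ((p5.mono inter_subset_left).congr fun w hw => a2 w hw.1 hw.2)
      (isClosed_closedBall.inter (isClosed_le continuous_const (continuous_apply 2)))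
      (isClosed_closedBall.inter (isClosed_le (continuous_apply 2) continuous_const))).mono
      fun w hw => ?_
    rcases le_total 0 (w 2) with h | h
    exacts [Or.inl ⟨hw, h⟩, Or.inr ⟨hw, h⟩]
  · by_cases h : 0 ≤ w 2
    · have h' : 0 ≤ w' 2 := (mA w' hw').1 (ee ▸ (mA w hw).2 h)
      exact iu w hw w' hw' h h' (by rw [← a1 w h, ← a1 w' h', ee])
    · have h' : ¬ 0 ≤ w' 2 := fun h' => h ((mA w hw).1 (ee ▸ (mA w' hw').2 h'))
      rw [a2 w hw (not_le.1 h).le, a2 w' hw' (not_le.1 h').le] at ee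
      have e1 := c.injOn (k1 w hw) (k1 w' hw') ee
      have e2 : w 2 = w' 2 := congrFun e1 2
      have e3 : pr (g w) = pr (g w') := by
        have := congrArg pr e1; simpa only [hk, pr_lv] using this
      have e4 : g w = g w' := by rw [← lv_pr (g w), ← lv_pr (g w'), e3, g6 w hw, g6 w' hw']
      have e5 := iu _ (π1 w hw) _ (π1 w' hw') (π2 w).ge (π2 w').ge
        (by rw [← g5 w hw, ← g5 w' hw', e4])
      rw [← lv_pr w, ← lv_pr w', e2, lv_injective 0 e5]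

/-- **The two-handle changes sides.** -/
theorem compStmt : CompStmt := by
  intro U A B R e hS hR hs hn
  obtain ⟨ε, e0, e1, hε⟩ : ∃ ε : ℝ, 0 < ε ∧ ε < 1 ∧ ∀ y ∈ lo ε, R ∈ 𝓝[A] (e.f y) := by
    have h1 : ∀ y ∈ cube 3 ∩ fl, ∀ᶠ z in 𝓝 y, z ∈ cube 3 → R ∈ 𝓝[A] (e.f z) := fun y hy => by
      have h2 := eventually_eventually_nhdsWithin.2 (hn _ ⟨y, hy, rfl⟩)
      have h3 : Tendsto e.f (𝓝[cube 3] y) (𝓝[A] (e.f y)) := tendsto_nhdsWithin_iff.2
        ⟨e.pf.1 y hy.1, eventually_nhdsWithin_of_forall fun z hz => hR (e.mf hz)⟩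
      exact eventually_nhdsWithin_iff.1 (h3 h2)
    set O := interior {z : V | z ∈ cube 3 → R ∈ 𝓝[A] (e.f z)} with hO
    have h4 : IsCompact (cube 3 \ O) := (isCompact_closedBall _ _).diff isOpen_interior
    obtain ⟨δ, hδ, h5⟩ := h4.exists_forall_le' (f := fun z : V => |z 2|) (a := 0) (by fun_prop)
      fun z hz => abs_pos.2 fun h => hz.2 (mem_interior_iff_mem_nhds.2 (h1 z ⟨hz.1, h⟩))
    refine ⟨min δ (1 / 2), lt_min hδ (by norm_num), (min_le_right _ _).trans_lt (by norm_num),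
      fun y hy => ?_⟩
    have h6 : y ∈ O := by
      by_contra hc
      exact absurd (h5 y ⟨hy.1, hc⟩) (not_le.2 (hy.2.trans_le (min_le_left _ _)))
    exact interior_subset h6 hy.1
  have hAU : A ⊆ U := hS.union ▸ subset_union_left
  have hlc : IsClosed (e.f '' lc ε) :=
    (((isCompact_closedBall (0 : V) 1).inter_right (isClosed_le (f := fun y : V => |y 2|)
      (by fun_prop) continuous_const)).image_of_continuousOn
      (e.pf.1.mono inter_subset_left)).isClosed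
  have m1 : ∀ y ∈ cube 3, e.f y ∈ e.f '' lo ε ↔ |y 2| < ε := fun y hy =>
    ⟨fun ⟨v, hv, ev⟩ => e.injOn hv.1 hy ev ▸ hv.2, fun h => ⟨y, ⟨hy, h⟩, rfl⟩⟩
  have m2 : ∀ y ∈ cube 3, e.f y ∈ e.f '' lc ε ↔ |y 2| ≤ ε := fun y hy =>
    ⟨fun ⟨v, hv, ev⟩ => e.injOn hv.1 hy ev ▸ hv.2, fun h => ⟨y, ⟨hy, h⟩, rfl⟩⟩
  have hlo : e.f '' lo ε ⊆ e.f '' lc ε := image_mono fun y hy => ⟨hy.1, hy.2.le⟩
  have hcA : e.f '' lc ε ⊆ A := by rintro _ ⟨y, hy, rfl⟩; exact hR (e.mf hy.1)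
  refine ⟨ε, e0, e1, hS.isOpen, ?_, ?_, ?_, fun x hx => ?_⟩
  · rw [← hS.union]
    ext x; constructor
    · rintro (h | h | h)
      exacts [Or.inl h.1, Or.inr h, Or.inl (hcA h)]
    · rintro (h | h)
      · by_cases h' : x ∈ e.f '' lo ε
        exacts [Or.inr (Or.inr (hlo h')), Or.inl ⟨h, h'⟩]
      · exact Or.inr (Or.inl h)
  · rw [isOpen_iff_mem_nhds]
    intro x hx
    by_cases hA : x ∈ A
    · obtain ⟨y, hy, rfl⟩ : x ∈ e.f '' lo ε := by
        by_contra hc; exact hx.2 ⟨hA, hc⟩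
      have h1 : ∀ᶠ z in 𝓝[R] (e.f y), |e.g z 2| < ε := by
        have h2 : ContinuousWithinAt (fun z => |e.g z 2|) R (e.f y) :=
          (((continuous_apply 2).comp_continuousOn e.pg.1).abs) _ (e.mf hy.1)
        exact h2 (Iio_mem_nhds (by simpa only [e.li y hy.1] using hy.2))
      filter_upwards [eventually_nhdsWithin_iff.1 h1, eventually_nhdsWithin_iff.1 (hε y hy),
        hS.isOpen.mem_nhds hx.1] with z z1 z2 z3
      exact ⟨z3, fun h => h.2 ⟨e.g z, ⟨e.mg (z2 h.1), z1 (z2 h.1)⟩, e.ri z (z2 h.1)⟩⟩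
    · exact mem_of_superset (hS.clA.mem_nhds ⟨hx.1, hA⟩) fun z hz => ⟨hz.1, fun h => hz.2 h.1⟩
  · rw [← sdiff_sdiff]; exact hS.clB.sdiff hlc
  · by_cases hc : x ∈ e.f '' lc ε
    · obtain ⟨y, hy, rfl⟩ := hc
      have h1 : |y 2| = ε := le_antisymm hy.2 (not_lt.1 fun h => hx.1.2 ((m1 y hy.1).2 h))
      obtain ⟨s, hs1, hs2⟩ : ∃ s : ℝ, s * s = 1 ∧ y 2 = s * ε := by
        rcases (abs_eq e0.le).1 h1 with h | h
        exacts [⟨1, by ring, by rw [h]; ring⟩, ⟨-1, by ring, by rw [h]; ring⟩]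
      have hs3 : |s| = 1 := by
        have := abs_mul_abs_self s; nlinarith [abs_nonneg s]
      have h2 : ∀ t, |t| ≤ ε → |y 2 + t| = ε + s * t := fun t ht => by
        have h3 : y 2 + t = s * (ε + s * t) := by rw [hs2, mul_add, ← mul_assoc, hs1, one_mul]
        have h4 : |s * t| ≤ ε := by rw [abs_mul, hs3, one_mul]; exact ht
        rw [h3, abs_mul, hs3, one_mul, abs_of_nonneg (by linarith [(abs_le.1 h4).1])]
      by_cases hsd : y ∈ side
      · obtain ⟨Φ, φ, N, hN, p1, p2, p3, p4⟩ := exists_corner_chart e hR hs hsd (h1 ▸ e1)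
          (hS.flat _ (hs.superset ⟨y, hsd, rfl⟩).2)
        rw [← p3]
        refine fl_of_corner hs1 (inter_mem hN (closedBall_mem_nhds 0 e0))
          (p1.mono inter_subset_left) (p2.mono inter_subset_left) fun w hw => ?_
        obtain ⟨q1, q2, q3, q4⟩ := p4 w hw.1
        have q5 := h2 (w 1) ((norm_le_pi_norm w 1).trans (mem_closedBall_zero_iff.1 hw.2))
        rw [← q3] at q5
        rw [le_min_iff, min_le_iff, Set.mem_sdiff, mem_union, q1, q2]
        by_cases h : 0 ≤ w 2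
        · obtain ⟨q6, q7⟩ := q4 h
          rw [q7, m1 _ q6, m2 _ q6, q5]
          exact ⟨and_congr Iff.rfl ⟨fun h => by linarith [not_lt.1 h], fun h => by linarith⟩,
            or_congr Iff.rfl ⟨fun h => by linarith, fun h => by linarith⟩⟩
        · exact ⟨iff_of_false (fun h' => h h'.1) fun h' => h h'.1,
            iff_of_true (Or.inl (not_le.1 h).le) (Or.inl (not_le.1 h).le)⟩
      · set ψ : V → V := fun w => y + ![w 0, w 1, s * w 2] with hψ
        have p1 : PLOn ψ univ := pl_add (plOn_const _ _)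
          (pl_vec3 (pl_coord 0 _) (pl_coord 1 _) (pl_mul _ (pl_coord 2 _)))
        have p0 : ψ 0 = y := by
          rw [hψ]; simp only [add_eq_left]; funext i; fin_cases i <;> simp
        have h3 : ‖pr y‖ < 1 := not_le.1 fun h => hsd ((mem_side_iff hy.1).2 h)
        have n1 : ∀ᶠ w in 𝓝 (0 : V), ‖pr (ψ w)‖ < 1 ∧ |ψ w 2| < 1 := by
          have c1 := continuousOn_univ.1 p1.1
          have c2 : Continuous fun w => ‖pr (ψ w)‖ := (continuous_pr.comp c1).norm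
          have c3 : Continuous fun w => |ψ w 2| := ((continuous_apply 2).comp c1).abs
          exact (c2.continuousAt.eventually_lt continuousAt_const (by rw [p0]; exact h3)).and
            (c3.continuousAt.eventually_lt continuousAt_const (by rw [p0, h1]; exact e1))
        have hcu : ∀ w, ‖pr (ψ w)‖ < 1 ∧ |ψ w 2| < 1 → ψ w ∈ cube 3 := fun w h =>
          mem_cube_iff.2 ⟨h.1.le, h.2.le⟩
        rw [← p0]
        refine fl_of_germ (Φ := fun w => e.f (ψ w)) (inter_mem n1 (closedBall_mem_nhds 0 e0))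
          (e.pf.comp (p1.mono (subset_univ _)) fun w hw => hcu w hw.1)
          (fun w hw w' hw' ee => ?_) fun w hw => ?_
        · have e2 := add_left_cancel (e.injOn (hcu w hw.1) (hcu w' hw'.1) ee)
          have e3 : s * w 2 = s * w' 2 := congrFun e2 2
          funext i; fin_cases i
          · exact congrFun e2 0
          · exact congrFun e2 1
          · exact mul_left_cancel₀ (left_ne_zero_of_mul_eq_one hs1) e3
        · have q1 := hcu w hw.1
          have q2 : |ψ w 2| = ε + w 2 := by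
            have := h2 (s * w 2) (by
              rw [abs_mul, hs3, one_mul]
              exact (norm_le_pi_norm w 2).trans (mem_closedBall_zero_iff.1 hw.2))
            rw [← mul_assoc, hs1, one_mul] at this
            exact this
          have q3 : e.f (ψ w) ∉ B := fun hB => by
            obtain ⟨v, hv, ev⟩ := hs.subset ⟨e.mf q1, hR (e.mf q1), hB⟩
            rw [e.injOn hv.1 q1 ev] at hv
            exact absurd ((mem_side_iff q1).1 hv) (not_le.2 hw.1.1)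
          rw [Set.mem_sdiff, mem_union, m1 _ q1, m2 _ q1, q2]
          exact ⟨⟨fun h => by linarith [not_lt.1 h.2], fun h => ⟨hR (e.mf q1), by linarith⟩⟩,
            ⟨fun h => by linarith [h.resolve_left q3], fun h => Or.inr (by linarith)⟩⟩
    · refine fl_congr (hS.flat x ⟨hx.1.1, hx.2.resolve_right hc⟩) ?_
      filter_upwards [hlc.isOpen_compl.mem_nhds hc] with z hz
      exact ⟨⟨fun h => h.1, fun h => ⟨h, fun h' => hz (hlo h')⟩⟩,
        ⟨fun h => h.resolve_right hz, Or.inl⟩⟩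

end Crest.Agent.X212.Lad50
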