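import Crest.Agent.X212.Lad50.Bridge
import Crest.Agent.X212.Lad50.Pol
import Crest.Agent.X212.Prd34.Leaf

/-!
# Row 212, layer T: from ladders to PL handle straightening (`k = 0, 1, 2`), permutations
-/

open Set Filter Topology Metric

namespace Crest.Agent.X212.Lad50

open Crest.Agent.R096.Ce_537 Prd34

lemma isClosed_out (K : Finset (Fin 3)) : IsClosed (out K) := by
  have : out K = ⋃ i ∈ K, {x : V | 1 ≤ |x i|} := by ext; simp [out]
  rw [this]
  exact isClosed_biUnion_finset fun i _ => isClosed_le continuous_const (by fun_prop)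

lemma mem_out_of_not_mem {K : Finset (Fin 3)} {x : V} (h : x ∉ Prd34.slab K) : x ∈ out K := by
  simp only [Prd34.slab, mem_ofPred_eq, not_forall, not_le] at h
  obtain ⟨i, hi, h⟩ := h
  exact ⟨i, hi, h.le⟩

lemma mem_slab_of_not_mem {K : Finset (Fin 3)} {x : V} (h : x ∉ out K) : x ∈ Prd34.slab K :=
  fun i hi => by
    by_contra hc
    exact h ⟨i, hi, (not_le.1 hc).le⟩

lemma out_subset_rim (K : Finset (Fin 3)) : out K ⊆ rim K :=
  fun _ ⟨i, hi, h⟩ => ⟨i, hi, by linarith⟩

/-- two locally PL maps on two closed sets -/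
lemma locPL_of_closed {E F : Type*} [NormedAddCommGroup E] [NormedSpace ℝ E]
    [NormedAddCommGroup F] [NormedSpace ℝ F] {f : E → F} {A B : Set E} (hA : IsClosed A)
    (hB : IsClosed B) (hAB : ∀ x, x ∉ A → x ∈ B) (h1 : LPL f A) (h2 : LPL f B) : LocPL f univ := by
  have key : ∀ {C : Set E}, IsClosed C → LPL f C → ∀ x, ∃ r > 0, PLOn f (closedBall x r ∩ C) := by
    intro C hC h x
    by_cases hx : x ∈ C
    · obtain ⟨r, hr, h⟩ := h x hx
      exact ⟨r / 2, half_pos hr,
        h.mono (inter_subset_inter_left _ (closedBall_subset_ball (half_lt_self hr)))⟩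
    · obtain ⟨r, hr, h⟩ := Metric.isOpen_iff.1 hC.isOpen_compl x hx
      refine ⟨r / 2, half_pos hr, (plOn_empty f).mono fun y hy => ?_⟩
      exact h (closedBall_subset_ball (half_lt_self hr) hy.1) hy.2
  intro x _
  obtain ⟨r, hr, p1⟩ := key hA h1 x
  obtain ⟨s, hs, p2⟩ := key hB h2 x
  refine ⟨min r s, lt_min hr hs, (p1.union p2 (isClosed_closedBall.inter hA)
    (isClosed_closedBall.inter hB)).mono fun y hy => ?_⟩
  by_cases h : y ∈ A
  · exact Or.inl ⟨ball_subset_closedBall (ball_subset_ball (min_le_left _ _) hy), h⟩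
  · exact Or.inr ⟨ball_subset_closedBall (ball_subset_ball (min_le_right _ _) hy), hAB y h⟩

lemma lpl_of_locPL {E F : Type*} [NormedAddCommGroup E] [NormedSpace ℝ E]
    [NormedAddCommGroup F] [NormedSpace ℝ F] {f g : E → F} {A B : Set E} (h : LocPL f B)
    (hs : A ⊆ B) (e : EqOn g f A) : LPL g A := fun x hx => by
  obtain ⟨r, hr, h⟩ := h x (hs hx)
  exact ⟨r, hr, (h.mono inter_subset_left).congr fun y hy => e hy.2⟩

lemma lpl_congr {E F : Type*} [NormedAddCommGroup E] [NormedSpace ℝ E]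
    [NormedAddCommGroup F] [NormedSpace ℝ F] {f g : E → F} {A : Set E} (h : LPL f A)
    (e : EqOn g f A) : LPL g A := fun x hx => by
  obtain ⟨r, hr, h⟩ := h x hx
  exact ⟨r, hr, h.congr fun y hy => e hy.2⟩

lemma lpl_of_plOn {E F : Type*} [NormedAddCommGroup E] [NormedSpace ℝ E]
    [NormedAddCommGroup F] [NormedSpace ℝ F] {f : E → F} {A : Set E} (h : PLOn f A) : LPL f A :=
  fun _ _ => ⟨1, one_pos, h.mono inter_subset_right⟩

lemma lpl_continuousOn {E F : Type*} [NormedAddCommGroup E] [NormedSpace ℝ E]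
    [NormedAddCommGroup F] [NormedSpace ℝ F] {f : E → F} {A : Set E} (h : LPL f A) :
    ContinuousOn f A := fun x hx => by
  obtain ⟨r, hr, h⟩ := h x hx
  exact (h.1 x ⟨mem_ball_self hr, hx⟩).mono_of_mem_nhdsWithin
    (inter_mem (mem_nhdsWithin_of_mem_nhds (ball_mem_nhds x hr)) self_mem_nhdsWithin)

lemma per_of_emb {h : V → V} (hh : IsOpenEmbedding h) : Per ∅ h where
  cont := hh.continuous
  opn := hh.isOpenMap
  fib := fun x y => by
    rw [hh.injective.eq_iff, ← sub_eq_zero]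
    exact ⟨fun e i => ⟨fun hi => absurd hi (Finset.notMem_empty i), fun _ => by rw [e]; rfl⟩,
      fun e => funext fun i => (e i).2 (Finset.notMem_empty i)⟩

lemma emb_of_per {h : V → V} (hh : Per ∅ h) : IsOpenEmbedding h :=
  .of_continuous_injective_isOpenMap hh.cont (fun x y e => sub_eq_zero.1
    (funext fun i => ((hh.fib x y).1 e i).2 (Finset.notMem_empty i))) hh.opn

lemma ladder_of_lad {K J : Finset (Fin 3)} {G H : V → V} (hKJ : Disjoint K J) (hH : Per J H)
    (L : Lad K J H G) : Ladder K J 1 2 1 G H where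
  contH := hH.cont.continuousOn
  contG := lpl_continuousOn L.pl
  fibH := fun x _ y _ => (hH.fib x y).trans mem_lat_iff
  fibG := fun x hx y hy => (L.fib x hx y hy).trans mem_lat_iff
  openH := openH_of_isOpenMap hKJ hH.opn fun x y h => (hH.fib x y).1 h
  img := L.img
  vert := L.vert
  bdry := L.sid

/-- handles of index `k ≥ 1`: a ladder whose core lies where `H = h` straightens `h` -/
theorem final_pos {K J : Finset (Fin 3)} {G H h : V → V} (hKJ : Disjoint K J) (hK : K.Nonempty)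
    (hH : Per J H) (hp : LocPL H (rim K)) (L : Lad K J H G)
    (hcore : ∀ x ∈ Prd34.core K, ∃ y ∈ Prd34.slab K, (∀ j ∈ J, |y j| < 1 / 2) ∧ G x = H y ∧
      h =ᶠ[𝓝 y] H) :
    ∃ ψ : V ≃ₜ V, (∃ R, ∀ x, R ≤ ‖x‖ → ψ x = x) ∧ (∀ x ∈ out K, ψ x = x) ∧
      LocPL (fun x => h (ψ x)) (Prd34.core K) := by
  classical
  obtain ⟨ψ, h1, h2, h3, h4⟩ := lad one_pos hKJ hK le_rfl (ladder_of_lad hKJ hH L)
    (fun x hx => by obtain ⟨y, a, b, c, -⟩ := hcore x hx; exact ⟨y, a, b, c⟩) 2
  have hG : LocPL ((Prd34.slab K).piecewise G H) univ :=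
    locPL_of_closed (isClosed_slab K) (isClosed_out K) (fun x hx => mem_out_of_not_mem hx)
      (lpl_congr L.pl fun x hx => piecewise_eq_of_mem _ _ _ hx)
      (lpl_of_locPL hp (out_subset_rim K) fun x hx => by
        by_cases h : x ∈ Prd34.slab K
        · rw [piecewise_eq_of_mem _ _ _ h, L.sid x h hx]
        · rw [piecewise_eq_of_notMem _ _ _ h])
  refine ⟨ψ, h2, h3, locPL_finish (R := 2) (H := H) ψ.continuous (locPL_mono hG (subset_univ _))
    (fun x hx => ?_) (fun x hx => ?_) fun x hx => ?_⟩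
  · refine lt_of_le_of_lt ((pi_norm_le_iff_of_nonneg zero_le_one).2 fun i => ?_) one_lt_two
    by_cases hi : i ∈ K
    · exact hx.1 i hi
    · simp [hx.2 i hi]
  · by_cases h : x ∈ Prd34.slab K
    · rw [piecewise_eq_of_mem _ _ _ h]; exact (h1 x h hx).2
    · rw [piecewise_eq_of_notMem _ _ _ h, h3 x (mem_out_of_not_mem h)]
  · obtain ⟨y, a, b, c, d⟩ := hcore x hx
    rw [h4 x hx y a b c]; exact d

/-- handles of index `0` -/
theorem final_zero {J : Finset (Fin 3)} {G H h : V → V} (hH : Per J H) (L : Lad ∅ J H G)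
    (hh : h =ᶠ[𝓝 0] H) :
    ∃ ψ : V ≃ₜ V, (∃ R, ∀ x, R ≤ ‖x‖ → ψ x = x) ∧ (∀ x ∈ out ∅, ψ x = x) ∧
      LocPL (fun x => h (ψ x)) (Prd34.core ∅) := by
  obtain ⟨A, x₀, ψ, h1, h2, h3⟩ :=
    lad_zero one_pos (ladder_of_lad (Finset.disjoint_empty_left J) hH L) 1
  have hs : Prd34.slab ∅ = univ := eq_univ_of_forall fun x i hi => absurd hi (Finset.notMem_empty i)
  have hG : LocPL G univ := fun x _ => by
    obtain ⟨r, hr, h⟩ := L.pl x (by rw [hs]; trivial)
    exact ⟨r, hr, by rwa [hs, inter_univ] at h⟩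
  have h0 : ∀ x ∈ Prd34.core ∅, x = 0 := fun x hx =>
    funext fun i => hx.2 i (Finset.notMem_empty i)
  refine ⟨ψ, h3, fun x ⟨i, hi, _⟩ => absurd hi (Finset.notMem_empty i),
    locPL_finish (R := 1) (H := H) (G := fun x => G (A x + x₀)) ψ.continuous
      (locPL_comp hG (locPL_of_plOn (pl_add (pl_clm (A : V →L[ℝ] V) _) (plOn_const _ _)) _)
        (mapsTo_univ _ _)) (fun x hx => by simp [h0 x hx]) h2 fun x hx => ?_⟩
  rw [h0 x hx, h1]; exact hh

/-! ### polar coordinates in two of the three variables -/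

variable {pl : P → P} {ρ : ℝ → ℝ}

/-- splitting off the first coordinate -/
def spl : V ≃ₜ ℝ × P where
  toFun x := (x 0, ![x 1, x 2])
  invFun p := ![p.1, p.2 0, p.2 1]
  left_inv x := by funext i; fin_cases i <;> rfl
  right_inv p := by
    ext i
    · rfl
    · fin_cases i <;> rfl
  continuous_toFun := by fun_prop
  continuous_invFun := by fun_prop

lemma locPL_qq (hp : Pol pl ρ) : LocPL (qq pl) univ := by
  have h1 : LocPL (fun x : V => pl ![x 1, x 2]) univ :=
    locPL_comp hp.pl (locPL_of_plOn (pl_vec2 (pl_coord 1 _) (pl_coord 2 _)) _) (mapsTo_univ _ _)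
  have h2 : PLOn (fun p : ℝ × P => (![p.1, p.2 0, p.2 1] : V)) univ :=
    pl_vec3 (pl_fst (plOn_id _)) (pl_apply (pl_snd (plOn_id _)) 0) (pl_apply (pl_snd (plOn_id _)) 1)
  exact locPL_comp (f := fun x : V => (x 0, pl ![x 1, x 2])) (locPL_of_plOn h2 univ)
    (locPL_prod (locPL_of_plOn (pl_coord 0 _) _) h1) (mapsTo_univ _ _)

lemma per_qq (hp : Pol pl ρ) : Per {1} (qq pl) where
  cont := continuous_iff_continuousAt.2 fun x => locPL_continuousAt (locPL_qq hp) (mem_univ x)
  opn := (spl.symm.isOpenMap.comp (IsOpenMap.id.prodMap hp.opn)).comp spl.isOpenMap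
  fib := fun x y => by
    have h := hp.fib ![x 1, x 2] ![y 1, y 2]
    simp only [Matrix.cons_val_zero, Matrix.cons_val_one] at h
    constructor
    · intro e
      have e0 : x 0 = y 0 := congrFun e 0
      obtain ⟨e1, e2⟩ := h.1 (by
        funext i; fin_cases i
        · exact congrFun e 1
        · exact congrFun e 2)
      intro i
      fin_cases i
      · exact ⟨fun h => absurd h (by decide), fun _ => sub_eq_zero.2 e0⟩
      · exact ⟨fun _ => e1, fun h => absurd (Finset.mem_singleton_self _) h⟩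
      · exact ⟨fun h => absurd h (by decide), fun _ => sub_eq_zero.2 e2⟩
    · intro e
      have e0 : x 0 = y 0 := sub_eq_zero.1 ((e 0).2 (by decide))
      have e2 : x 2 = y 2 := sub_eq_zero.1 ((e 2).2 (by decide))
      rw [qq, qq, e0, h.2 ⟨(e 1).1 (by decide), e2⟩]

lemma qq_of_le (hp : Pol pl ρ) {x : V} (h1 : |x 1| ≤ 1 / 4) (h2 : |x 2| ≤ 1 / 4) :
    qq pl x = x + ![0, 0, 1] := by
  rw [qq, hp.aff _ (by rw [norm_vec2]; exact max_le h1 h2)]
  funext i; fin_cases i <;> simp [add_comm]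

lemma per_comp_qq (hp : Pol pl ρ) {h : V → V} (hh : Per ∅ h) : Per {1} fun x => h (qq pl x) where
  cont := hh.cont.comp (per_qq hp).cont
  opn := hh.opn.comp (per_qq hp).opn
  fib := fun x y => by rw [(emb_of_per hh).injective.eq_iff, (per_qq hp).fib]

lemma per_comp_qq' (hp : Pol pl ρ) {h : V → V} (hh : Per {0} h) :
    Per {0, 1} fun x => h (qq pl x) where
  cont := hh.cont.comp (per_qq hp).cont
  opn := hh.opn.comp (per_qq hp).opn
  fib := fun x y => by
    have h := hp.fib ![x 1, x 2] ![y 1, y 2]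
    simp only [Matrix.cons_val_zero, Matrix.cons_val_one] at h
    rw [hh.fib]
    constructor
    · intro e
      obtain ⟨e1, e2⟩ := h.1 (by
        funext i; fin_cases i
        · exact sub_eq_zero.1 ((e 1).2 (by decide))
        · exact sub_eq_zero.1 ((e 2).2 (by decide)))
      intro i
      fin_cases i
      · exact ⟨fun _ => (e 0).1 (by decide), fun h => absurd (by decide) h⟩
      · exact ⟨fun _ => e1, fun h => absurd (by decide) h⟩
      · exact ⟨fun h => absurd h (by decide), fun _ => sub_eq_zero.2 e2⟩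
    · intro e
      have e2 : x 2 = y 2 := sub_eq_zero.1 ((e 2).2 (by decide))
      have e1 := h.2 ⟨(e 1).1 (by decide), e2⟩
      intro i
      fin_cases i
      · exact ⟨fun _ => (e 0).1 (by decide), fun h => absurd (by decide) h⟩
      · exact ⟨fun h => absurd h (by decide), fun _ => by simp [qq, e1]⟩
      · exact ⟨fun h => absurd h (by decide), fun _ => by simp [qq, e1]⟩

lemma box_mem_nhds {y : V} (h1 : |y 1| < 1 / 4) (h2 : |y 2| < 1 / 4) :
    ∀ᶠ z : V in 𝓝 y, |z 1| ≤ 1 / 4 ∧ |z 2| ≤ 1 / 4 := by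
  have c1 : Continuous fun z : V => |z 1| := by fun_prop
  have c2 : Continuous fun z : V => |z 2| := by fun_prop
  filter_upwards [c1.continuousAt (Iio_mem_nhds h1), c2.continuousAt (Iio_mem_nhds h2)]
    with z a b using ⟨le_of_lt a, le_of_lt b⟩

lemma rung_mem_slab {K J : Finset (Fin 3)} {H : V → V} {c δ : ℝ} {u : P → V}
    (hu : Rung K J H c δ u) {y : P} (hy : lv c y ∈ Prd34.slab K) : u y ∈ Prd34.slab K := by
  by_cases h : lv c y ∈ out K
  · rwa [hu.bd y h]
  · exact mem_slab_of_not_mem (hu.ins y h)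

/-- `k = 2` -/
theorem plhs_two (hR : Rung2Stmt) (hB : BlkStmt {0, 1} ∅) (hG : GlueStmt) : PLHS {0, 1} := by
  intro h hh hp
  have hH := per_of_emb hh
  choose u hu using fun n : ℤ => hR h hH hp n (1 / 3) (by norm_num)
  choose G hGn using fun n : ℤ => hB h hH hp n (u n) (u (n + 1)) (hu n)
    (by have := hu (n + 1); rwa [Int.cast_add, Int.cast_one] at this)
  obtain ⟨G', L, -⟩ := hG {0, 1} ∅ (by simp) (by simp) h hH u G hu hGn
  refine final_pos (by simp) (by simp) hH hp L fun x hx => ?_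
  obtain ⟨y, hy, e⟩ := L.img.subset ⟨x, hx.1, rfl⟩
  exact ⟨y, hy, fun j hj => absurd hj (Finset.notMem_empty j), e.symm, EventuallyEq.rfl⟩

/-- `k = 1` -/
theorem plhs_one (hR : Rung1Stmt) (hC : Core1Stmt) (hB : BlkStmt {0} {1}) (hG : GlueStmt) :
    PLHS {0} := by
  intro h hh hp
  obtain ⟨pl, ρ, hP⟩ := polStmt
  set h₁ : V → V := fun x => h (x - ![0, 0, 1]) with hh₁
  have hH₁ : Per ∅ h₁ := per_of_emb (hh.comp (Homeomorph.subRight _).isOpenEmbedding)
  have hp₁ : LocPL h₁ (rim {0}) := locPL_comp hp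
    (locPL_of_plOn (pl_sub (plOn_id _) (plOn_const _ _)) _) fun x ⟨i, hi, hx⟩ => ⟨i, hi, by
      rw [Finset.mem_singleton.1 hi] at hx ⊢; simpa using hx⟩
  have hH := per_comp_qq hP hH₁
  have hpH : LocPL (fun x => h₁ (qq pl x)) (rim {0}) := locPL_comp hp₁
    (locPL_mono (locPL_qq hP) (subset_univ _)) fun x ⟨i, hi, hx⟩ => ⟨i, hi, by
      rw [Finset.mem_singleton.1 hi] at hx ⊢; exact hx⟩
  obtain ⟨u₀, hu₀, hc⟩ := hC pl ρ hP h₁ hH₁ hp₁
  have hex : ∀ n : ℤ, ∃ u, Rung {0} {1} (fun x => h₁ (qq pl x)) n (1 / 3) u ∧ (n = 0 → u = u₀) := by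
    intro n
    by_cases hn : n = 0
    · exact ⟨u₀, by rw [hn, Int.cast_zero]; exact hu₀, fun _ => rfl⟩
    · obtain ⟨u, hu⟩ := hR pl ρ hP h₁ hH₁ hp₁ n (1 / 3) (by norm_num)
      exact ⟨u, hu, fun h => absurd h hn⟩
  choose u hu hu0 using hex
  choose G hGn using fun n : ℤ => hB _ hH hpH n (u n) (u (n + 1)) (hu n)
    (by have := hu (n + 1); rwa [Int.cast_add, Int.cast_one] at this)
  obtain ⟨G', L, hL⟩ := hG {0} {1} (by decide) (by decide) _ hH u G hu hGn
  refine final_pos (by decide) (by simp) hH hpH L fun x hx => ?_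
  have e1 : x 1 = 0 := hx.2 1 (by decide)
  have e2 : x 2 = 0 := hx.2 2 (by decide)
  have e3 : pr x = ![x 0, 0] := by rw [pr, e1]
  obtain ⟨c1, c2⟩ := hc (x 0) (hx.1 0 (by decide))
  refine ⟨u₀ ![x 0, 0], rung_mem_slab hu₀ fun i hi => ?_, fun j hj => ?_, ?_, ?_⟩
  · rw [Finset.mem_singleton.1 hi]; exact hx.1 0 (by decide)
  · rw [Finset.mem_singleton.1 hj]; linarith
  · rw [hL x hx.1 e2, hu0 0 rfl, e3]
  · filter_upwards [box_mem_nhds c1 c2] with z hz
    rw [qq_of_le hP hz.1 hz.2, hh₁]; simp only [add_sub_cancel_right]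

/-- a permutation of the coordinates -/
noncomputable def prm (σ : Equiv.Perm (Fin 3)) : V ≃L[ℝ] V :=
  (LinearEquiv.funCongrLeft ℝ ℝ σ).toContinuousLinearEquiv

lemma prm_apply (σ : Equiv.Perm (Fin 3)) (x : V) (i : Fin 3) : prm σ x i = x (σ i) := rfl

lemma prm_symm_apply (σ : Equiv.Perm (Fin 3)) (x : V) (i : Fin 3) :
    (prm σ).symm x i = x (σ.symm i) := rfl

/-- `k = 0` -/
theorem plhs_zero (hR : Rung0Stmt) (hB : BlkStmt ∅ {0, 1}) (hG : GlueStmt) : PLHS ∅ := by
  intro h hh _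
  obtain ⟨pl, ρ, hP⟩ := polStmt
  set s := prm (Equiv.swap 0 1) with hs
  set h₁ : V → V := fun x => h (s (qq pl (s (x - ![0, 0, 1]))) - ![0, 0, 1]) with hh₁
  have hq := per_qq hP
  have hH₁ : Per {0} h₁ := by
    refine ⟨hh.continuous.comp ((s.continuous.comp (hq.cont.comp (by fun_prop))).sub
      continuous_const), ?_, fun x y => ?_⟩
    · exact hh.isOpenMap.comp ((Homeomorph.subRight _).isOpenMap.comp (s.isOpenMap.comp
        (hq.opn.comp (s.isOpenMap.comp (Homeomorph.subRight _).isOpenMap))))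
    · rw [hh₁]
      simp only
      rw [hh.injective.eq_iff, sub_left_inj, s.injective.eq_iff, hq.fib, ← map_sub,
        sub_sub_sub_cancel_right]
      constructor
      · intro e i
        fin_cases i
        · exact ⟨fun _ => (e 1).1 (by decide), fun h => absurd (by decide) h⟩
        · exact ⟨fun h => absurd h (by decide), fun _ => (e 0).2 (by decide)⟩
        · exact ⟨fun h => absurd h (by decide), fun _ => (e 2).2 (by decide)⟩
      · intro e i
        fin_cases i
        · exact ⟨fun h => absurd h (by decide), fun _ => (e 1).2 (by decide)⟩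
        · exact ⟨fun _ => (e 0).1 (by decide), fun h => absurd (by decide) h⟩
        · exact ⟨fun h => absurd h (by decide), fun _ => (e 2).2 (by decide)⟩
  have hH := per_comp_qq' hP hH₁
  choose u hu using fun n : ℤ => hR pl ρ hP h₁ hH₁ n (1 / 3) (by norm_num)
  choose G hGn using fun n : ℤ => hB _ hH (fun x ⟨i, hi, _⟩ => absurd hi (Finset.notMem_empty i))
    n (u n) (u (n + 1)) (hu n) (by have := hu (n + 1); rwa [Int.cast_add, Int.cast_one] at this)
  obtain ⟨G', L, -⟩ := hG ∅ {0, 1} (by simp) (by simp) _ hH u G hu hGn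
  refine final_zero hH L ?_
  filter_upwards [closedBall_mem_nhds (0 : V) (show (0 : ℝ) < 1 / 4 by norm_num)] with z hz
  have hz' : ∀ i, |z i| ≤ 1 / 4 := fun i =>
    (norm_le_pi_norm z i).trans (mem_closedBall_zero_iff.1 hz)
  rw [qq_of_le hP (hz' 1) (hz' 2), hh₁]
  simp only [add_sub_cancel_right]
  rw [qq_of_le hP (x := s z) (hz' _) (hz' _)]
  congr 1
  have e1 : s ![0, 0, 1] = ![0, 0, 1] := by funext i; fin_cases i <;> rfl
  have e2 : s (s z) = z := by funext i; fin_cases i <;> rfl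
  rw [map_add, e1, e2, add_sub_cancel_right]

/-- permuting the coordinates -/
theorem plhs_perm (σ : Equiv.Perm (Fin 3)) {K : Finset (Fin 3)} (hK : PLHS K) :
    PLHS (K.map σ.toEmbedding) := by
  intro h hh hp
  have hn : ∀ x, ‖prm σ x‖ = ‖x‖ := fun x => le_antisymm
    ((pi_norm_le_iff_of_nonneg (norm_nonneg _)).2 fun i => norm_le_pi_norm x (σ i))
    ((pi_norm_le_iff_of_nonneg (norm_nonneg _)).2 fun i => by
      have := norm_le_pi_norm (prm σ x) (σ.symm i)
      rwa [prm_apply, Equiv.apply_symm_apply] at this)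
  obtain ⟨ψ, ⟨R, h1⟩, h2, h3⟩ := hK (fun x => h ((prm σ).symm x))
    (hh.comp (prm σ).symm.toHomeomorph.isOpenEmbedding)
    (locPL_comp hp (locPL_of_plOn (pl_clm ((prm σ).symm : V →L[ℝ] V) _) _) fun x ⟨i, hi, hx⟩ =>
      ⟨σ i, Finset.mem_map_of_mem _ hi, by
        change 1 / 2 < |(prm σ).symm x (σ i)|
        rwa [prm_symm_apply, Equiv.symm_apply_apply]⟩)
  refine ⟨((prm σ).toHomeomorph.trans ψ).trans (prm σ).symm.toHomeomorph, ⟨R, fun x hx => ?_⟩,
    fun x ⟨i, hi, hx⟩ => ?_, ?_⟩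
  · change (prm σ).symm (ψ (prm σ x)) = x
    rw [h1 _ (by rwa [hn]), ContinuousLinearEquiv.symm_apply_apply]
  · change (prm σ).symm (ψ (prm σ x)) = x
    obtain ⟨j, hj, rfl⟩ := Finset.mem_map.1 hi
    rw [h2 _ ⟨j, hj, hx⟩, ContinuousLinearEquiv.symm_apply_apply]
  · refine locPL_comp (g := fun x => h ((prm σ).symm (ψ x))) h3
      (locPL_of_plOn (pl_clm (prm σ : V →L[ℝ] V) _) _) fun x hx => ⟨fun i hi => ?_, fun i hi => ?_⟩
    · exact hx.1 (σ i) (Finset.mem_map_of_mem _ hi)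
    · exact hx.2 (σ i) fun h => hi (by simpa using h)

/-- all handles from the four standard ones -/
theorem plhs_all (h0 : PLHS ∅) (h1 : PLHS {0}) (h2 : PLHS {0, 1}) (h3 : PLHS Finset.univ)
    (K : Finset (Fin 3)) : PLHS K := by
  have : ∀ K : Finset (Fin 3), ∃ σ : Equiv.Perm (Fin 3), K = (∅ : Finset (Fin 3)).map σ.toEmbedding ∨
      K = ({0} : Finset (Fin 3)).map σ.toEmbedding ∨ K = ({0, 1} : Finset (Fin 3)).map σ.toEmbedding ∨
      K = Finset.univ.map σ.toEmbedding := by decide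
  obtain ⟨σ, rfl | rfl | rfl | rfl⟩ := this K
  exacts [plhs_perm σ h0, plhs_perm σ h1, plhs_perm σ h2, plhs_perm σ h3]

end Crest.Agent.X212.Lad50
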