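import Crest.Agent.X212.Lad50.Fin

/-!
# Row 212, layer T: blocks glue to a ladder (`Prd34.GlueStmt`, given that rungs separate)
-/

open Set Filter Topology Metric

namespace Crest.Agent.X212.Lad50

open Crest.Agent.R096.Ce_537 Prd34

/-- a rung separates -/
structure SepH (u : P → V) : Prop where
  oU : IsOpen (Up u)
  oD : IsOpen (Dn u)
  dis : Disjoint (Up u) (Dn u)
  cov : ∀ x, x ∈ Up u ∨ x ∈ Dn u ∨ x ∈ range u

/-- rungs separate -/
def SepStmt : Prop := ∀ (K J : Finset (Fin 3)) (H : V → V) (c δ : ℝ) (u : P → V),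
  K ∪ J = {0, 1} → Disjoint K J → Per J H → Rung K J H c δ u → SepH u

variable {K J : Finset (Fin 3)} {H : V → V} {c δ : ℝ} {u : P → V}

lemma not_mem_range_of_up {x : V} (h : x ∈ Up u) : x ∉ range u := by
  obtain ⟨z, -, h⟩ := h; exact h.source_mem

lemma not_mem_range_of_dn {x : V} (h : x ∈ Dn u) : x ∉ range u := by
  obtain ⟨z, -, h⟩ := h; exact h.source_mem

lemma mem_up_of_le (hu : Rung K J H c δ u) {x : V} (h : c + δ ≤ x 2) : x ∈ Up u := by
  have h1 : ∀ y, u y 2 < x 2 := fun y => by linarith [(abs_lt.1 (hu.ht y)).2]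
  exact ⟨x, h1, JoinedIn.refl fun ⟨y, e⟩ => (h1 y).ne (by rw [e])⟩

lemma mem_dn_of_le (hu : Rung K J H c δ u) {x : V} (h : x 2 ≤ c - δ) : x ∈ Dn u := by
  have h1 : ∀ y, x 2 < u y 2 := fun y => by linarith [(abs_lt.1 (hu.ht y)).1]
  exact ⟨x, h1, JoinedIn.refl fun ⟨y, e⟩ => (h1 y).ne (by rw [e])⟩

lemma lt_of_mem_up (hu : Rung K J H c δ u) (hs : SepH u) {x : V} (h : x ∈ Up u ∪ range u) :
    c - δ < x 2 := by
  rcases h with h | ⟨y, rfl⟩
  · by_contra hc
    exact disjoint_left.1 hs.dis h (mem_dn_of_le hu (not_lt.1 hc))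
  · linarith [(abs_lt.1 (hu.ht y)).1]

lemma lt_of_mem_dn (hu : Rung K J H c δ u) (hs : SepH u) {x : V} (h : x ∈ Dn u ∪ range u) :
    x 2 < c + δ := by
  rcases h with h | ⟨y, rfl⟩
  · by_contra hc
    exact disjoint_left.1 hs.dis (mem_up_of_le hu (not_lt.1 hc)) h
  · linarith [(abs_lt.1 (hu.ht y)).2]

lemma lv_pr (x : V) : lv (x 2) (pr x) = x := by funext i; fin_cases i <;> rfl

lemma pr_lv (c : ℝ) (y : P) : pr (lv c y) = y := by funext i; fin_cases i <;> rfl

lemma neg_mem_lat {l : V} (hl : l ∈ Prd34.lat J) : -l ∈ Prd34.lat J :=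
  mem_lat_iff.2 (neg_mem (mem_lat_iff.1 hl))

lemma add_mem_range (h2 : (2 : Fin 3) ∉ J) (hu : Rung K J H c δ u) {l x : V}
    (hl : l ∈ Prd34.lat J) (hx : x ∈ range u) : x + l ∈ range u := by
  obtain ⟨y, rfl⟩ := hx
  have e : lv 0 (pr l) = l := by rw [← (hl 2).2 h2, lv_pr]
  exact ⟨y + pr l, by rw [hu.eqv y _ (by rwa [e]), e]⟩

lemma joinedIn_add (h2 : (2 : Fin 3) ∉ J) (hu : Rung K J H c δ u) {l x z : V}
    (hl : l ∈ Prd34.lat J) (h : JoinedIn (range u)ᶜ x z) : JoinedIn (range u)ᶜ (x + l) (z + l) := by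
  refine (h.map (f := fun w => w + l) (by fun_prop)).mono ?_
  rintro _ ⟨w, hw, rfl⟩ h
  exact hw (by simpa using add_mem_range h2 hu (neg_mem_lat hl) h)

lemma add_mem_up (h2 : (2 : Fin 3) ∉ J) (hu : Rung K J H c δ u) {l x : V}
    (hl : l ∈ Prd34.lat J) (hx : x ∈ Up u ∪ range u) : x + l ∈ Up u ∪ range u := by
  rcases hx with ⟨z, h1, h⟩ | h
  · exact Or.inl ⟨z + l, fun y => by simpa [(hl 2).2 h2] using h1 y, joinedIn_add h2 hu hl h⟩
  · exact Or.inr (add_mem_range h2 hu hl h)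

lemma mem_range_of_both (hs : SepH u) {x : V} (h1 : x ∈ Up u ∪ range u)
    (h2 : x ∈ Dn u ∪ range u) : x ∈ range u := by
  rcases h1 with h1 | h1
  · rcases h2 with h2 | h2
    · exact absurd h2 (disjoint_left.1 hs.dis h1)
    · exact h2
  · exact h1

lemma lv_mem_slab (hu : Rung K J H c δ u) {y : P} (h : u y ∈ Prd34.slab K) :
    lv c y ∈ Prd34.slab K := by
  by_cases ho : lv c y ∈ out K
  · rwa [hu.bd y ho] at h
  · exact mem_slab_of_not_mem ho

lemma isClosed_lay (K : Finset (Fin 3)) (c : ℝ) : IsClosed (Lay K c) :=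
  (isClosed_slab K).inter ((isClosed_le continuous_const (continuous_apply 2)).inter
    (isClosed_le (continuous_apply 2) continuous_const))

/-- **Blocks glue.** -/
theorem glue_of (hS : SepStmt) : GlueStmt := by
  intro K J hKJ hd H hH u G hu hG
  have hs : ∀ n, SepH (u n) := fun n => hS K J H n _ _ hKJ hd hH (hu n)
  have h2J : (2 : Fin 3) ∉ J := fun h => by
    have : (2 : Fin 3) ∈ K ∪ J := Finset.mem_union_right _ h
    rw [hKJ] at this; exact absurd this (by decide)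
  have hKi : ∀ i, i ∉ J → i ∈ K ∨ i = 2 := fun i hi => by
    by_cases h : i = 2
    · exact Or.inr h
    · have : i ∈ K ∪ J := by rw [hKJ]; revert h; fin_cases i <;> simp
      exact Or.inl ((Finset.mem_union.1 this).resolve_right hi)
  have hlay : ∀ x ∈ Prd34.slab K, x ∈ Lay K ⌊x 2⌋ := fun x hx =>
    ⟨hx, Int.floor_le _, (Int.lt_floor_add_one _).le⟩
  have heq : ∀ n : ℤ, ∀ x ∈ Lay K n, G ⌊x 2⌋ x = G n x := fun n x hx => by
    rcases hx.2.2.lt_or_eq with h | h
    · rw [Int.floor_eq_iff.2 ⟨hx.2.1, h⟩]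
    · have e : ⌊x 2⌋ = n + 1 := by rw [h]; exact_mod_cast Int.floor_intCast (R := ℝ) (n + 1)
      have e' : x 2 = ((n + 1 : ℤ) : ℝ) := by rw [h]; push_cast; ring
      rw [e, (hG n).top x hx h, (hG (n + 1)).bot x ⟨hx.1, e'.ge, by linarith⟩ e']
  have himg : ∀ n : ℤ, ∀ x ∈ Lay K n, ∃ a ∈ Blk K (u n) (u (n + 1)), H a = G n x :=
    fun n x hx => (hG n).img.subset ⟨x, hx, rfl⟩
  have hfib : ∀ n m : ℤ, n < m → ∀ x ∈ Lay K n, ∀ y ∈ Lay K m, G n x = G m y →
      x - y ∈ Prd34.lat J := by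
    intro n m hnm x hx y hy e
    obtain ⟨a, ha, ea⟩ := himg n x hx
    obtain ⟨b, hb, eb⟩ := himg m y hy
    have h1 := (hH.fib a b).1 (by rw [ea, eb, e])
    have h2 := add_mem_up h2J (hu m) h1 hb.1.2
    rw [add_sub_cancel] at h2
    have h3 := lt_of_mem_up (hu m) (hs m) h2
    have h4 := lt_of_mem_dn (hu (n + 1)) (hs (n + 1)) ha.2
    have h5 : m = n + 1 := by
      have : (m : ℝ) < ((n + 2 : ℤ) : ℝ) := by push_cast at h4 ⊢; linarith
      have : m < n + 2 := by exact_mod_cast this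
      omega
    subst h5
    obtain ⟨p, rfl⟩ := mem_range_of_both (hs _) h2 ha.2
    have h6 := lv_mem_slab (hu (n + 1)) ha.1.1
    set w := lv ((n + 1 : ℤ) : ℝ) p with hw
    have w2 : w 2 = ((n + 1 : ℤ) : ℝ) := rfl
    have w2' : w 2 = n + 1 := by rw [w2]; push_cast; ring
    have w3 : w ∈ Lay K n := ⟨h6, by linarith, by linarith⟩
    have w4 : w ∈ Lay K ((n + 1 : ℤ) : ℝ) := ⟨h6, by linarith, by linarith⟩
    have f1 := ((hG n).fib x hx w w3).1 (by rw [(hG n).top w w3 w2', hw, pr_lv, ea])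
    have f2 := ((hG (n + 1)).fib y hy w w4).1 (by
      rw [(hG (n + 1)).bot w w4 w2, hw, pr_lv, ea, e])
    have := sub_mem (mem_lat_iff.1 f1) (mem_lat_iff.1 f2)
    rw [sub_sub_sub_cancel_right] at this
    exact mem_lat_iff.2 this
  refine ⟨fun x => G ⌊x 2⌋ x, ⟨fun x hx => ?_, fun x hx y hy => ⟨fun e => ?_, fun e => ?_⟩, ?_,
    fun x hx y hy e i hi => ?_, fun x hx ho => (hG _).sid x (hlay x hx) ho⟩, fun x hx h => ?_⟩
  · have key : ∀ n : ℤ, ∃ r > 0, PLOn (fun x : V => G ⌊x 2⌋ x) (closedBall x r ∩ Lay K n) := by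
      intro n
      by_cases h : x ∈ Lay K n
      · obtain ⟨r, hr, h⟩ := lpl_congr (hG n).pl (heq n) x h
        exact ⟨r / 2, half_pos hr,
          h.mono (inter_subset_inter_left _ (closedBall_subset_ball (half_lt_self hr)))⟩
      · obtain ⟨r, hr, h⟩ := Metric.isOpen_iff.1 (isClosed_lay K n).isOpen_compl x h
        exact ⟨r / 2, half_pos hr, (plOn_empty _).mono fun y hy =>
          h (closedBall_subset_ball (half_lt_self hr) hy.1) hy.2⟩
    obtain ⟨r, hr, p1⟩ := key (⌊x 2⌋ - 1)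
    obtain ⟨s, hs, p2⟩ := key ⌊x 2⌋
    have h1 := Int.floor_le (x 2)
    have h2 := Int.lt_floor_add_one (x 2)
    refine ⟨min (min r s) (min 1 (⌊x 2⌋ + 1 - x 2)), lt_min (lt_min hr hs) (lt_min one_pos
      (by linarith)), (p1.union p2 (isClosed_closedBall.inter (isClosed_lay _ _))
      (isClosed_closedBall.inter (isClosed_lay _ _))).mono fun y hy => ?_⟩
    have h3 := mem_ball_iff_norm.1 hy.1
    simp only [lt_min_iff] at h3
    have h4 := abs_le.1 (norm_le_pi_norm (y - x) 2)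
    rw [Pi.sub_apply] at h4
    rcases le_total (y 2) ⌊x 2⌋ with h | h
    · exact Or.inl ⟨mem_closedBall_iff_norm.2 h3.1.1.le, hy.2, by push_cast; linarith [h3.2.1],
        by push_cast; linarith⟩
    · exact Or.inr ⟨mem_closedBall_iff_norm.2 h3.1.2.le, hy.2, h, by linarith [h3.2.2]⟩
  · rcases lt_trichotomy ⌊x 2⌋ ⌊y 2⌋ with h | h | h
    · exact hfib _ _ h x (hlay x hx) y (hlay y hy) e
    · have hy' := hlay y hy
      simp only [← h] at e hy'
      exact ((hG _).fib x (hlay x hx) y hy').1 e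
    · simpa using neg_mem_lat (hfib _ _ h y (hlay y hy) x (hlay x hx) e.symm)
  · have h : x 2 = y 2 := sub_eq_zero.1 ((e 2).2 h2J)
    have hy' := hlay y hy
    simp only [← h] at hy' ⊢
    exact ((hG _).fib x (hlay x hx) y hy').2 e
  · apply Subset.antisymm
    · rintro _ ⟨x, hx, rfl⟩
      obtain ⟨a, ha, ea⟩ := himg _ x (hlay x hx)
      exact ⟨a, ha.1.1, ea⟩
    · rintro _ ⟨a, ha, rfl⟩
      obtain ⟨n, hn, hmax⟩ := Int.exists_greatest_of_bdd (P := fun n => a ∈ Up (u n) ∪ range (u n))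
        ⟨⌊a 2⌋ + 1, fun n hn => by
          have h1 := lt_of_mem_up (hu n) (hs n) hn
          have h2 := Int.lt_floor_add_one (a 2)
          have : (n : ℝ) < ((⌊a 2⌋ + 2 : ℤ) : ℝ) := by push_cast; linarith
          have : n < ⌊a 2⌋ + 2 := by exact_mod_cast this
          omega⟩
        ⟨⌊a 2⌋ - 1, Or.inl (mem_up_of_le (hu _) (by push_cast; linarith [Int.floor_le (a 2)]))⟩
      have h1 : a ∈ Dn (u (n + 1)) ∪ range (u (n + 1)) := by
        rcases (hs (n + 1)).cov a with h | h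
        · have := hmax _ (Or.inl h); omega
        · exact h
      obtain ⟨x, hx, e⟩ := (hG n).img.superset ⟨a, ⟨⟨ha, hn⟩, h1⟩, rfl⟩
      exact ⟨x, hx.1, (heq n x hx).trans e⟩
  · rcases hKi i hi with h | rfl
    · have h1 := hx i h
      have h2 := hy i h
      exact (abs_sub _ _).trans (by linarith)
    · obtain ⟨a, ha, ea⟩ := himg _ x (hlay x hx)
      have h1 : a 2 = y 2 := sub_eq_zero.1 (((hH.fib a y).1 (ea.trans e) 2).2 h2J)
      have h2 := lt_of_mem_up (hu _) (hs _) ha.1.2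
      have h3 := lt_of_mem_dn (hu _) (hs _) ha.2
      have h4 := Int.floor_le (x 2)
      have h5 := Int.lt_floor_add_one (x 2)
      push_cast at h3
      rw [abs_le]; constructor <;> linarith
  · have h0 : ⌊x 2⌋ = 0 := by rw [h]; simp
    have hl := hlay x hx
    simp only [h0] at hl ⊢
    exact (hG 0).bot x hl (by rw [h]; simp)

end Crest.Agent.X212.Lad50
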