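import Crest.Agent.X212.Lad50.Glue
import Crest.Agent.R096.Cx3_609

/-!
# Row 212, layer T: the disc rung (`Prd34.Rung2Stmt`) from Dehn's lemma
-/

open Set Filter Topology Metric

namespace Crest.Agent.X212.Lad50

open Crest.Agent.R096.Ce_537 Prd34
open Crest.Agent.R096.Cx_609 (equivOfInjOn exists_equiv_of_bijOn finConv_closedBall finConv_sphere)

lemma norm_pr (x : V) : ‖pr x‖ = max |x 0| |x 1| := norm_vec2 _ _

lemma mem_slab_iff {x : V} : x ∈ Prd34.slab {0, 1} ↔ ‖pr x‖ ≤ 1 := by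
  simp [Prd34.slab, norm_pr]

lemma mem_out_iff {x : V} : x ∈ out {0, 1} ↔ 1 ≤ ‖pr x‖ := by
  simp [out, norm_pr]

lemma plOn_pr (A : Set V) : PLOn pr A := pl_vec2 (pl_coord 0 _) (pl_coord 1 _)

lemma plOn_lv (c : ℝ) (A : Set P) : PLOn (lv c) A :=
  pl_vec3 (pl_coord 0 _) (pl_coord 1 _) (plOn_const _ _)

lemma continuous_pr : Continuous pr := continuousOn_univ.1 (plOn_pr _).1

lemma continuous_lv (c : ℝ) : Continuous (lv c) := continuousOn_univ.1 (plOn_lv c _).1

lemma lv_injective (c : ℝ) : Function.Injective (lv c) := fun y y' h => by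
  rw [← pr_lv c y, h, pr_lv]

/-- the affine part of the chart at the wall -/
noncomputable def aff3 (s t ε : ℝ) (hε : ε ≠ 0) : V ≃ₜ V where
  toFun w := ![t + ε * w 1, s + ε * w 0, -ε * w 2]
  invFun z := ![(z 1 - s) / ε, (z 0 - t) / ε, -z 2 / ε]
  left_inv w := by funext i; fin_cases i <;> simp <;> field_simp
  right_inv w := by funext i; fin_cases i <;> simp <;> field_simp <;> ring
  continuous_toFun := by fun_prop
  continuous_invFun := by fun_prop

/-- cyclic permutation of the coordinates -/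
def cyc : V ≃ₜ V where
  toFun z := ![z 1, z 2, z 0]
  invFun z := ![z 2, z 0, z 1]
  left_inv w := by funext i; fin_cases i <;> rfl
  right_inv w := by funext i; fin_cases i <;> rfl
  continuous_toFun := by fun_prop
  continuous_invFun := by fun_prop

lemma rho_zero : rho 0 = 1 := by rw [rho_of_le (by norm_num)]; ring

/-- a flat chart at a point of the wall of `B² × ℝ` -/
lemma exists_wall_chart {p : V} (hp : ‖pr p‖ = 1) {r : ℝ} (hr : 0 < r) :
    ∃ φ : V → V, PLOn φ (cube 3) ∧ InjOn φ (cube 3) ∧ φ 0 = p ∧ φ '' cube 3 ∈ 𝓝 p ∧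
      MapsTo φ (cube 3) (ball p r) ∧
      ∀ w, (‖pr (φ w)‖ ≤ 1 ↔ 0 ≤ w 2) ∧ (1 ≤ ‖pr (φ w)‖ ↔ w 2 ≤ 0) := by
  obtain ⟨s, hs⟩ := pol_sur 0 (pr p) (by rw [hp, rho_zero])
  have hP : Pol pol rho := by
    refine ⟨locPL_pol, isOpenMap_pol, pol_fib, rho_strictMono, continuous_rho,
      fun t => by linarith [(rho_mem t).1], norm_pol, pol_sur, fun y hy => ?_⟩
    have h0 := abs_le.1 ((norm_le_pi_norm y 0).trans hy)
    rw [pol_top 0 (by push_cast; linarith [h0.1]) (by push_cast; linarith [h0.2]),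
      rho_of_le ((norm_le_pi_norm y 1).trans hy)]
    simp
  have hq := per_qq hP
  have h0 : cyc (qq pol ![p 2, s, 0]) = p := by
    change ![pol ![s, 0] 0, pol ![s, 0] 1, p 2] = p
    rw [hs]; funext i; fin_cases i <;> rfl
  have hc : Continuous fun z => cyc (qq pol z) := cyc.continuous.comp hq.cont
  obtain ⟨η, hη, hb⟩ := Metric.mem_nhds_iff.1 (hc.continuousAt (x := ![p 2, s, 0])
    (by rw [h0]; exact ball_mem_nhds p hr))
  set ε := min (η / 2) (1 / 4) with hε
  have e0 : 0 < ε := lt_min (half_pos hη) (by norm_num)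
  have e1 : ε < η := (min_le_left _ _).trans_lt (half_lt_self hη)
  have e2 : ε ≤ 1 / 4 := min_le_right _ _
  set a := aff3 s (p 2) ε e0.ne' with ha
  have ha0 : a 0 = ![p 2, s, 0] := by funext i; fin_cases i <;> simp [ha, aff3]
  have hcube : ∀ w ∈ cube 3, ∀ i, |ε * w i| ≤ ε := fun w hw i => by
    rw [abs_mul, abs_of_pos e0]
    exact mul_le_of_le_one_right e0.le ((norm_le_pi_norm w i).trans (mem_closedBall_zero_iff.1 hw))
  refine ⟨fun w => cyc (qq pol (a w)), ?_, fun w hw w' hw' e => ?_, by simp only [ha0, h0], ?_,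
    fun w hw => hb ?_, fun w => ?_⟩
  · refine plOn_of_locPL (Ω := univ) ?_ (isCompact_closedBall _ _) (subset_univ _)
    refine locPL_comp (g := cyc) (locPL_of_plOn (pl_vec3 (pl_coord 1 _) (pl_coord 2 _)
      (pl_coord 0 _)) univ) (locPL_comp (f := a) (locPL_qq hP) (locPL_of_plOn (pl_vec3
      (pl_add (plOn_const _ _) (pl_mul _ (pl_coord 1 _)))
      (pl_add (plOn_const _ _) (pl_mul _ (pl_coord 0 _))) (pl_mul _ (pl_coord 2 _))) _)
      (mapsTo_univ _ _)) (mapsTo_univ _ _)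
  · have h1 := mem_lat_iff.1 ((hq.fib _ _).1 (cyc.injective e))
    refine a.injective (sub_eq_zero.1 (lat_eq_zero one_pos h1 fun j hj => ?_))
    rw [Finset.mem_singleton.1 hj]
    change |(s + ε * w 0) - (s + ε * w' 0)| < 1
    have h2 := abs_le.1 (hcube w hw 0)
    have h3 := abs_le.1 (hcube w' hw' 0)
    rw [abs_lt]; constructor <;> linarith
  · have ho : IsOpenMap fun w => cyc (qq pol (a w)) :=
      cyc.isOpenMap.comp (hq.opn.comp a.isOpenMap)
    have := ho.image_mem_nhds (closedBall_mem_nhds (0 : V) one_pos)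
    simpa only [ha0, h0] using this
  · rw [mem_ball_iff_norm]
    refine lt_of_le_of_lt ((pi_norm_le_iff_of_nonneg e0.le).2 fun i => ?_) e1
    fin_cases i
    · simpa [ha, aff3] using hcube w hw 1
    · simpa [ha, aff3] using hcube w hw 0
    · simpa [ha, aff3] using hcube w hw 2
  · have e : ‖pr (cyc (qq pol (a w)))‖ = rho (-ε * w 2) := by
      have : pr (cyc (qq pol (a w))) = pol ![s + ε * w 0, -ε * w 2] := by
        funext i; fin_cases i <;> rfl
      rw [this, norm_pol]; rfl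
    rw [e, ← rho_zero, rho_strictMono.le_iff_le, rho_strictMono.le_iff_le]
    constructor <;> constructor <;> intro h <;> nlinarith

/-- open pieces of `h (B² × ℝ)` are manifolds -/
lemma mf_slab {h : V → V} (hh : IsOpenEmbedding h) (hp : LocPL h (rim {0, 1})) {O : Set V}
    (hO : IsOpen O) :
    Mf (h '' (Prd34.slab {0, 1} ∩ O)) (h '' (Prd34.slab {0, 1} ∩ out {0, 1} ∩ O)) := by
  refine ⟨image_mono fun x hx => ⟨hx.1.1, hx.2⟩, ?_, ?_⟩
  · rw [← image_diff hh.injective]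
    refine hh.isOpenMap _ ?_
    have : (Prd34.slab {0, 1} ∩ O) \ (Prd34.slab {0, 1} ∩ out {0, 1} ∩ O) = (out {0, 1})ᶜ ∩ O := by
      ext x; constructor
      · exact fun hx => ⟨fun h => hx.2 ⟨⟨hx.1.1, h⟩, hx.1.2⟩, hx.1.2⟩
      · exact fun hx => ⟨⟨mem_slab_of_not_mem hx.1, hx.2⟩, fun h => hx.1 h.1.2⟩
    rw [this]
    exact (isClosed_out _).isOpen_compl.inter hO
  · rintro _ ⟨p, ⟨⟨h1, h2⟩, h3⟩, rfl⟩
    obtain ⟨r, hr, pr1⟩ := hp p (out_subset_rim _ h2)
    obtain ⟨r', hr', pr2⟩ := Metric.isOpen_iff.1 hO p h3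
    obtain ⟨φ, f1, f2, f3, f4, f5, f6⟩ := exists_wall_chart
      (le_antisymm (mem_slab_iff.1 h1) (mem_out_iff.1 h2)) (lt_min hr hr')
    have hO' : ∀ w ∈ cube 3, φ w ∈ O := fun w hw =>
      pr2 (ball_subset_ball (min_le_right _ _) (f5 hw))
    refine ⟨_, equivOfInjOn (finConv_closedBall 3) isClosed_closedBall (f := fun w => h (φ w))
      (pr1.comp f1 fun w hw => ball_subset_ball (min_le_left _ _) (f5 hw))
      (hh.injective.comp_injOn f2), congrArg h f3, ?_, ?_, ?_⟩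
    · rw [← image_image h φ]; exact hh.isOpenMap.image_mem_nhds f4
    · ext z; constructor
      · rintro ⟨⟨w, hw, rfl⟩, y, hy, e⟩
        rw [hh.injective e] at hy
        exact ⟨w, ⟨hw, (f6 w).1.1 (mem_slab_iff.1 hy.1)⟩, rfl⟩
      · rintro ⟨w, hw, rfl⟩
        exact ⟨⟨w, hw.1, rfl⟩, φ w, ⟨mem_slab_iff.2 ((f6 w).1.2 hw.2), hO' w hw.1⟩, rfl⟩
    · ext z; constructor
      · rintro ⟨⟨w, hw, rfl⟩, y, hy, e⟩
        rw [hh.injective e] at hy
        exact ⟨w, ⟨hw, le_antisymm ((f6 w).2.1 (mem_out_iff.1 hy.1.2))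
          ((f6 w).1.1 (mem_slab_iff.1 hy.1.1))⟩, rfl⟩
      · rintro ⟨w, hw, rfl⟩
        have h4 : w 2 = 0 := hw.2
        exact ⟨⟨w, hw.1, rfl⟩, φ w, ⟨⟨mem_slab_iff.2 ((f6 w).1.2 h4.ge),
          mem_out_iff.2 ((f6 w).2.2 h4.le)⟩, hO' w hw.1⟩, rfl⟩

/-- **The disc rung.** -/
theorem rung2_of (hD : DehnStmt) : Rung2Stmt := by
  classical
  intro h hH hp c δ hδ
  have hh := emb_of_per hH
  set O : Set V := {x | |x 2 - c| < δ} with hO
  have hOo : IsOpen O := isOpen_lt (by fun_prop) continuous_const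
  have hlO : ∀ y, lv c y ∈ O := fun y => by
    change |c - c| < δ; simpa using hδ
  have hrim : LocPL (fun y => h (lv c y)) {y | 1 ≤ ‖y‖} :=
    locPL_comp hp (locPL_of_plOn (plOn_lv c _) _) fun y hy =>
      out_subset_rim _ (mem_out_iff.2 (by rwa [pr_lv]))
  have hsph : ∀ y ∈ sph 2, ‖y‖ = 1 := fun y hy => by simpa using hy
  have hinj : Function.Injective fun y => h (lv c y) := hh.injective.comp (lv_injective c)
  set γ := equivOfInjOn (finConv_sphere 2) isClosed_sphere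
    (plOn_of_locPL hrim (isCompact_sphere 0 1) fun y hy => (hsph y hy).ge) hinj.injOn with hγ
  obtain ⟨D, d1, d2, d3⟩ := hD _ _ _ γ (fun y => h (lv c y)) (mf_slab hh hp hOo)
    (by
      rintro _ ⟨y, hy, rfl⟩
      exact ⟨_, ⟨⟨mem_slab_iff.2 (by rw [pr_lv, hsph y hy]),
        mem_out_iff.2 (by rw [pr_lv, hsph y hy])⟩, hlO y⟩, rfl⟩)
    (hh.continuous.comp (continuous_lv c)).continuousOn
    (fun y hy => ⟨_, ⟨mem_slab_iff.2 (by rw [pr_lv]; simpa using hy), hlO y⟩, rfl⟩)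
    (fun _ _ => rfl)
  obtain ⟨e, e1, -⟩ := (isBall_cube 2).extend d1 γ
  set F : P → V := (cube 2).piecewise e.f fun y => h (lv c y) with hF
  have F1 : ∀ y ∈ cube 2, F y = e.f y := fun y hy => piecewise_eq_of_mem _ _ _ hy
  have F2 : ∀ y, 1 ≤ ‖y‖ → F y = h (lv c y) := fun y hy => by
    by_cases hc : y ∈ cube 2
    · rw [F1 y hc]
      exact e1 (by simpa using le_antisymm (mem_closedBall_zero_iff.1 hc) hy)
    · exact piecewise_eq_of_notMem _ _ _ hc
  have hFp : LocPL F univ := locPL_of_closed isClosed_closedBall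
    (isClosed_le continuous_const continuous_norm)
    (fun y hy => (not_le.1 fun h => hy (mem_closedBall_zero_iff.2 h)).le)
    (lpl_congr (lpl_of_plOn e.pf) F1) (lpl_of_locPL hrim Subset.rfl F2)
  have hex : ∀ y, ∃ x, h x = F y ∧ x ∈ O ∧ (y ∈ cube 2 → x ∈ Prd34.slab {0, 1}) := fun y => by
    by_cases hc : y ∈ cube 2
    · obtain ⟨x, hx, ex⟩ := d2 (e.mf hc)
      exact ⟨x, by rw [F1 y hc, ex], hx.2, fun _ => hx.1⟩
    · exact ⟨lv c y, (F2 y (not_le.1 fun h => hc (mem_closedBall_zero_iff.2 h)).le).symm, hlO y,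
        fun h => absurd h hc⟩
  choose u hu1 hu2 hu3 using hex
  have hbd : ∀ y, 1 ≤ ‖y‖ → u y = lv c y := fun y hy => hh.injective (by rw [hu1, F2 y hy])
  have hins : ∀ y, ‖y‖ < 1 → u y ∉ out {0, 1} := fun y hy ho => by
    have hc : y ∈ cube 2 := mem_closedBall_zero_iff.2 hy.le
    have h1 : e.f y ∈ D ∩ h '' (Prd34.slab {0, 1} ∩ out {0, 1} ∩ O) :=
      ⟨e.mf hc, u y, ⟨⟨hu3 y hc, ho⟩, hu2 y⟩, by rw [hu1, F1 y hc]⟩
    rw [d3] at h1
    obtain ⟨z, hz, ez⟩ := h1
    have h2 : z = y := e.injOn (sph_subset_cube hz) hc ((e1 hz).trans ez)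
    rw [← h2, hsph z hz] at hy
    exact lt_irrefl _ hy
  refine ⟨u, ?_, fun y y' ey => ?_, fun y m hm => ?_, fun y hy => hbd y ?_, fun y hy => hins y ?_,
    hu2, ?_⟩
  · rw [hh.isInducing.continuous_iff]
    have : h ∘ u = F := funext hu1
    rw [this]
    exact continuous_iff_continuousAt.2 fun y => locPL_continuousAt hFp (mem_univ y)
  · have key : ∀ y y', u y = u y' → ‖y‖ < 1 → ‖y'‖ < 1 := fun y y' ey hy => by
      by_contra hc
      refine hins y hy ?_
      rw [ey, hbd y' (not_lt.1 hc), mem_out_iff, pr_lv]; exact not_lt.1 hc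
    by_cases hy : ‖y‖ < 1
    · have hc : y ∈ cube 2 := mem_closedBall_zero_iff.2 hy.le
      have hc' : y' ∈ cube 2 := mem_closedBall_zero_iff.2 (key y y' ey hy).le
      exact e.injOn hc hc' (by rw [← F1 y hc, ← F1 y' hc', ← hu1, ← hu1, ey])
    · have hy' : ¬ ‖y'‖ < 1 := fun h => hy (key y' y ey.symm h)
      rw [hbd y (not_lt.1 hy), hbd y' (not_lt.1 hy')] at ey
      exact lv_injective c ey
  · have h0 : lv 0 m = 0 := funext fun i => (hm i).2 (Finset.notMem_empty i)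
    have h1 : m = 0 := by
      rw [← pr_lv 0 m, h0]; funext i; fin_cases i <;> rfl
    rw [h0, h1, add_zero, add_zero]
  · rw [mem_out_iff, pr_lv] at hy; exact hy
  · rw [mem_out_iff, pr_lv] at hy; exact not_le.1 hy
  · simpa only [hu1] using hFp

end Crest.Agent.X212.Lad50
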