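import Mathlib
import Crest.Agent.X212.Prf6.Tr
import Crest.Agent.X212.Lev33.Hol

/-!
# Row 212, PERF-SIMP (helper50): non-separating simple loops generate
-/

set_option autoImplicit false
set_option linter.unusedSectionVars false
noncomputable section
open Set Filter Topology Function Complex
open scoped ContDiff Manifold

namespace Crest.Agent.X212.Lad50.Si
open Prf6 Lev33

section
variable {M : Type*} [TopologicalSpace M] [T2Space M] [ChartedSpace ℂ M] [IsManifold IC ∞ M]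
  {o : Or M} {Γ : Type*} [Group Γ] {c : M → M → Γ}

/-- the two sides of an annulus core -/
theorem ns_of_join (hM : IsPreconnected (univ : Set M)) {A : ℂ → M} (hA : An o A) {W : Set M}
    (hW : IsPreconnected W) (hd : W ⊆ (core A)ᶜ) {z w : ℂ} (hz : 0 < z.im) (hw : w.im < 0)
    (hzW : A z ∈ W) (hwW : A w ∈ W) : NS A := by
  have hc := (cont_of_pm hA.1).continuousOn (s := univ)
  have h1 : IsPreconnected (A '' {z | 0 < z.im}) :=
    (convex_halfSpace_im_gt 0).isPreconnected.image A (hc.mono (subset_univ _))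
  have h2 : IsPreconnected (A '' {z | z.im < 0}) :=
    (convex_halfSpace_im_lt 0).isPreconnected.image A (hc.mono (subset_univ _))
  have h3 : IsPreconnected ((A '' {z | 0 < z.im} ∪ W) ∪ A '' {z | z.im < 0}) :=
    (IsPreconnected.union (A z) (mem_image_of_mem A hz) hzW h1 hW).union (A w) (.inr hwW)
      (mem_image_of_mem A hw) h2
  set P := (A '' {z | 0 < z.im} ∪ W) ∪ A '' {z | z.im < 0} with hP
  have h4 : P ⊆ (core A)ᶜ := by
    rintro _ ((⟨y, hy, rfl⟩ | hy) | ⟨y, hy, rfl⟩)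
    · exact fun h => (ne_of_gt hy) (hA.mem_core.1 h)
    · exact hd hy
    · exact fun h => (ne_of_lt hy) (hA.mem_core.1 h)
  have h5 : ∀ y, A y ∉ core A → A y ∈ P := fun y hy => by
    rcases lt_trichotomy y.im 0 with h | h | h
    · exact .inr ⟨y, h, rfl⟩
    · exact (hy (hA.mem_core.2 h)).elim
    · exact .inl (.inl ⟨y, h, rfl⟩)
  have ho : IsOpen (core A)ᶜ := hA.isCompact_core.isClosed.isOpen_compl
  have key : ∀ u v : Set M, IsOpen u → IsOpen v → (core A)ᶜ ⊆ u ∪ v → (core A)ᶜ ∩ (u ∩ v) = ∅ →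
      P ⊆ u → (core A)ᶜ ⊆ u := by
    intro u v hu hv hs he hPu x hx
    by_contra hxu
    obtain ⟨y, -, hy1, hy2⟩ := hM ((u ∩ (core A)ᶜ) ∪ range A) (v ∩ (core A)ᶜ)
      ((hu.inter ho).union (isOpenMap_of_pm hA.1).isOpen_range) (hv.inter ho)
      (fun y _ => by
        by_cases hy : y ∈ core A
        · exact .inl (.inr (core_subset A hy))
        · exact (hs hy).imp (fun h => .inl ⟨h, hy⟩) fun h => ⟨h, hy⟩)
      ⟨A 0, trivial, .inr ⟨0, rfl⟩⟩ ⟨x, trivial, (hs hx).resolve_left hxu, hx⟩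
    have hyu : y ∈ u := by
      rcases hy1 with h | ⟨y', rfl⟩
      · exact h.1
      · exact hPu (h5 y' hy2.2)
    exact (eq_empty_iff_forall_notMem.1 he y) ⟨hy2.2, hyu, hy2.1⟩
  refine isPreconnected_iff_subset_of_disjoint.2 fun u v hu hv hs he => ?_
  refine (isPreconnected_iff_subset_of_disjoint.1 h3 u v hu hv (h4.trans hs)
    (eq_empty_of_subset_empty (he ▸ inter_subset_inter_left _ h4))).imp (key u v hu hv hs he)
    (key v u hv hu (by rwa [union_comm]) (by rwa [inter_comm v]))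

theorem prim_chart {B : ℂ → M} (hB : St o B) {β : ℂ → Γ}
    (hβ : Prim univ (fun z w => c (B z) (B w)) β) {b : M → Γ} (hb : ∀ z, b (B z) = β z) (z : ℂ) :
    ∀ᶠ y in 𝓝 (B z), b y = b (B z) * c (B z) y := by
  rw [← (hB.1 z).map_nhds, eventually_map]
  have := hβ z trivial
  rw [nhdsWithin_univ] at this
  filter_upwards [this] with w hw
  rw [hb, hb, hw]

theorem lpc_of_open {S : Set M} (hS : IsOpen S) : LPC S := by
  have : LocallyPathConnectedSpace M := ChartedSpace.locallyPathConnectedSpace ℂ M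
  intro x hx W hW
  have h1 : W ∩ S ∈ 𝓝 x := inter_mem hW (hS.mem_nhds hx)
  refine ⟨pathComponentIn (W ∩ S) x, mem_nhdsWithin_of_mem_nhds (pathComponentIn_mem_nhds h1),
    pathComponentIn_subset, fun y hy => ?_⟩
  have h2 := mem_of_mem_nhds h1
  exact (isPathConnected_pathComponentIn h2).joinedIn x (mem_pathComponentIn_self h2) y hy

/-- transport of primitives along an isotopy -/
theorem prim_iso {S T L : Set M} (hc : Coc S c) {b : M → Γ} (hb : Prim T c b)
    {φ : ℝ → Equiv.Perm M} (hφ : Iso o φ) (h1 : ∀ t, ∀ y ∈ L, φ t y ∈ S)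
    (h2 : ∀ y ∈ L, φ 1 y ∈ T) : ∃ b', Prim L c b' := by
  have h3 := hc.homotopy (T := L) (H := fun p => φ (1 - p.2) p.1)
    (hφ.cont.comp (f := fun p : M × ℝ => (1 - p.2, p.1)) (by fun_prop)).continuousOn
    (fun p hp => h1 _ _ hp.1) (b0 := fun y => b (φ 1 y)) (by
      simpa only [sub_zero] using hb.comp (G_cont (hφ.mem 1)).continuousOn h2)
  simpa only [sub_self, hφ.zero, Equiv.Perm.coe_one, id] using h3

theorem arc_conn [CompactSpace M] {Z : Set M} {B : ℂ → M} {η : M → ℝ} (h : Arc o Z B η)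
    {l : Filter ℝ} [l.NeBot] (hl : l ≤ cocompact ℝ) {S : Set ℝ} (hS : S ∈ l)
    (hS' : IsPreconnected S) : IsPreconnected (Z ∪ (fun t : ℝ => B t) '' S) ∧ Z.Nonempty := by
  obtain ⟨y, hy⟩ := exists_clusterPt_of_compactSpace (map (fun t : ℝ => B t) l)
  have h1 : y ∈ closure ((fun t : ℝ => B t) '' S) :=
    mem_closure_iff_clusterPt.2 (hy.mono (le_principal_iff.2 (image_mem_map hS)))
  have h2 : y ∈ Z := (h.zero y).1 (eq_of_nhds_neBot
    (hy.map h.cont.continuousAt (ly := 𝓝 0) (h.lim.mono_left hl)))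
  have h3 := (hS'.image (fun t : ℝ => B t) ((cont_of_pm h.st.1).comp
    continuous_ofReal).continuousOn).subset_closure (subset_insert y _)
      (insert_subset h1 subset_closure)
  have h4 := h.conn.union y h2 (mem_insert _ _) h3
  rw [union_insert, insert_eq_of_mem (.inl h2)] at h4
  exact ⟨h4, y, h2⟩

end

theorem step (hX : Arcx) (hT : Tub) (X : Sf) (hM : IsPreconnected (univ : Set X.R))
    {Γ : Type*} [Group Γ] {c : X.R → X.R → Γ} {Z : Set X.R} {B : ℂ → X.R} {η : X.R → ℝ}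
    (h : Arc X.o Z B η) (hc : Coc Zᶜ c)
    (hA : ∀ A, An X.o A → NS A → range A ⊆ Zᶜ → Triv c fun t : ℝ => A t)
    {b : X.R → Γ} (hb : Prim (Z ∪ core B)ᶜ c b) : ∃ b', Prim Zᶜ c b' := by
  classical
  have hB := h.st
  have hBc := cont_of_pm hB.1
  have e0 : Zᶜ \ core B = (Z ∪ core B)ᶜ := by rw [compl_union]; rfl
  have ho := h.cl'.isOpen_compl
  obtain ⟨γ, hγ, hγU, hγZ, k, hk, hγ0⟩ := hX X Zᶜ (core B) B h.cl.isOpen_compl (e0 ▸ ho)
    (e0 ▸ h.cc) (hB.1 0) (h.off 0) (Eventually.of_forall fun z => hB.mem_core)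
  have hkI : (k : ℂ) * I ≠ 0 := mul_ne_zero (ofReal_ne_zero.2 hk.ne') I_ne_zero
  obtain ⟨A, hAn, hAU, hAγ, hA0⟩ := hT X γ Zᶜ 1 (fun _ => 0) (fun _ z => B (0 + k * I * z)) hγ
    h.cl.isOpen_compl hγU (fun _ _ _ _ => Subsingleton.elim _ _)
    (fun _ => (hB.affine hkI 0).1 0) (fun _ => hγ0.mono fun u hu => by
      rw [zero_add u, hu]; congr 1; ring)
  have hγ00 : γ 0 = B 0 := by simpa using hγ0.self_of_nhds
  have hper : ∀ t (n : ℤ), γ (t + n) = γ t := fun t n => ((hγ.inj _ _).2 ⟨n, rfl⟩).symm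
  have hns : NS A := by
    obtain ⟨c1, y, hy⟩ := arc_conn h (l := atTop) (by rw [cocompact_eq_atBot_atTop]; exact le_sup_right)
      (Ioi_mem_atTop 0) isPreconnected_Ioi
    obtain ⟨c2, -⟩ := arc_conn h (l := atBot) (by rw [cocompact_eq_atBot_atTop]; exact le_sup_left)
      (Iio_mem_atBot 0) isPreconnected_Iio
    have h1 : Tendsto (fun s : ℝ => (s : ℂ) * I) (𝓝 0) (𝓝 0) :=
      Continuous.tendsto' (by fun_prop) _ _ (by simp)
    obtain ⟨r, hr, hrr⟩ := Metric.eventually_nhds_iff.1 (h1.eventually (hA0 0))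
    have h2 : ∀ s : ℝ, |s| < r → A (s * I) = B ((-(k * s) : ℝ)) := fun s hs => by
      have := hrr (y := s) (by simpa using hs)
      rw [ofReal_zero, zero_add] at this
      rw [this]
      congr 1
      push_cast
      linear_combination k * s * I_sq
    have h3 : ∀ t : ℝ, t ≠ 0 → B t ∉ core A := by
      rintro t ht ⟨s, hs⟩
      simp only [hAγ] at hs
      obtain ⟨n, rfl⟩ := hγZ s (hs ▸ ⟨t, rfl⟩)
      have h4 := hper 0 n
      rw [zero_add, hs, hγ00] at h4
      exact ht (ofReal_eq_zero.1 (hB.2 h4))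
    refine ns_of_join hM hAn (c1.union y (.inl hy) (.inl hy) c2) ?_ (z := (r / 2 : ℝ) * I)
      (w := (-(r / 2) : ℝ) * I) (by simpa using hr) (by simpa using hr) ?_ ?_
    · rintro p ((hp | ⟨t, ht, rfl⟩) | hp | ⟨t, ht, rfl⟩)
      · exact fun hq => hAU (core_subset A hq) hp
      · exact h3 t (ne_of_gt ht)
      · exact fun hq => hAU (core_subset A hq) hp
      · exact h3 t (ne_of_lt ht)
    · rw [h2 _ (by rw [abs_of_pos] <;> linarith)]
      exact .inr (.inr ⟨_, by simp only [mem_Iio]; nlinarith, rfl⟩)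
    · rw [h2 _ (by rw [abs_neg, abs_of_pos] <;> linarith)]
      exact .inl (.inr ⟨_, by simp only [mem_Ioi]; nlinarith, rfl⟩)
  obtain ⟨β, hβ⟩ := (hc.comp (T := univ) hBc.continuousOn fun z _ => h.off z).prim_convex
    convex_univ
  have off : ∀ z : ℂ, z.im ≠ 0 → B z ∈ (Z ∪ core B)ᶜ := fun z hz hz' =>
    hz'.elim (h.off z) fun h' => hz (hB.mem_core.1 h')
  have side : ∀ S : Set ℂ, Convex ℝ S → (∀ z ∈ S, z.im ≠ 0) → ∀ z₀ ∈ S, ∀ z ∈ S,
      b (B z) = b (B z₀) * (β z₀)⁻¹ * β z := fun S hS hS' z₀ h0 z hz =>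
    (hβ.mono (subset_univ S)).uniq (hb.comp hBc.continuousOn fun w hw => off w (hS' w hw))
      hS.isPreconnected h0 hz
  have up := side _ (convex_halfSpace_im_gt 0) (fun z hz => ne_of_gt hz) I (by simp)
  have dn := side _ (convex_halfSpace_im_lt 0) (fun z hz => ne_of_lt hz) (-I) (by simp)
  set g := b (B I) * (β I)⁻¹ with hg
  set g' := b (B (-I)) * (β (-I))⁻¹ with hg'
  have hγc : Continuous γ := hγ.sm.continuous
  have hin : ∀ t ∈ Ioo (0 : ℝ) 1, γ t ∈ (Z ∪ core B)ᶜ := by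
    rintro t ht (h1 | h1)
    · exact hγU ⟨t, rfl⟩ h1
    · obtain ⟨n, rfl⟩ := hγZ t h1
      have h2 : (0 : ℤ) < n := by exact_mod_cast ht.1
      have h3 : n < 1 := by exact_mod_cast ht.2
      omega
  have hβ0 : ∀ᶠ t : ℝ in 𝓝 0, γ t = B (k * t * I) ∧
      β (k * t * I) = β 0 * c (B 0) (B (k * t * I)) := by
    have h1 : Tendsto (fun t : ℝ => (k : ℂ) * t * I) (𝓝 0) (𝓝 0) :=
      Continuous.tendsto' (by fun_prop) _ _ (by simp)
    have h2 := hβ 0 trivial
    rw [nhdsWithin_univ] at h2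
    exact hγ0.and (h1.eventually h2)
  have hs := hc.self (h.off 0)
  have hγ1 : γ 1 = B 0 := by simpa [hγ00] using hper 0 1
  have gg : g * β 0 = g' * β 0 := by
    have := hA A hAn hns hAU (fun t => if t = 0 then g * β 0 else if t = 1 then g' * β 0 else b (γ t))
      (fun t ht => ?_)
    · simpa using this
    simp only [hAγ]
    rcases ht.1.eq_or_lt with rfl | h1
    · filter_upwards [nhdsWithin_le_nhds hβ0, self_mem_nhdsWithin,
        nhdsWithin_le_nhds (Iio_mem_nhds (zero_lt_one' ℝ))] with s h1 h2 h3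
      rcases h2.1.eq_or_lt with rfl | h4
      · simp [hγ00, hs]
      · rw [if_neg h4.ne', if_neg (ne_of_lt h3), if_pos rfl, hγ00, h1.1, up _ (by simp; positivity),
          h1.2, mul_assoc g]
    rcases ht.2.eq_or_lt with rfl | h2
    · have h3 : Tendsto (fun s : ℝ => s - 1) (𝓝 1) (𝓝 0) :=
        Continuous.tendsto' (by fun_prop) _ _ (by simp)
      filter_upwards [nhdsWithin_le_nhds (h3.eventually hβ0), self_mem_nhdsWithin,
        nhdsWithin_le_nhds (Ioi_mem_nhds (zero_lt_one' ℝ))] with s h4 h5 h6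
      rcases h5.2.eq_or_lt with rfl | h7
      · simp [hγ1, hs]
      · have h8 : γ s = γ (s - 1) := by simpa using hper (s - 1) 1
        rw [if_neg (ne_of_gt h6), if_neg h7.ne, if_neg one_ne_zero, if_pos rfl, hγ1, h8, h4.1,
          dn _ (by
            simp only [mem_ofPred_eq, mul_im, mul_re, ofReal_re, ofReal_im, I_re, I_im]
            nlinarith), h4.2, mul_assoc g']
    · have h3 := hb _ (hin t ⟨h1, h2⟩)
      rw [ho.nhdsWithin_eq (hin t ⟨h1, h2⟩)] at h3
      filter_upwards [nhdsWithin_le_nhds (hγc.continuousAt.eventually h3),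
        nhdsWithin_le_nhds (Ioo_mem_nhds h1 h2)] with s h4 h5
      rw [if_neg h5.1.ne', if_neg h5.2.ne, if_neg h1.ne', if_neg h2.ne, h4]
  have gg' : g = g' := mul_right_cancel gg
  set b' : X.R → Γ := fun y => if y ∈ core B then g * β (invFun B y) else b y with hb'
  have e1 : ∀ z, b' (B z) = g * β z := fun z => by
    simp only [hb', hB.mem_core, leftInverse_invFun hB.2 z]
    rcases lt_trichotomy z.im 0 with h1 | h1 | h1
    · rw [if_neg h1.ne, dn z h1, gg']
    · rw [if_pos h1]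
    · rw [if_neg h1.ne', up z h1]
  refine ⟨b', fun y hy => nhdsWithin_le_nhds ?_⟩
  by_cases h1 : y ∈ core B
  · obtain ⟨t, rfl⟩ := h1
    exact prim_chart hB (hβ.mul_left g) e1 t
  · have h2 : y ∈ (Z ∪ core B)ᶜ := fun h' => h'.elim hy h1
    have h3 := hb y h2
    rw [ho.nhdsWithin_eq h2] at h3
    filter_upwards [h3, ho.mem_nhds h2] with y' h4 h5
    simp only [hb']
    rw [if_neg h1, if_neg fun h' => h5 (.inr h'), h4]

theorem simp_of (hG : Graph) (hX : Arcx) (hT : Tub) : Simp := by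
  intro Y x Γ _ c hM hc hA w hw hwx h01
  obtain ⟨C⟩ := hG Y hM x
  have hx : ∀ j ≤ C.m, x ∈ C.Z j ∧ IsClosed (C.Z j) := by
    intro j
    induction j with
    | zero => exact fun _ => ⟨C.mem, C.cl⟩
    | succ j ih =>
      intro hj
      rw [C.succ j hj]
      exact ⟨.inl (ih (by omega)).1, (C.arc j hj).cl'⟩
  have hcj : ∀ j ≤ C.m, Coc (C.Z j)ᶜ c := fun j hj =>
    hc.mono fun y hy e => hy ((mem_singleton_iff.1 e) ▸ (hx j hj).1)
  have base : ∃ b, Prim (C.Z C.m)ᶜ c b := by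
    obtain ⟨D, hD, hDZ, hL⟩ := C.face
    obtain ⟨β, hβ⟩ := ((hcj _ le_rfl).comp (T := univ) (cont_of_pm hD.1).continuousOn
      fun z _ => hDZ ⟨z, rfl⟩).prim_convex convex_univ
    have hb : Prim (range D) c fun y => β (invFun D y) := by
      rintro _ ⟨z, rfl⟩
      exact nhdsWithin_le_nhds (prim_chart hD hβ (b := fun y => β (invFun D y))
        (fun z => by rw [leftInverse_invFun hD.2 z]) z)
    refine prim_of_hol (lpc_of_open (hx _ le_rfl).2.isOpen_compl) (hcj _ le_rfl) fun y p hp => ?_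
    obtain ⟨φ, hφ, h1, h2⟩ := hL (range p) (isCompact_range p.continuous) (range_subset_iff.2 hp)
    obtain ⟨b', hb'⟩ := prim_iso (L := range p) (hcj _ le_rfl) hb hφ
      (fun t y hy => h1 t ⟨y, hy, rfl⟩) fun y hy => h2 ⟨y, hy, rfl⟩
    rw [hol_prim hb' (path_cont p) (path_maps fun t => ⟨t, rfl⟩)]
    simp
  have down : ∀ i j, j + i = C.m → ∃ b, Prim (C.Z j)ᶜ c b := by
    intro i
    induction i with
    | zero => rintro j rfl; exact base
    | succ i ih =>
      intro j hj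
      obtain ⟨b, hb⟩ := ih (j + 1) (by omega)
      rw [C.succ j (by omega)] at hb
      exact step hX hT Y hM (C.arc j (by omega)) (hcj j (by omega))
        (fun A h1 h2 h3 => hA A h1 h2 fun h4 => h3 h4 (hx j (by omega)).1) hb
  obtain ⟨b, hb⟩ := down C.m 0 (zero_add _)
  have hL : IsCompact (w '' Icc 0 1) := isCompact_Icc.image hw
  obtain ⟨φ, hφ, h1, h2⟩ := C.root (w '' Icc 0 1)ᶜ
    (hL.isClosed.isOpen_compl.mem_nhds fun ⟨t, _, e⟩ => hwx t e)
  obtain ⟨b', hb'⟩ := prim_iso (L := w '' Icc 0 1) hc hb hφ.inv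
    (fun t y ⟨s, _, e⟩ h' => hwx s (by
      rw [e, ← h1 t, ← mem_singleton_iff.1 h']; simp))
    fun y hy h' => h2 ⟨_, h', by simp⟩ hy
  intro β hβ
  rw [(hb'.comp hw.continuousOn (mapsTo_image _ _)).uniq hβ isPreconnected_Icc (x := 0) (y := 1)
    (by simp) (by simp), h01]
  simp

end Crest.Agent.X212.Lad50.Si
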