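import Mathlib
import Crest.Agent.X212.Lad50.Simp
import Crest.Agent.X212.Lad50.Smale

/-!
# Row 212, KillH1 (helper50), part A: circle valued maps on surfaces, classes of annuli
-/

set_option autoImplicit false
set_option linter.unusedSectionVars false
noncomputable section
open Set Filter Topology Function Complex
open scoped ContDiff Manifold

namespace Crest.Agent.X212.Lad50.Kh
open Prf6

/-- `exp (2 π i x)` -/
def ee (x : ℝ) : Circle := Circle.exp (2 * Real.pi * x)

theorem ee_add (x y : ℝ) : ee (x + y) = ee x * ee y := by simp [ee, mul_add]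
theorem ee_sub (x y : ℝ) : ee (x - y) = ee x / ee y := by simp [ee, mul_sub]
theorem ee_neg (x : ℝ) : ee (-x) = (ee x)⁻¹ := by simp [ee]
theorem ee_int (n : ℤ) : ee n = 1 := Circle.exp_two_pi_mul_int n
theorem ee_zero : ee 0 = 1 := by simp [ee]
theorem ee_one : ee 1 = 1 := by simp [ee]

theorem ee_zmul (n : ℤ) (x : ℝ) : ee (n * x) = ee x ^ n := by
  have := Circle.expHom.map_zsmul n (2 * Real.pi * x)
  rw [ee, show 2 * Real.pi * (n * x) = n • (2 * Real.pi * x) by rw [zsmul_eq_mul]; ring]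
  exact this

theorem ee_eq {x y : ℝ} (h : ee x = ee y) : ∃ n : ℤ, x = y + n := by
  obtain ⟨n, hn⟩ := Circle.exp_eq_exp.1 h
  exact ⟨n, mul_left_cancel₀ Real.two_pi_pos.ne' (by rw [hn]; ring)⟩

theorem ee_sm : ContMDiff IR (𝓡 1) ∞ ee :=
  contMDiff_circleExp.comp (contDiff_const.mul contDiff_id).contMDiff

@[fun_prop] theorem ee_cont : Continuous ee := ee_sm.continuous

theorem ex_log {A : Type*} [TopologicalSpace A] [SimplyConnectedSpace A]
    [LocallyPathConnectedSpace A] {u : A → Circle} (hu : Continuous u) :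
    ∃ L : A → ℝ, Continuous L ∧ ∀ a, ee (L a) = u a := by
  obtain ⟨a₀⟩ : Nonempty A := inferInstance
  obtain ⟨F, ⟨-, h2⟩, -⟩ := Circle.isCoveringMap_exp.existsUnique_continuousMap_lifts ⟨u, hu⟩
    a₀ _ (Circle.exp_arg (u a₀))
  refine ⟨fun a => F a / (2 * Real.pi), by fun_prop, fun a => ?_⟩
  rw [ee, mul_div_cancel₀ _ Real.two_pi_pos.ne']
  exact congrFun h2 a

theorem log_diff {A : Type*} [TopologicalSpace A] {s : Set A} (hs : IsPreconnected s)
    {g h : A → ℝ} (hg : ContinuousOn g s) (hh : ContinuousOn h s)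
    (e : ∀ a ∈ s, ee (g a) = ee (h a)) {a b : A} (ha : a ∈ s) (hb : b ∈ s) :
    g a - h a = g b - h b := by
  have := Circle.isCoveringMap_exp.constOn_of_comp hs (g := fun a => 2 * Real.pi * (g a - h a))
    (continuousOn_const.mul (hg.sub hh)) (fun x hx y hy => by
      change ee _ = ee _
      rw [ee_sub, ee_sub, e x hx, e y hy, div_self', div_self']) ha hb
  exact mul_left_cancel₀ Real.two_pi_pos.ne' this

section
variable {M : Type*} [TopologicalSpace M] [T2Space M] [ChartedSpace ℂ M] [IsManifold IC ∞ M]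
  {o : Or M} {A : ℂ → M}

theorem contAt_of_comp {F : Type*} [TopologicalSpace F] {g : M → F} {z : ℂ} (hA : Pm oC o A z)
    (hg : ContinuousAt (fun w => g (A w)) z) : ContinuousAt g (A z) := by
  rw [ContinuousAt, ← hA.map_nhds, tendsto_map'_iff]
  exact hg

/-- a periodic function on an annulus, extended by zero -/
def xt (A : ℂ → M) (F : ℂ → ℝ) (y : M) : ℝ :=
  by classical exact if y ∈ range A then F (invFun A y) else 0

theorem xt_apply (hA : An o A) {F : ℂ → ℝ} (hp : ∀ z (n : ℤ), F (z + n) = F z) (z : ℂ) :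
    xt A F (A z) = F z := by
  obtain ⟨n, hn⟩ := (hA.2 _ _).1 (invFun_eq (f := A) ⟨z, rfl⟩)
  rw [xt, if_pos ⟨z, rfl⟩]
  conv_rhs => rw [hn, hp]

theorem xt_out {F : ℂ → ℝ} {y : M} (hy : y ∉ range A) : xt A F y = 0 := if_neg hy

theorem xt_bx (hA : An o A) {F : ℂ → ℝ} (hp : ∀ z (n : ℤ), F (z + n) = F z)
    (h0 : ∀ z : ℂ, z.im ∉ Icc (0 : ℝ) 1 → F z = 0) {y : M} (hy : y ∉ A '' bx 0 1) :
    xt A F y = 0 := by
  by_cases h : y ∈ range A
  · obtain ⟨z, rfl⟩ := h
    rw [xt_apply hA hp, h0 z fun h => hy (hA.mem_bx.2 h)]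
  · exact xt_out h

theorem open_bx (hA : An o A) : IsOpen (A '' bx 0 1)ᶜ :=
  ((isCompact_bx 0 1).image (cont_of_pm hA.1)).isClosed.isOpen_compl

theorem xt_contAt (hA : An o A) {F : ℂ → ℝ} (hp : ∀ z (n : ℤ), F (z + n) = F z)
    (h0 : ∀ z : ℂ, z.im ∉ Icc (0 : ℝ) 1 → F z = 0) {y : M}
    (hc : ∀ z, A z = y → ContinuousAt F z) : ContinuousAt (xt A F) y := by
  by_cases h : y ∈ A '' bx 0 1
  · obtain ⟨z, -, rfl⟩ := h
    refine contAt_of_comp (hA.1 z) ?_
    rw [funext (xt_apply hA hp)]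
    exact hc z rfl
  · exact (continuousAt_const (y := (0 : ℝ))).congr
      (((open_bx hA).eventually_mem h).mono fun w hw => (xt_bx hA hp h0 hw).symm)

/-- the profile of the class of an annulus -/
def pf (z : ℂ) : ℝ := Real.smoothTransition z.im - if 0 < z.im then 1 else 0

theorem pf_per (z : ℂ) (n : ℤ) : pf (z + n) = pf z := by simp [pf]

theorem pf_out (z : ℂ) (h : z.im ∉ Icc (0 : ℝ) 1) : pf z = 0 := by
  rw [mem_Icc, not_and_or, not_le, not_le] at h
  rcases h with h | h
  · simp [pf, Real.smoothTransition.zero_of_nonpos h.le, h.le]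
  · simp [pf, Real.smoothTransition.one_of_one_le h.le, zero_lt_one.trans h]

theorem ee_pf (z : ℂ) : ee (pf z) = ee (Real.smoothTransition z.im) := by
  unfold pf
  split_ifs <;> simp [ee_sub, ee_one]

theorem pf_cont {z : ℂ} (h : z.im ≠ 0) : ContinuousAt pf z := by
  have h1 : ContinuousAt (fun w : ℂ => Real.smoothTransition w.im) z :=
    (Real.smoothTransition.continuous.comp continuous_im).continuousAt
  rcases h.lt_or_gt with h | h
  · refine h1.congr (((isOpen_lt continuous_im continuous_const).eventually_mem h).mono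
      fun w hw => ?_)
    simp [pf, not_lt.2 (le_of_lt (show w.im < 0 from hw))]
  · refine (h1.sub (continuousAt_const (y := (1 : ℝ)))).congr
      (((isOpen_lt continuous_const continuous_im).eventually_mem h).mono fun w hw => ?_)
    simp [pf, show 0 < w.im from hw]

/-- the class of an annulus -/
def vv (A : ℂ → M) (y : M) : Circle := ee (xt A pf y)

theorem vv_apply (hA : An o A) (z : ℂ) : vv A (A z) = ee (Real.smoothTransition z.im) := by
  rw [vv, xt_apply hA pf_per, ee_pf]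

theorem vv_out (hA : An o A) {y : M} (hy : y ∉ A '' bx 0 1) : vv A y = 1 := by
  rw [vv, xt_bx hA pf_per pf_out hy, ee_zero]

theorem vv_sm (hA : An o A) : ContMDiff IC (𝓡 1) ∞ (vv A) := fun y => by
  by_cases h : y ∈ A '' bx 0 1
  · obtain ⟨z, -, rfl⟩ := h
    refine Cyl58.contMDiffAt_of_comp (hA.1 z).1 ?_
    rw [show vv A ∘ A = _ from funext (vv_apply hA)]
    exact (ee_sm.comp (Real.smoothTransition.contDiff.comp imCLM.contDiff).contMDiff) z
  · exact (contMDiffAt_const (c := (1 : Circle))).congr_of_eventuallyEq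
      (((open_bx hA).eventually_mem h).mono fun w hw => vv_out hA hw)

/-- a logarithm of the class of an annulus along a curve that crosses the core once -/
theorem cross (hA : An o A) {c : ℝ → M} (hc : Continuous c) {k : ℝ} (hk : 0 < k)
    (h0 : ∀ᶠ t : ℝ in 𝓝 0, c t = A (-(t / k : ℝ) * I)) {S : Set ℝ}
    (hS : ∀ t ∈ S, t ≠ 0 → c t ∉ core A) :
    ContinuousOn (fun t => xt A pf (c t) + if t < 0 then 1 else 0) S := by
  intro t ht
  refine ContinuousAt.continuousWithinAt ?_
  rcases lt_trichotomy t 0 with h | rfl | h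
  · have h1 := (xt_contAt hA pf_per pf_out (y := c t) fun z e => pf_cont fun hz =>
      hS t ht h.ne (e ▸ mem_core hz)).comp hc.continuousAt
    exact (h1.add (continuousAt_const (y := (1 : ℝ)))).congr
      ((eventually_lt_nhds h).mono fun s hs => by simp [hs])
  · have h1 : ContinuousAt (fun t : ℝ => Real.smoothTransition (-(t / k))) 0 :=
      (Real.smoothTransition.continuous.comp (by fun_prop)).continuousAt
    refine h1.congr (h0.mono fun s hs => ?_)
    have h2 : (-((s / k : ℝ) : ℂ) * I).im = -(s / k) := by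
      simp only [mul_im, neg_re, ofReal_re, I_im, mul_one, neg_im, ofReal_im, I_re, mul_zero,
        add_zero]
    have h3 : 0 < -(s / k) ↔ s < 0 := by rw [neg_pos, div_neg_iff]; constructor <;> grind
    simp only [hs, xt_apply hA pf_per, pf, h2, h3]
    ring
  · have h1 := (xt_contAt hA pf_per pf_out (y := c t) fun z e => pf_cont fun hz =>
      hS t ht h.ne' (e ▸ mem_core hz)).comp hc.continuousAt
    exact h1.congr ((eventually_gt_nhds h).mono fun s hs => by simp [hs.le])

theorem ee_cross (A : ℂ → M) (y : M) (t : ℝ) :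
    ee (xt A pf y + if t < 0 then 1 else 0) = vv A y := by
  split_ifs <;> simp [ee_add, ee_one, vv]

/-- the class of an annulus is the variation of a dual class under the twist -/
theorem twist (hA : An o A) {v : M → Circle} {l : ℂ → ℝ} (hl : Continuous l)
    (e : ∀ z, ee (l z) = v (A z)) (hd : l (1 / 2 : ℝ) - l (-(1 / 2) : ℝ) = -1) :
    ∃ f : M → ℝ, Continuous f ∧ ∀ y, vv A y = ee (f y) * (v y / v (tw A y)) := by
  have h1 : ∀ z, l (z + 1) = l z - 1 := fun z => by
    have := log_diff isPreconnected_univ (g := fun z => l (z + 1)) (by fun_prop) hl.continuousOn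
      (fun z _ => by rw [e, e]; exact congrArg v (by simpa using hA.per z 1)) (mem_univ z)
      (mem_univ ((-(1 / 2) : ℝ) : ℂ))
    rw [show ((-(1 / 2) : ℝ) : ℂ) + 1 = (1 / 2 : ℝ) by push_cast; ring] at this
    linarith
  have h2 : ∀ z (n : ℤ), l (z + n) = l z - n := fun z n => by
    have := (show Function.Periodic (fun z : ℂ => l z + z.re) 1 from fun z => by
      simp only [h1, add_re, one_re]; ring).int_mul n z
    simp only [mul_one, add_re, intCast_re] at this
    linarith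
  set F : ℂ → ℝ := fun z => Real.smoothTransition z.im +
    l (z + Real.smoothTransition z.im) - l z with hF
  have hp : ∀ z (n : ℤ), F (z + n) = F z := fun z n => by
    simp only [hF, add_im, intCast_im, add_zero]
    rw [add_right_comm z, h2, h2]; ring
  have h0 : ∀ z : ℂ, z.im ∉ Icc (0 : ℝ) 1 → F z = 0 := fun z hz => by
    obtain ⟨n, hn⟩ := st_int hz
    simp only [hF, hn, ofReal_intCast, h2]; ring
  have hc : Continuous F := by
    have := Real.smoothTransition.continuous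
    fun_prop
  refine ⟨xt A F, continuous_iff_continuousAt.2 fun y =>
    xt_contAt hA hp h0 fun _ _ => hc.continuousAt, fun y => ?_⟩
  by_cases h : y ∈ range A
  · obtain ⟨z, rfl⟩ := h
    rw [xt_apply hA hp, hA.tw_apply, vv_apply hA, ← e, ← e, ← ee_sub, ← ee_add]
    congr 1
    simp only [hF]; ring
  · rw [xt_out h, vv, xt_out h, show tw A y = y from (hA.wd_sh _).out h]
    simp

/-- `u` has a logarithm near `Z` -/
def Lg (Z : Set M) (u : M → Circle) : Prop :=
  ∃ O, IsOpen O ∧ Z ⊆ O ∧ ∃ g : M → ℝ, ContinuousOn g O ∧ ∀ y ∈ O, ee (g y) = u y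

theorem glue2 {D : ℂ → M} (hD : St o D) {u : M → Circle} {H : ℂ → ℝ} (hH : Continuous H)
    (eH : ∀ z, ee (H z) = u (D z)) {W : Set ℂ} (hW : IsOpen W) {O : Set M} (hO : IsOpen O)
    {g : M → ℝ} (hg : ContinuousOn g O) (eg : ∀ y ∈ O, ee (g y) = u y)
    (e : ∀ z ∈ W, D z ∈ O → g (D z) = H z) : Lg (O ∪ D '' W) u := by
  classical
  have hW' : IsOpen (D '' W) := isOpenMap_of_pm hD.1 W hW
  set f : M → ℝ := fun y => if y ∈ D '' W then H (invFun D y) else g y with hf
  have e1 : ∀ z ∈ W, f (D z) = H z := fun z hz => by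
    simp only [hf]; rw [if_pos (mem_image_of_mem D hz), leftInverse_invFun hD.2 z]
  have e2 : ∀ y ∈ O, f y = g y := fun y hy => by
    by_cases h : y ∈ D '' W
    · obtain ⟨z, hz, rfl⟩ := h
      rw [e1 z hz, e z hz hy]
    · simp only [hf]; rw [if_neg h]
  refine ⟨_, hO.union hW', Subset.rfl, f, fun y hy => ContinuousAt.continuousWithinAt ?_, ?_⟩
  · rcases hy with hy | ⟨z, hz, rfl⟩
    · exact (hg.continuousAt (hO.mem_nhds hy)).congr
        ((hO.eventually_mem hy).mono fun w hw => (e2 w hw).symm)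
    · exact contAt_of_comp (hD.1 z) (hH.continuousAt.congr
        ((hW.eventually_mem hz).mono fun w hw => (e1 w hw).symm))
  · rintro y (hy | ⟨z, hz, rfl⟩)
    · rw [e2 y hy, eg y hy]
    · rw [e1 z hz, eH]

theorem Lg.mono {Z Z' : Set M} {u : M → Circle} (h : Lg Z u) (hs : Z' ⊆ Z) : Lg Z' u :=
  let ⟨O, h1, h2, h3⟩ := h; ⟨O, h1, hs.trans h2, h3⟩

theorem lg_chart {D : ℂ → M} (hD : St o D) {u : M → Circle} (hu : Continuous u) :
    Lg (range D) u := by
  obtain ⟨H, hH, eH⟩ := ex_log (hu.comp (cont_of_pm hD.1))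
  simpa using glue2 hD hH eH isOpen_univ isOpen_empty (g := fun _ => 0) continuousOn_const
    (fun _ h => h.elim) fun _ _ h => h.elim

theorem lg_face {D : ℂ → M} (hD : St o D) {u : M → Circle} (hu : Continuous u) {O : Set M}
    {g : M → ℝ} (hg : ContinuousOn g O) (eg : ∀ y ∈ O, ee (g y) = u y) (hK : IsCompact Oᶜ)
    (hr : Oᶜ ⊆ range D) : ∃ f : M → ℝ, Continuous f ∧ ∀ y, ee (f y) = u y := by
  obtain ⟨H, hH, eH⟩ := ex_log (hu.comp (cont_of_pm hD.1))
  have hDc := cont_of_pm hD.1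
  obtain ⟨ρ, hρ⟩ := (hD.isOpenEmbedding.isInducing.isCompact_preimage' hK hr).isBounded.subset_closedBall 0
  have h1 : ∀ z : ℂ, ρ < ‖z‖ → D z ∈ O := fun z hz => by
    by_contra h
    exact not_le.2 hz (mem_closedBall_zero_iff.1 (hρ h))
  have h2 : (D '' Metric.closedBall 0 ρ)ᶜ ⊆ O := fun y hy => by
    by_contra h
    obtain ⟨z, rfl⟩ := hr h
    exact hy ⟨z, hρ h, rfl⟩
  set z₀ : ℂ := ((|ρ| + 1 : ℝ) : ℂ) with hz₀
  have h3 : ρ < ‖z₀‖ := by
    rw [hz₀, norm_real, Real.norm_eq_abs, abs_of_pos (by positivity)]; linarith [le_abs_self ρ]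
  obtain ⟨n, hn⟩ := ee_eq ((eH z₀).trans (eg _ (h1 _ h3)).symm)
  obtain ⟨O', -, h4, f, h5, h6⟩ := glue2 hD (u := u) (H := fun z => H z - n) (by fun_prop)
    (fun z => by rw [ee_sub, ee_int, div_one]; exact eH z) isOpen_univ
    ((isCompact_closedBall (0 : ℂ) ρ).image hDc).isClosed.isOpen_compl (hg.mono h2)
    (fun y hy => eg y (h2 hy)) fun z _ hz => by
      have h7 : ρ < ‖z‖ := not_le.1 fun h => hz ⟨z, mem_closedBall_zero_iff.2 h, rfl⟩
      have := log_diff (Sm.pre_out ρ) hH.continuousOn (hg.comp hDc.continuousOn h1)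
        (fun w hw => (eH w).trans (eg _ (h1 w hw)).symm) h7 h3
      simp only [comp_apply] at this
      linarith
  have h7 : O' = univ := eq_univ_of_forall fun y => h4 (by
    by_cases h : y ∈ D '' Metric.closedBall 0 ρ
    · exact .inr (image_mono (subset_univ _) h)
    · exact .inl h)
  subst h7
  exact ⟨f, continuousOn_univ.1 h5, fun y => h6 y trivial⟩

theorem arc_tail [CompactSpace M] {Z : Set M} {B : ℂ → M} {η : M → ℝ} (h : Arc o Z B η)
    {O : Set M} (hO : IsOpen O) (hZ : Z ⊆ O) : ∃ T > (0 : ℝ), ∀ t : ℝ, T ≤ |t| → B t ∈ O := by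
  obtain ⟨c, hc, hm⟩ := hO.isClosed_compl.isCompact.exists_forall_le' h.cont.continuousOn
    (a := 0) fun y hy => lt_of_le_of_ne (h.nn y) fun e => hy (hZ ((h.zero y).1 e.symm))
  obtain ⟨K, hK, hs⟩ := mem_cocompact.1 (h.lim.eventually_lt_const hc)
  obtain ⟨r, hr⟩ := hK.isBounded.subset_closedBall 0
  refine ⟨|r| + 1, by positivity, fun t ht => ?_⟩
  by_contra hn
  refine not_le.2 (hs fun h' => ?_) (hm _ hn)
  have := mem_closedBall_zero_iff.1 (hr h')
  rw [Real.norm_eq_abs] at this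
  linarith [le_abs_self r]

/-- one more arc -/
theorem lg_step [CompactSpace M] {Z : Set M} {B : ℂ → M} {η : M → ℝ} (h : Arc o Z B η)
    (hA : An o A) (hAZ : range A ⊆ Zᶜ) {k : ℝ} (hk : 0 < k)
    (h0 : ∀ᶠ t : ℝ in 𝓝 0, B t = A (-(t / k : ℝ) * I)) (hS : ∀ t : ℝ, t ≠ 0 → B t ∉ core A)
    {u : M → Circle} (hu : Continuous u) (hl : Lg Z u) :
    ∃ n : ℤ, Lg (Z ∪ core B) (u * vv A ^ n) := by
  obtain ⟨O₀, hO₀, hZ₀, g, hg₀, eg₀⟩ := hl
  have hBc := cont_of_pm h.st.1
  have hBr : Continuous fun t : ℝ => B t := hBc.comp continuous_ofReal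
  set O := O₀ ∩ (A '' bx 0 1)ᶜ with hO'
  have hO : IsOpen O := hO₀.inter (open_bx hA)
  have hZ : Z ⊆ O := fun y hy => ⟨hZ₀ hy, fun h' => hAZ (image_subset_range _ _ h') hy⟩
  have hg := hg₀.mono (inter_subset_left : O ⊆ O₀)
  obtain ⟨T, hT, hTO⟩ := arc_tail h hO hZ
  obtain ⟨H, hH, eH⟩ := ex_log (hu.comp hBc)
  have tail : ∀ S : Set ℝ, IsPreconnected S → (∀ t ∈ S, T ≤ |t|) → S.Nonempty →
      ∃ p : ℤ, ∀ t ∈ S, H t = g (B t) + p := by
    rintro S hS hS' ⟨a, ha⟩
    obtain ⟨p, hp⟩ := ee_eq ((eH a).trans (eg₀ _ (hTO a (hS' a ha)).1).symm)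
    refine ⟨p, fun t ht => ?_⟩
    have := log_diff hS (g := fun t : ℝ => H t) (by fun_prop)
      (hg.comp hBr.continuousOn fun t ht => hTO t (hS' t ht))
      (fun t ht => (eH t).trans (eg₀ _ (hTO t (hS' t ht)).1).symm) ht ha
    simp only [comp_apply] at this
    linarith
  obtain ⟨p, hp⟩ := tail (Ici T) isPreconnected_Ici (fun t ht => ht.trans (le_abs_self t))
    nonempty_Ici
  obtain ⟨q, hq⟩ := tail (Iic (-T)) isPreconnected_Iic
    (fun t ht => (le_neg.1 ht).trans (neg_le_abs t)) nonempty_Iic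
  refine ⟨p - q, ?_⟩
  set u' := u * vv A ^ (p - q) with hu'
  have hu'c : Continuous u' := hu.mul ((vv_sm hA).continuous.zpow _)
  have eg : ∀ y ∈ O, ee (g y) = u' y := fun y hy => by
    simp [hu', vv_out hA hy.2, eg₀ y hy.1]
  set a : ℝ → ℝ := fun t => xt A pf (B t) + if t < 0 then 1 else 0 with ha
  have hac : Continuous a := continuousOn_univ.1 (cross hA hBr hk h0 fun t _ => hS t)
  have ea : ∀ t : ℝ, ee (H t + (p - q : ℤ) * a t - p) = u' (B t) := fun t => by
    rw [ee_sub, ee_add, ee_int, div_one, ee_zmul, eH, ee_cross]; rfl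
  obtain ⟨G, hG, eG⟩ := ex_log (hu'c.comp hBc)
  obtain ⟨n, hn⟩ := ee_eq ((eG (0 : ℝ)).trans (ea 0).symm)
  have eGt : ∀ t : ℝ, T ≤ |t| → g (B t) = G t - n := fun t ht => by
    have h1 := log_diff isPreconnected_univ (g := fun t : ℝ => G t)
      (h := fun t : ℝ => H t + (p - q : ℤ) * a t - p) (by fun_prop) (by fun_prop)
      (fun t _ => (eG t).trans (ea t).symm) (mem_univ t) (mem_univ 0)
    have h2 : xt A pf (B t) = 0 := xt_bx hA pf_per pf_out (hTO t ht).2
    rcases le_abs.1 ht with h3 | h3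
    · have h4 : a t = 0 := by simp only [ha]; rw [h2, if_neg (by linarith), add_zero]
      rw [h4, hp t h3] at h1
      linarith
    · have h4 : a t = 1 := by simp only [ha]; rw [h2, if_pos (by linarith), zero_add]
      rw [h4, hq t (le_neg.1 h3)] at h1
      push_cast at h1 hn
      linarith
  set K : Set ℂ := Icc (-T) T ×ℂ Icc (-1) 1 with hK
  have hKc : IsCompact (B '' K) := (isCompact_Icc.reProdIm isCompact_Icc).image hBc
  set E : Set ℂ := {z | B z ∈ O ∧ |g (B z) - (G z - n)| < 1} with hE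
  have hEo : IsOpen E := by
    have h1 : ContinuousOn (fun z => |g (B z) - (G z - n)|) (B ⁻¹' O) :=
      ((hg.comp hBc.continuousOn (mapsTo_preimage _ _)).sub (by fun_prop)).abs
    exact h1.isOpen_inter_preimage (hO.preimage hBc) isOpen_Iio
  refine (glue2 h.st (u := u') (H := fun z => G z - n) (by fun_prop)
    (fun z => by rw [ee_sub, ee_int, div_one]; exact eG z)
    (hEo.union (isOpen_Ioo.reProdIm isOpen_Ioo : IsOpen (Ioo (-T) T ×ℂ Ioo (-1) 1)))
    (hO.inter hKc.isClosed.isOpen_compl) (hg.mono inter_subset_left) (fun y hy => eg y hy.1)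
    fun z hz hz' => ?_).mono ?_
  · rcases hz with hz | hz
    · obtain ⟨m, hm⟩ := ee_eq (show ee (g (B z)) = ee (G z - n) by
        rw [ee_sub, ee_int, div_one, eG, eg _ hz.1]; rfl)
      have h1 := hz.2
      rw [hm, add_sub_cancel_left] at h1
      have h2 : |m| < 1 := by exact_mod_cast h1
      rw [hm, Int.abs_lt_one_iff.1 h2]
      simp
    · exact (hz'.2 ⟨z, ⟨Ioo_subset_Icc_self hz.1, Ioo_subset_Icc_self hz.2⟩, rfl⟩).elim
  · rintro y (hy | ⟨t, rfl⟩)
    · exact .inl ⟨hZ hy, fun ⟨z, _, e⟩ => h.off z (e ▸ hy)⟩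
    · refine .inr ⟨t, ?_, rfl⟩
      rcases le_or_gt T |t| with h1 | h1
      · exact .inl ⟨hTO t h1, by simp [eGt t h1]⟩
      · exact .inr ⟨by simpa using abs_lt.1 h1, by simp⟩

end

end Crest.Agent.X212.Lad50.Kh
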