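import Crest.Agent.X212.Lad50.GenA
import Crest.Agent.X212.Lev9.Main
import Crest.Agent.X212.Hd34.Del
import Crest.Agent.X212.Coc52.Coc
import Crest.Agent.X212.Orx52.Orb

/-!
# Row 212, HEL-GENUS (helper50): a handle column from the genus certificate
-/

set_option autoImplicit false
set_option linter.unusedSectionVars false

open Set Filter Topology Function Complex
open scoped ContDiff Manifold
open Crest.Agent.R208.F Crest.Agent.X212.Dr59 Crest.Agent.X212.Int54 Crest.Agent.X212.Cyl58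
open Crest.Agent.X212.Sep15 (EE IR CM Box)
open Crest.Agent.X212.Bb31 (Fm)
open Crest.Agent.X212.Flo26 (SmV fl)
open Crest.Agent.X212.Hel40

noncomputable section

namespace Crest.Agent.X212.Lad50.Gn

variable {Y : CM 3} {R : CM 2} {o : Fm 3 Y} {v : Vf Y} {Φ : Y → Circle} {M : Set Y}

theorem rnd {x δ : ℝ} {n : ℤ} (hδ : δ < 1 / 2) (h : |x - n| < δ) : round x = n :=
  round_eq_iff.2 ⟨by linarith [(abs_lt.1 h).1], by linarith [(abs_lt.1 h).2]⟩

/-- the handle chart of two plumbed annuli -/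
def hc (A B : ℂ → R) (δ : ℝ) (z : ℂ) : R :=
  if |z.im - round z.im| < δ then A (z - round z.im * I) else B (-I * (z - round z.re))

section hdl

variable {A B : ℂ → R} {δ : ℝ}

theorem An'.per (hA : An' A) (z : ℂ) (n : ℤ) : A (z + n) = A z := ((hA.2 _ _).2 ⟨n, rfl⟩).symm

theorem hc_H (h1 : δ < 1 / 2) {z : ℂ} {n : ℤ} (h : |z.im - n| < δ) : hc A B δ z = A (z - n * I) := by
  rw [hc, rnd h1 h, if_pos h]

theorem hc_V (hA : An' A) (hB : An' B) (h1 : δ < 1 / 2)
    (box : ∀ z : ℂ, |z.re| < δ → |z.im| < δ → B z = A (I * z)) {z : ℂ} {m : ℤ}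
    (h : |z.re - m| < δ) : hc A B δ z = B (-I * (z - m)) := by
  by_cases h' : |z.im - round z.im| < δ
  · rw [hc_H h1 h', ← An'.per hB _ (-round z.im), box _ (by simpa [← sub_eq_add_neg] using h')
      (by simpa [abs_sub_comm] using h), ← An'.per hA _ (-m)]
    congr 1
    push_cast
    linear_combination (z - m) * I_sq
  · rw [hc, if_neg h', rnd h1 h]

theorem hdl_hc (hA : An' A) (hB : An' B) (h0 : 0 < δ) (h1 : δ < 1 / 2)
    (box : ∀ z : ℂ, |z.re| < δ → |z.im| < δ → B z = A (I * z))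
    (only : ∀ z w : ℂ, |z.im| < δ → |w.im| < δ → A z = B w → ∃ m : ℤ, |w.re - m| < δ) :
    Hdl (hc A B δ) δ := by
  have eV := fun z m => hc_V hA hB h1 box (z := z) (m := m)
  have HV : ∀ (z w : ℂ) (n m : ℤ), |z.im - n| < δ → |w.re - m| < δ → hc A B δ z = hc A B δ w →
      ∃ k : ℤ, |w.im - k| < δ := fun z w n m hz hw e => by
    rw [hc_H h1 hz, eV w m hw] at e
    simpa using only _ _ (by simpa using hz) (by simpa [abs_sub_comm] using hw) e
  have HH : ∀ (z w : ℂ) (n m : ℤ), |z.im - n| < δ → |w.im - m| < δ → hc A B δ z = hc A B δ w →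
      Lat z w := fun z w n m hz hw e => by
    rw [hc_H h1 hz, hc_H h1 hw] at e
    obtain ⟨k, hk⟩ := (hA.2 _ _).1 e
    exact ⟨k, m - n, by push_cast; linear_combination hk⟩
  refine ⟨h0, h1, ?_, fun z hz w hw => ⟨fun e => ?_, ?_⟩⟩
  · rintro z (⟨m, h⟩ | ⟨n, h⟩)
    · refine ld_congr (ld_comp (hB.1 _) (Prf6.pm_affine (neg_ne_zero.2 I_ne_zero) (I * m) z).1) ?_
      filter_upwards [(continuous_re.sub continuous_const).abs.continuousAt.eventually_lt_const h]
        with w hw
      rw [eV w m hw, comp_apply]; congr 1; ring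
    · refine ld_congr (ld_comp (hA.1 _) (Prf6.pm_affine one_ne_zero (-(n * I)) z).1) ?_
      filter_upwards [(continuous_im.sub continuous_const).abs.continuousAt.eventually_lt_const h]
        with w hw
      rw [hc_H h1 hw, comp_apply]; congr 1; ring
  · rcases hz with ⟨m, hz⟩ | ⟨n, hz⟩ <;> rcases hw with ⟨m', hw⟩ | ⟨n', hw⟩
    · rw [eV z m hz, eV w m' hw] at e
      obtain ⟨k, hk⟩ := (hB.2 _ _).1 e
      exact ⟨m' - m, k, by push_cast; linear_combination I * hk + (w - m' - z + m) * I_sq⟩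
    · obtain ⟨k, hk⟩ := HV w z n' m hw hz e.symm
      exact HH z w k n' hk hw e
    · obtain ⟨k, hk⟩ := HV z w n m' hz hw e
      exact HH z w n k hz hk e
    · exact HH z w n n' hz hw e
  · rintro ⟨j, k, rfl⟩
    rcases hz with ⟨m, hz⟩ | ⟨n, hz⟩
    · rw [eV z m hz, eV _ (m + j) (by simpa using hz), ← An'.per hB _ k]
      congr 1
      push_cast
      linear_combination k * I_sq
    · rw [hc_H h1 hz, hc_H h1 (n := n + k) (by simpa using hz), ← An'.per hA _ j]
      congr 1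
      push_cast
      ring

end hdl

open Orx52 in
/-- a non-separating annulus lies in a handle -/
theorem handle {oR : Fm 2 R} (ho : Ori (𝓡 2) oR) {W : Set R} (hW : IsOpen W) {A : ℂ → R}
    (hA : An' A) (hAW : range A ⊆ W) (hn : IsPreconnected (W \ core A)) :
    ∃ e δ, Hdl e δ ∧ ∀ z, e z ∈ W := by
  have : Nonempty R := ⟨A 0⟩
  have key : ∀ A : ℂ → R, An' A → range A ⊆ W → IsPreconnected (W \ core A) →
      Prf6.Pm Prf6.oC (sf ho).o (toCp ∘ A) 0 → ∃ e δ, Hdl e δ ∧ ∀ z, e z ∈ W := by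
    intro A hA hAW hn hp
    have h1 : Prf6.An (sf ho).o (toCp ∘ A) := ⟨fun z => Prf6.pm_of_conn isPreconnected_univ
      (fun z _ => ld_to.2 (hA.1 z)) (mem_univ 0) (mem_univ z) hp, hA.2⟩
    obtain ⟨B, δ, hBW, h⟩ := Coc52.hd (X := sf ho) (U := W) hW h1
      ((Prf6.core_subset _).trans hAW) hn
    have hB : An' (ofCp ∘ B) := ⟨fun z => ld_to.1 (h.hB.1 z).1, h.hB.2⟩
    have box : ∀ z : ℂ, |z.re| < δ → |z.im| < δ → (ofCp ∘ B) z = A (I * z) := fun z h2 h3 => by
      have := h.box 0 z h2 h3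
      simp only [ofReal_zero, zero_add, ofReal_one, one_mul] at this
      exact this
    have l1 := min_le_left δ (1 / 4)
    refine ⟨hc A (ofCp ∘ B) (min δ (1 / 4)), _, hdl_hc hA hB (lt_min h.pos (by norm_num))
      ((min_le_right _ _).trans_lt (by norm_num))
      (fun z h2 h3 => box z (h2.trans_le l1) (h3.trans_le l1)) fun z w h2 h3 e => ?_, fun z => ?_⟩
    · obtain ⟨j, m, hm⟩ := h.only z w (h2.trans_le l1) (h3.trans_le l1) e
      have b := box (w - m) (by simpa using hm) (by simpa using h3.trans_le l1)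
      rw [← An'.per hB _ m, sub_add_cancel, ← e] at b
      have := h1.im_eq b
      exact ⟨m, by simpa [this] using h2⟩
    · unfold hc
      split_ifs
      exacts [hAW ⟨_, rfl⟩, hBW ⟨_, rfl⟩]
  rcases Mcg32.pm_or (o := (sf ho).o) (ld_to.2 (hA.1 0)) with h | h
  · exact key A hA hAW hn h
  · refine key (fun z => A (conjCLE z)) ⟨fun z => ld_comp (hA.1 _) (Glue52.ld_clm conjCLE z),
      fun z w => (hA.2 _ _).trans (exists_congr fun n => ?_)⟩
      (fun _ ⟨z, hz⟩ => hAW ⟨_, hz⟩) (by simpa [Hel40.core] using hn) h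
    rw [← (starRingEnd ℂ).injective.eq_iff]
    simp

/-- relative smoothing of a circle map -/
theorem smooth_circ {w : R → Circle} (hw : Continuous w) {L W : Set R} (hL : IsClosed L)
    (hW : IsOpen W) (hLW : L ⊆ W) (h1 : ∀ x ∉ L, w x = 1) :
    ∃ w' : R → Circle, SC w' ∧ (∀ x ∉ W, w' x = 1) ∧ ∃ l : R → ℝ, Continuous l ∧
      ∀ x, w x = w' x * Circle.exp (l x) := by
  obtain ⟨g, h2, h3, -⟩ := Continuous.exists_contMDiff_approx_and_eqOn (𝓡 2) ⊤
    (f := fun x => (w x : ℂ)) (ε := fun _ => 1) (by fun_prop) continuous_const (fun _ => one_pos)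
    hW.isClosed_compl (hL.isOpen_compl.mem_nhdsSet.2 (compl_subset_compl.2 hLW))
    ((contMDiffOn_const (c := (1 : ℂ))).congr fun x hx => by rw [h1 x hx, Circle.coe_one])
  have h4 : ∀ x, g x / w x ∈ slitPlane := fun x => by
    refine ball_one_subset_slitPlane (mem_ball_iff_norm.2 ?_)
    rw [div_sub_one (w x).coe_ne_zero, norm_div, Circle.norm_coe, div_one, ← dist_eq_norm]
    exact h2 x
  have h5 : ∀ x, Glue52.dir (g x) = w x * Circle.exp (arg (g x / w x)) := fun x => by
    rw [← Glue52.dir_mul (norm_pos_iff.2 (slitPlane_ne_zero (h4 x))) (w x * _), Circle.coe_mul,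
      Circle.coe_exp, mul_left_comm, norm_mul_exp_arg_mul_I, mul_div_cancel₀ _ (w x).coe_ne_zero]
  refine ⟨fun x => Glue52.dir (g x), fun x => (Glue52.contMDiffAt_dir fun h => ?_).comp x
    (g.contMDiff x), fun x hx => ?_, fun x => -arg (g x / w x),
    continuous_iff_continuousAt.2 fun x => ((continuousAt_arg (h4 x)).comp
      (f := fun x => g x / w x) (g.contMDiff.continuous.continuousAt.div (by fun_prop)
        (w x).coe_ne_zero)).neg, fun x => by simp only [h5, Circle.exp_neg, mul_inv_cancel_right]⟩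
  · exact slitPlane_ne_zero (h4 x) (by rw [h, zero_div])
  · beta_reduce
    rw [h5, h3 hx, div_self (w x).coe_ne_zero, arg_one, Circle.exp_zero, mul_one]
    exact h1 x fun h => hx (hLW h)

/-- a compactly supported class on a connected open set gives a handle -/
theorem handle_of {oR : Fm 2 R} (ho : Ori (𝓡 2) oR) {w : R → Circle} (hw : Continuous w)
    {L W : Set R} (hL : IsClosed L) (hW : IsOpen W) (hc : IsPreconnected W) (hLW : L ⊆ W)
    (h1 : ∀ x ∉ L, w x = 1) (hn : ¬ Lifts w W) : ∃ e δ, Hdl e δ ∧ ∀ z, e z ∈ W := by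
  obtain ⟨w', h2, h3, l, h4, h5⟩ := smooth_circ hw hL hW hLW h1
  obtain ⟨m, A, h6, -, l', h7, h8⟩ := Lev9.lev R oR W w' ho hW h2 h3
  obtain ⟨i, hi⟩ : ∃ i, ¬ Lifts (del (A i) 1) W := by
    by_contra! h
    choose k k1 k2 using h
    refine hn ⟨fun x => ∑ i, k i x + l' x + l x, ((continuousOn_finsetSum _ fun i _ => k1 i).add
      h7.continuous.continuousOn).add h4.continuousOn, fun x hx => ?_⟩
    rw [h5, h8, Circle.exp_add, Circle.exp_add, Finset.prod_apply, Finset.prod_congr rfl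
      fun i _ => k2 i x hx]
    congr 2
    exact (map_sum Circle.expHom _ _).symm
  exact handle ho hW (h6 i).1 (h6 i).2 ((Hd34.delStmt R (A i) 1 (h6 i).1 one_pos).2.2.2.2.2 W hW hc
    ((image_subset_range _ _).trans (h6 i).2) hi)

/-- the part of FOOT that is used -/
def Foot : Prop := ∀ (Y : CM 3) (R : CM 2) (o : Fm 3 Y) (v : Vf Y) (Φ : Y → Circle) (M : Set Y)
  (oR : Fm 2 R) (b : R × ℝ → Y), Bas o v Φ M → Bx o v Φ oR b → Nonempty R →
  ∃ F f π, Ft v Φ M b 1 F f π

theorem cay_one : cay 1 = Circle.exp (-(Real.pi / 2)) :=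
  Circle.exp_eq_exp.2 ⟨1, by rw [Real.arctan_one]; push_cast; ring⟩

/-- **GENUS** -/
theorem genus (hX : BoxStmt) (hF : Foot) : GenusStmt := by
  classical
  intro Y o v Φ M V w L hB hC
  have hv := hB.smv
  have hΦ := hB.smΦ
  obtain ⟨N, hN, hVN⟩ := hC.op
  have hV : V ⊆ PP Φ M := hVN ▸ inter_subset_left
  obtain ⟨R, oR, b, hb⟩ := hX Y o v Φ hB.ori hv hΦ fun y h => hB.pos y fun h' => h (hB.one y h')
  have hpi := Real.pi_gt_three
  have hR : Nonempty R := by
    obtain ⟨y, hy⟩ : V.Nonempty := nonempty_iff_ne_empty.2 fun h => hC.nl (by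
      rw [h]; exact ⟨fun _ => 0, continuousOn_const, fun _ h => h.elim⟩)
    have h1 : |(1 : ℝ)| < 2 * Real.pi := by rw [abs_one]; linarith
    obtain ⟨t, ht⟩ := ag_surj hB (hV hy) h1
    obtain ⟨p, -⟩ : fl v t y ∈ range b := by
      rw [hb.rg, mem_ofPred_eq, phi_fl hv hΦ, (hV hy).1, one_mul, ht]
      exact exp_ne one_ne_zero h1
    exact ⟨p.1⟩
  obtain ⟨F, f, π, H⟩ := hF Y R o v Φ M oR b hB hb hR
  have hPc : PP Φ M ⊆ col v Φ (PP Φ M) := fun y hy => ⟨0, by rwa [Flo26.fl_zero hv], fun t ht => by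
    rw [uIcc_self, mem_singleton_iff] at ht
    rw [ht, Flo26.fl_zero hv, hy.1]; norm_num⟩
  have hfc : ContinuousOn f V := H.sm.continuousOn.mono (hV.trans hPc)
  set W := F ∩ π ⁻¹' N with hWd
  have hW : IsOpen W := H.cont.isOpen_inter_preimage H.op hN
  have hπ : MapsTo π W V := fun x hx => hVN ▸ ⟨H.maps' hx.1, hx.2⟩
  have hf : MapsTo f V W := fun y hy => ⟨H.maps (hPc (hV hy)), by
    rw [mem_preimage, H.right y (hV hy)]; exact (hVN ▸ hy : y ∈ PP Φ M ∩ N).2⟩
  have hWc : IsPreconnected W := by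
    rw [show W = f '' V from Subset.antisymm (fun x hx => ⟨_, hπ hx, H.left x hx.1⟩) hf.image_subset]
    exact hC.conn.image f hfc
  have hL : IsClosed (f '' L) := (hC.cpt.image_of_continuousOn (hfc.mono hC.sub)).isClosed
  have hLW : f '' L ⊆ W := (hf.mono_left hC.sub).image_subset
  set w' : R → Circle := fun x => if x ∈ W then w (π x) else 1 with hw'
  have h1 : ∀ x ∉ f '' L, w' x = 1 := fun x hx => by
    simp only [hw']
    split_ifs with h
    exacts [hC.off _ (hπ h) fun h' => hx ⟨_, h', H.left x h.1⟩, rfl]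
  have h2 : Continuous w' := continuous_iff_continuousAt.2 fun x => by
    by_cases h : x ∈ W
    · exact ((hC.cont.comp (H.cont.mono inter_subset_left) hπ).continuousAt (hW.mem_nhds h)).congr
        ((hW.eventually_mem h).mono fun y hy => (if_pos hy).symm)
    · exact (continuousAt_const (y := (1 : Circle))).congr ((hL.isOpen_compl.eventually_mem
        fun h' => h (hLW h')).mono fun y hy => (h1 y hy).symm)
  obtain ⟨e, δ, he, heW⟩ := handle_of hb.ori h2 hL hW hWc hLW h1 fun ⟨l, l1, l2⟩ =>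
    hC.nl ⟨l ∘ f, l1.comp hfc hf, fun y hy => by
      rw [comp_apply, ← l2 _ (hf hy)]
      simp only [hw']
      rw [if_pos (hf hy), H.right y (hV hy)]⟩
  refine ⟨δ, col_of hB hV hC.ret he.pos he.lt (P := fun z => b (e z, 1)) (c := -(Real.pi / 2))
    (fun z hz => ?_) (fun z => (hb.ang _).trans cay_one) (cay_one ▸ cay_ne_one 1)
    (fun z hz w hw => by rw [hb.box.inj.eq_iff, ← he.eq z hz w hw]; simp) fun z _ => ?_⟩
  · have hQ : IsLocalDiffeomorphAt ICR (𝓡 3) ∞ (b ∘ Prod.map e id) (z, 1) :=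
      ld_comp (hb.box.loc _) (ld_prodMap (he.ld z hz) (ld_id 1))
    refine ⟨hQ.contMDiffAt.comp (f := fun z : ℂ => (z, (1 : ℝ))) z
      (contMDiffAt_id.prodMk contMDiffAt_const), (injective_iff_map_eq_zero _).2 fun ζ h => ?_⟩
    have h3 := mf_prod (hQ.mdifferentiableAt (by simp)) ζ 0
    rw [map_zero, add_zero] at h3
    exact congrArg Prod.fst ((injective_iff_map_eq_zero _).1 (mf_inj hQ) _ (h3.trans h))
  · have h3 := (H.mem (e z) 1 (by norm_num)).2 (heW z).1
    obtain ⟨T, h4, h5⟩ := id h3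
    have h6 := (H.flow _ h3 T h5).2
    rw [H.box _ 1 (by norm_num)] at h6
    refine ⟨T, by rw [← H.right _ h4, h6]; exact hπ (heW z), ?_⟩
    set a : ℝ → ℝ := fun t => -(Real.pi / 2) + ag Φ v (b (e z, 1)) t with ha
    have h7 : ∀ t, Φ (fl v t (b (e z, 1))) = Circle.exp (a t) := fun t => by
      rw [phi_fl hv hΦ, hb.ang, cay_one, ← Circle.exp_add]
    have h8 := intermediate_value_uIcc (a := 0) (b := T) (f := a) fun t _ =>
      ((hasDerivAt_ag hv hΦ _ t).const_add _).continuousAt.continuousWithinAt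
    have h9 : a 0 = -(Real.pi / 2) := by simp [ha, ag_zero]
    change a T = 0
    by_contra h
    refine exp_ne h (not_le.1 fun h' => ?_) ((h7 T).symm.trans h4.1)
    rcases le_abs.1 h' with h' | h'
    · obtain ⟨t, ht, e⟩ := h8 (show Real.pi ∈ uIcc (a 0) (a T) from
        mem_uIcc_of_le (by linarith) (by linarith))
      exact h5 t ht (by rw [h7, e]; simp)
    · obtain ⟨t, ht, e⟩ := h8 (show -Real.pi ∈ uIcc (a 0) (a T) from
        mem_uIcc_of_ge (by linarith) (by linarith))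
      exact h5 t ht (by rw [h7, e]; simp)

end Crest.Agent.X212.Lad50.Gn
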