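import Crest.Agent.X212.Lad50.Lad
import Crest.Agent.X212.Lad50.PL
import Crest.Agent.X212.Prd34.Defs

/-!
# Row 212, layer T, LAD (5): the ladder lemmas in the vocabulary of `Prd34.Defs`
-/

open Set Filter Topology Metric

namespace Crest.Agent.X212.Lad50

open Crest.Agent.R096.Ce_537 Prd34

lemma slab_eq (K : Finset (Fin 3)) : Prd34.slab K = Lad50.slab K := rfl

lemma core_eq (K : Finset (Fin 3)) : Prd34.core K = Lad50.core K := rfl

lemma mem_lat_iff {J : Finset (Fin 3)} {l : V} : l ∈ Prd34.lat J ↔ l ∈ Lad50.lat J 1 := by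
  simp [Prd34.lat, mem_lat]

lemma openH_of_isOpenMap {Z : Type*} [TopologicalSpace Z] {K J : Finset (Fin 3)} {H : V → Z}
    (hKJ : Disjoint K J) (ho : IsOpenMap H) (fib : ∀ x y, H x = H y → x - y ∈ Prd34.lat J) :
    ∀ x ∈ Lad50.slab K, 𝓝[H '' Lad50.slab K] (H x) ≤ map H (𝓝[Lad50.slab K] x) := by
  intro x _ N hN
  rw [mem_map, mem_nhdsWithin] at hN
  obtain ⟨O, hO, hxO, hON⟩ := hN
  filter_upwards [mem_nhdsWithin_of_mem_nhds ((ho O hO).mem_nhds ⟨x, hxO, rfl⟩),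
    self_mem_nhdsWithin] with w hw1 hw2
  obtain ⟨a, ha, rfl⟩ := hw1
  obtain ⟨b, hb, e⟩ := hw2
  have h1 := add_mem_slab hKJ hb (mem_lat_iff.1 (fib a b e.symm))
  rw [add_sub_cancel] at h1
  exact hON ⟨ha, h1⟩

/-- a ladder over a `Per` map -/
lemma ladder_of_per {K J : Finset (Fin 3)} {G H : V → V} {C : ℝ} (hKJ : Disjoint K J)
    (hH : Per J H) (cG : ContinuousOn G (Prd34.slab K))
    (fG : ∀ x ∈ Prd34.slab K, ∀ y ∈ Prd34.slab K, G x = G y ↔ x - y ∈ Prd34.lat J)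
    (img : G '' Prd34.slab K = H '' Prd34.slab K)
    (vert : ∀ x ∈ Prd34.slab K, ∀ y ∈ Prd34.slab K, G x = H y → |x 2 - y 2| ≤ C)
    (hKJ2 : ∀ i, i ∉ J → i ∈ K ∨ i = 2)
    (bd : ∀ x ∈ Prd34.slab K, x ∈ out K → G x = H x) : Ladder K J 1 (max C 2) 1 G H where
  contH := hH.cont.continuousOn
  contG := cG
  fibH := fun x _ y _ => (hH.fib x y).trans mem_lat_iff
  fibG := fun x hx y hy => (fG x hx y hy).trans mem_lat_iff
  openH := openH_of_isOpenMap hKJ hH.opn fun x y h => (hH.fib x y).1 h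
  img := img
  vert := fun x hx y hy h i hi => by
    rcases hKJ2 i hi with hK | rfl
    · have h1 := hx i hK
      have h2 := hy i hK
      exact le_max_of_le_right ((abs_sub _ _).trans (by linarith))
    · exact le_max_of_le_left (vert x hx y hy h)
  bdry := bd

/-- **Ladder lemma, `k ≥ 1`, global form.** `G` is given on all of `V`, equal to `H` on `out K`;
then `H ∘ ψ = G` on the whole ball. -/
theorem lad_per {K J : Finset (Fin 3)} {G H : V → V} {C : ℝ} (hKJ : Disjoint K J)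
    (hK : K.Nonempty) (hH : Per J H) (cG : ContinuousOn G (Prd34.slab K))
    (fG : ∀ x ∈ Prd34.slab K, ∀ y ∈ Prd34.slab K, G x = G y ↔ x - y ∈ Prd34.lat J)
    (img : G '' Prd34.slab K = H '' Prd34.slab K)
    (vert : ∀ x ∈ Prd34.slab K, ∀ y ∈ Prd34.slab K, G x = H y → |x 2 - y 2| ≤ C)
    (hKJ2 : ∀ i, i ∉ J → i ∈ K ∨ i = 2) (bd : ∀ x ∈ out K, G x = H x)
    (hcore : ∀ x ∈ Prd34.core K, ∃ y ∈ Prd34.slab K, (∀ j ∈ J, |y j| < 1 / 2) ∧ G x = H y)
    (R : ℝ) :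
    ∃ ψ : V ≃ₜ V, (∀ x, ‖x‖ ≤ R → H (ψ x) = G x) ∧ (∃ R', ∀ x, R' ≤ ‖x‖ → ψ x = x) ∧
      (∀ x ∈ out K, ψ x = x) ∧
      ∀ x ∈ Prd34.core K, ∀ y ∈ Prd34.slab K, (∀ j ∈ J, |y j| < 1 / 2) → G x = H y → ψ x = y := by
  obtain ⟨ψ, h1, h2, h3, h4⟩ := lad one_pos hKJ hK le_rfl
    (ladder_of_per hKJ hH cG fG img vert hKJ2 fun x _ hx => bd x hx) hcore R
  refine ⟨ψ, fun x hx => ?_, h2, h3, h4⟩
  by_cases h : x ∈ Lad50.slab K
  · exact (h1 x h hx).2
  · have h5 : x ∈ out K := by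
      simp only [Lad50.slab, mem_ofPred_eq, not_forall, not_le] at h
      obtain ⟨i, hi, h⟩ := h
      exact ⟨i, hi, h.le⟩
    rw [h3 x h5, bd x h5]

/-- the last step of handle straightening: if `h = H` near `ψ x` and `H ∘ ψ = G` on a ball with
`G` locally PL, then `h ∘ ψ` is locally PL at `x` -/
lemma locPL_finish {G H h ψ : V → V} {A : Set V} {R : ℝ} (hψ : Continuous ψ)
    (hG : LocPL G A) (hA : ∀ x ∈ A, ‖x‖ < R) (e : ∀ x, ‖x‖ ≤ R → H (ψ x) = G x)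
    (hh : ∀ x ∈ A, h =ᶠ[𝓝 (ψ x)] H) : LocPL (fun x => h (ψ x)) A := by
  refine locPL_congr hG fun x hx => ?_
  filter_upwards [hψ.continuousAt (hh x hx),
    continuous_norm.continuousAt (Iio_mem_nhds (hA x hx))] with z h1 h2
  exact (show h (ψ z) = H (ψ z) from h1).trans (e z (le_of_lt h2))

end Crest.Agent.X212.Lad50
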