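import Crest.Agent.X212.Lad50.Gn
import Crest.Agent.X212.Grp76.Gm
import Crest.Agent.X212.Mod61.Eq

/-! Row 212, leaf TOP-GA: the gauge action near the identity in the coordinates of `Top68`. -/

set_option autoImplicit false
set_option linter.unusedSectionVars false
noncomputable section
open scoped Manifold ContDiff Topology InnerProductSpace
open MeasureTheory Set Function Filter

namespace Crest.Agent.X212.Lad50.Tq
open An An.Pre Sob92 Map77 Top68 Prm93
open Mod61 (Ref Pnt)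
open Grp76 (gaM gmA hy1 GA)

section abs
variable {R B S C L X P : Type} [NormedAddCommGroup R] [NormedSpace ℝ R] [CompleteSpace R]
  [NormedAddCommGroup B] [NormedSpace ℝ B] [NormedAddCommGroup S] [NormedSpace ℝ S]
  [NormedAddCommGroup C] [NormedSpace ℝ C] [NormedAddCommGroup L] [NormedSpace ℝ L]
  [NormedAddCommGroup X] [NormedSpace ℝ X] [NormedAddCommGroup P] [NormedSpace ℝ P]
  (D : GA R B S C L) (e : X × P →L[ℝ] C) (π : C →L[ℝ] X × P)

theorem cont_d : Continuous D.d :=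
  continuous_const.clm_comp ((continuous_const.clm_comp
    (D.continuous_T.comp (continuous_id.prodMk continuous_id))).clm_comp continuous_const)

theorem cont_dd : Continuous fun w => ContinuousLinearMap.fst ℝ X P ∘L π ∘L D.d (e w) :=
  continuous_const.clm_comp (continuous_const.clm_comp ((cont_d D).comp e.continuous))

theorem strict (h : ∀ w, π (e w) = w) (hz : ∀ v ξ, (π (D.d v ξ)).2 = 0) (w : X × P) :
    HasStrictFDerivAt (fun q : L × X × P => π (D.e q.1 • e q.2))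
      ((ContinuousLinearMap.inl ℝ X P ∘L (ContinuousLinearMap.fst ℝ X P ∘L π ∘L D.d (e w))).coprod
        (ContinuousLinearMap.id ℝ _)) (0, w) := by
  have h1 := HasStrictFDerivAt.comp (g := fun q : L × C => D.e q.1 • q.2)
    (f := (ContinuousLinearMap.id ℝ L).prodMap e) ((0, w) : L × X × P) (D.hasStrict_act (e w))
    (ContinuousLinearMap.hasStrictFDerivAt _)
  refine (π.hasStrictFDerivAt.comp _ h1).congr_fderiv (ContinuousLinearMap.ext fun q => ?_)
  show π (D.d (e w) q.1 + e q.2) = ((π (D.d (e w) q.1)).1, 0) + q.2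
  rw [map_add, h, ← hz (e w) q.1]

end abs

variable {E : Type} [NormedAddCommGroup E] [NormedSpace ℝ E] [FiniteDimensional ℝ E]
  [MeasurableSpace E] [BorelSpace E]
  {HM : Type} [TopologicalSpace HM] {I : ModelWithCorners ℝ E HM} [I.Boundaryless]
  {M : Type} [TopologicalSpace M] [ChartedSpace HM M] [IsManifold I ∞ M]
  [MeasurableSpace M] [T2Space M] [BorelSpace M] [SecondCountableTopology M]
  {ι : Type} [Fintype ι] {lam : Type} [Fintype lam] {r n k : ℕ}
  {B : Base M ι lam} {G : Geo I M ι lam} [CompactSpace M]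
  {c : Cfg M ι lam 0} (h : Eqv71.Ad0 c B G)

variable (r k) in
/-- coordinates -/
def prj : (rf h).C r k →L[ℝ] XH G.F (bd (rf h)) k × Pz r :=
  jn _ _ (iH1 G.F.toPre (k + 1) (rf h).P1 (rf h).Pp) (iH2 G.F.toPre (k + 1) (rf h).P1 (rf h).Pp)

theorem prj_emb (w : XH G.F (bd (rf h)) k × Pz r) : prj r k h (emb r k h w) = w :=
  Prod.ext (iH_add w.1) rfl

theorem emb_prj {v : (rf h).C r k} (hv : v.2.2.2 = 0) : emb r k h (prj r k h v) = v := by
  refine (spl_apply _ _ _).trans (Prod.ext ?_ (Prod.ext ?_ (Prod.ext rfl hv.symm)))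
  · show fH _ _ _ _ (iH1 _ _ _ _ v.1 + iH2 _ _ _ _ v.2.1) = _
    rw [map_add, fH_iH1, fH_iH2, add_zero]
  · show sH _ _ _ _ (iH1 _ _ _ _ v.1 + iH2 _ _ _ _ v.2.1) = _
    rw [map_add, sH_iH1, sH_iH2, zero_add]

variable (H : (fm B G).OK) (hk : 7 ≤ k)
include H hk

theorem val_prj (v : (rf h).C r k) (x : M) : G.F.val _ _ (prj r k h v).1 x =
    i1 _ _ (G.F.val _ _ v.1 x) + i2 _ _ (G.F.val _ _ v.2.1 x) :=
  val_jn (sup0 H) (by omega) _ _ x

theorem sm_pt (y : Pnt (rf h) r) : ∃ v : Sec I (bd (rf h)).pC,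
    (prj r k h (y.pt k)).1 = G.F.toH _ _ v := by
  have e : G.F.val _ _ (prj r k h (y.pt k)).1 = fun x => i1 _ _ (y.α x) + i2 _ _ (y.φ x) :=
    funext fun x => (val_prj h H hk _ x).trans (congrArg₂ (· + ·)
      (congrArg _ (congrFun (Mod61.val_ofV y.hα (by omega : 4 ≤ k + 1)) x))
      (congrArg _ (congrFun (Mod61.val_ofV y.hφ (by omega : 4 ≤ k + 1)) x)))
  let v : Sec I (bd (rf h)).pC := ⟨_, e ▸ (Cb_add (Cb_clm _ (cb_hs (sup0 H) y.hα))
    (Cb_clm _ (cb_hs (sup0 H) y.hφ))).choose_spec.1, HasCompactSupport.of_compactSpace _,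
    val_proj (sup0 H) (by omega : 4 ≤ k + 1) (prj r k h (y.pt k)).1⟩
  exact ⟨v, val_injective (sup0 H) (by omega : 4 ≤ k + 1)
    (val_toH (sup0 H) (by omega : 4 ≤ k + 1) v).symm⟩

theorem smul_z (g : (gaM (rf h) H hk r).Gr) (w : XH G.F (bd (rf h)) k × Pz r) :
    (g • emb r k h w).2.2 = (w.2, 0) := (hy1 (rf h) H hk).smul_z g _

theorem ce (g : (gaM (rf h) H hk r).Gr) (v v' : Sec I (bd (rf h)).pC) (p : Pz r)
    (e : (prj r k h (g • emb r k h (G.F.toH _ _ v, p))).1 = G.F.toH _ _ v') :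
    ∃ u, Ce B G.F (cv c v.1 p) (cv c v'.1 p) u 1 := by
  have z := smul_z h H hk g (G.F.toH _ _ v, p)
  have e1 : prj r k h (g • emb r k h (G.F.toH _ _ v, p)) = (G.F.toH _ _ v', p) :=
    Prod.ext e (congrArg Prod.fst z)
  have e2 := (emb_prj h (congrArg Prod.snd z)).symm.trans (congrArg (emb r k h) e1)
  rw [emb_toH h H (by omega), emb_toH h H (by omega)] at e2
  have e3 := (gmA (rf h) H hk r).eq_of_smul H (g := g) (by omega) e2
  have key : ∀ W W' : c.m.Cn, W = (cv c v.1 p).W → W' = (cv c v'.1 p).W → ∀ u,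
      Ce B G.F ⟨c.m, W, (cv c v.1 p).Φ, p⟩ ⟨c.m, W', (cv c v'.1 p).Φ, p⟩ u 1 →
      Ce B G.F (cv c v.1 p) (cv c v'.1 p) u 1 := by
    rintro _ _ rfl rfl u a
    exact a
  exact ⟨_, key _ _ (W_eq h H v) (W_eq h H v') _ e3⟩

theorem dd_eq (v : Sec I (bd (rf h)).pC) (p : Pz r) :
    ContinuousLinearMap.fst ℝ _ _ ∘L prj r k h ∘L
      (gaM (rf h) H hk r).d (emb r k h (G.F.toH _ _ v, p)) =
      (bd (rf h)).DD G.F.toPre G.F (k + 1) fun x => base c.W c.Φ x + v.1 x := by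
  have S := sup0 H
  have Y := (adj_closed H).hy (rf h) (t := 0) trivial
  have K := hy1 (rf h) H hk
  have a : G.F.Cb fun x => base c.W c.Φ x + v.1 x := Cb_add (cb_base h) (Cb_of_compact v.2.1)
  refine clm_ext fun ξ => val_injective S (by omega : 4 ≤ k + 1) (funext fun x => ?_)
  have e := congrFun (Y.toTw.val (Y.nc_d0 a) (by omega : 4 ≤ k + 1) (G.F.toH _ _ ξ)) x
  have e1 : G.F.val (k + 2) (rf h).Pg (G.F.toH _ _ ξ) = ξ.1 := val_toH S (by omega) ξ
  refine Eq.trans ?_ (e.trans (congrArg (fun u => G.F.op _ _ u x) e1)).symm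
  rw [← base_cv v.1 p]
  refine Eq.trans ?_ (op_d0 Y _ _ ξ x).symm
  refine (val_proj S (by omega) _ x).symm.trans (congrArg _ ((val_prj h H hk _ x).trans ?_))
  have e2 : G.F.val _ _ (emb r k h (G.F.toH _ _ v, p)).1 = fun x => fa (v.1 x) := by
    rw [emb_toH h H (by omega)]
    exact Mod61.val_ofV (pn h H v p).hα (by omega)
  have e3 : G.F.val _ _ (emb r k h (G.F.toH _ _ v, p)).2.1 = fun x => fp (v.1 x) := by
    rw [emb_toH h H (by omega)]
    exact Mod61.val_ofV (pn h H v p).hφ (by omega)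
  refine congrArg₂ (fun a b => i1 _ _ a + i2 _ _ b) (fm_ext fun a => ?_) ?_
  · refine (K.val_d1 _ _ x a).trans ?_
    rw [e1]
    exact congrArg (fun α : M → Fm ι c.m.A => -Wz78.nab I G.F.e
      (fun a y => adc (c.W a y + opL (α y a))) a ξ.1 x) e2
  · refine (K.val_d2 _ _ x).trans ?_
    rw [e1]
    exact congrArg (opL (ξ.1 x)) (congrArg (c.Φ x + ·) (congrFun e3 x))

theorem d_z (v : (rf h).C r k) (ξ : G.F.H (k + 2) (rf h).Pg) :
    (prj r k h ((gaM (rf h) H hk r).d v ξ)).2 = 0 :=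
  (jn_snd _ _ _).trans (congrArg Prod.fst ((hy1 (rf h) H hk).d_z v ξ))

theorem snd_eq (g : (gaM (rf h) H hk r).Gr) (w : XH G.F (bd (rf h)) k × Pz r) :
    (prj r k h (g • emb r k h w)).2 = w.2 :=
  (jn_snd _ _ _).trans (congrArg Prod.fst (smul_z h H hk g w))

theorem mem_Z (g : (gaM (rf h) H hk r).Gr) (v : Sec I (bd (rf h)).pC) (p : Pz r)
    (Z : Set (XH G.F (bd (rf h)) k × Pz r)) (hZ : IsClosed Z)
    (hm : ∀ (v' : Sec I (bd (rf h)).pC) u, Ce B G.F (cv c v.1 p) (cv c v'.1 p) u 1 →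
      (G.F.toH _ _ v', p) ∈ Z) : prj r k h (g • emb r k h (G.F.toH _ _ v, p)) ∈ Z := by
  have c1 : Continuous fun g : (gaM (rf h) H hk r).Gr =>
      prj r k h (g • emb r k h (G.F.toH _ _ v, p)) :=
    (prj r k h).continuous.comp (continuous_id.smul continuous_const)
  have d : Dense {g : (gaM (rf h) H hk r).Gr | ∃ y : Pnt (rf h) r,
      g • (pn h H v p).pt k = y.pt k} := (gmA (rf h) H hk r).dense (pn h H v p)
  refine closure_minimal (t := {g : (gaM (rf h) H hk r).Gr |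
    prj r k h (g • emb r k h (G.F.toH _ _ v, p)) ∈ Z}) ?_ (hZ.preimage c1) (d g)
  rintro g ⟨y, e⟩
  obtain ⟨v', e1⟩ := sm_pt h H hk y
  have e2 : (prj r k h (g • emb r k h (G.F.toH _ _ v, p))).1 = G.F.toH _ _ v' := by
    rw [emb_toH h H (by omega), e, e1]
  obtain ⟨u, hu⟩ := ce h H hk g v v' p e2
  have e3 : prj r k h (g • emb r k h (G.F.toH _ _ v, p)) = (G.F.toH _ _ v', p) :=
    Prod.ext e2 (snd_eq h H hk g _)
  rw [mem_ofPred_eq, e3]
  exact hm v' u hu

theorem act_zero (w : XH G.F (bd (rf h)) k × Pz r) :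
    prj r k h ((gaM (rf h) H hk r).e 0 • emb r k h w) = w := by
  rw [GA.e_zero, one_smul, prj_emb]

theorem ga : GaQ B G c (bd (rf h)) r k :=
  ⟨fun q => prj r k h ((gaM (rf h) H hk r).e q.1 • emb r k h q.2),
    fun w => ContinuousLinearMap.fst ℝ _ _ ∘L prj r k h ∘L (gaM (rf h) H hk r).d (emb r k h w),
    cont_dd (gaM (rf h) H hk r) (emb r k h) (prj r k h), dd_eq h H hk, act_zero h H hk,
    fun q => snd_eq h H hk _ q.2,
    strict (gaM (rf h) H hk r) (emb r k h) (prj r k h) (prj_emb h) (d_z h H hk),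
    fun η => ce h H hk ((gaM (rf h) H hk r).e η), fun η => mem_Z h H hk ((gaM (rf h) H hk r).e η)⟩

omit H hk in
/-- **TOP-GA** -/
theorem gaQ {ξ : M → c.m.A} (h : TP B G c ξ) (r k : ℕ) (hk : 7 ≤ k) :
    GaQ B G c (bdm B c.m) r k :=
  bd_eq (Eqv71.ad0 h.ad) ▸ ga (Eqv71.ad0 h.ad) (fm_ok h.hB h.hG h.tame) hk

end Crest.Agent.X212.Lad50.Tq
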