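import Crest.Agent.X212.Hel40.Bas

/-!
# Row 212, HEL-GENUS (helper50), part A: the column over a handle of the fibre
-/

set_option autoImplicit false
set_option linter.unusedSectionVars false

open Set Filter Topology Function
open scoped ContDiff Manifold
open Crest.Agent.R208.F Crest.Agent.X212.Dr59 Crest.Agent.X212.Int54 Crest.Agent.X212.Cyl58
open Crest.Agent.X212.Sep15 (EE IR CM Box)
open Crest.Agent.X212.Bb31 (Fm)
open Crest.Agent.X212.Flo26 (SmV fl)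
open Crest.Agent.X212.Hel40

noncomputable section

namespace Crest.Agent.X212.Lad50.Gn

variable {Y : CM 3} {R : CM 2} {o : Fm 3 Y} {v : Vf Y} {Φ : Y → Circle} {M : Set Y}

theorem exp_ne {θ : ℝ} (h0 : θ ≠ 0) (h : |θ| < 2 * Real.pi) : Circle.exp θ ≠ 1 := fun e => by
  obtain ⟨n, rfl⟩ := Circle.exp_eq_one.1 e
  rw [abs_mul, abs_of_pos Real.two_pi_pos, mul_lt_iff_lt_one_left Real.two_pi_pos] at h
  have : |n| < 1 := by exact_mod_cast h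
  exact h0 (by simp [Int.abs_lt_one_iff.1 this])

theorem speed (hB : Bas o v Φ M) {α β : ℝ} (h : ∀ θ ∈ Icc α β, Circle.exp θ ≠ 1) :
    ∃ c > (0 : ℝ), ∀ y, Φ y = 1 → ∀ s t, s ≤ t → α ≤ ag Φ v y s → ag Φ v y t ≤ β →
      c * (t - s) ≤ β - α := by
  have hS : IsCompact (Φ ⁻¹' (Circle.exp '' Icc α β)) :=
    ((isCompact_Icc.image Circle.exp.continuous).isClosed.preimage hB.smΦ.continuous).isCompact
  obtain ⟨c, hc, hm⟩ := hS.exists_forall_le' (continuous_rt hB.smv hB.smΦ).continuousOn (a := 0)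
    fun y ⟨θ, h1, h2⟩ => hB.pos y fun hy => h θ h1 (h2.trans (hB.one y hy))
  refine ⟨c, hc, fun y hy s t hst h1 h2 => ?_⟩
  have hd := hasDerivAt_ag hB.smv hB.smΦ y
  have hmo := ag_mono hB.smv hB.smΦ hB.nn y
  have := (convex_Icc s t).mul_sub_le_image_sub_of_le_deriv (f := ag Φ v y) (C := c)
    (fun x _ => (hd x).continuousAt.continuousWithinAt)
    (fun x _ => (hd x).differentiableAt.differentiableWithinAt) (fun x hx => by
      have hx' := interior_subset hx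
      rw [(hd x).deriv]
      exact hm _ ⟨ag Φ v y x, ⟨h1.trans (hmo hx'.1), (hmo hx'.2).trans h2⟩, by
        rw [phi_fl hB.smv hB.smΦ, hy, one_mul]⟩)
    s (left_mem_Icc.2 hst) t (right_mem_Icc.2 hst) hst
  linarith

theorem strict0 (hB : Bas o v Φ M) {y : Y} (hy : y ∈ PP Φ M) :
    (∀ s < 0, ag Φ v y s < 0) ∧ ∀ s > 0, 0 < ag Φ v y s := by
  simpa only [ag_zero] using ag_strict hB.smv hB.smΦ hB.nn (y := y) (t := 0)
    (by rw [Flo26.fl_zero hB.smv]; exact hB.pos y hy.2)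

theorem rt_pos (hB : Bas o v Φ M) {y : Y} (hy : y ∈ PP Φ M) {t : ℝ}
    (h : |ag Φ v y t| < 2 * Real.pi) : 0 < rt Φ v (fl v t y) := by
  refine hB.pos _ fun hm => ?_
  have h1 := hB.one _ hm
  rw [phi_fl hB.smv hB.smΦ, hy.1, one_mul] at h1
  rcases lt_trichotomy t 0 with h2 | rfl | h2
  · exact exp_ne ((strict0 hB hy).1 t h2).ne h h1
  · exact hy.2 (by rwa [Flo26.fl_zero hB.smv] at hm)
  · exact exp_ne ((strict0 hB hy).2 t h2).ne' h h1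

theorem ag_inj (hB : Bas o v Φ M) {y : Y} {s t : ℝ} (h : 0 < rt Φ v (fl v t y))
    (e : ag Φ v y s = ag Φ v y t) : s = t := by
  have := ag_strict hB.smv hB.smΦ hB.nn h
  rcases lt_trichotomy s t with h1 | h1 | h1
  exacts [((this.1 s h1).ne e).elim, h1, ((this.2 s h1).ne' e).elim]

theorem ag_surj (hB : Bas o v Φ M) {y : Y} (hy : y ∈ PP Φ M) {θ : ℝ} (h : |θ| < 2 * Real.pi) :
    ∃ t, ag Φ v y t = θ := by
  have h1 : ∃ t, θ ≤ ag Φ v y t := by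
    by_contra! hn
    have h0 := (strict0 hB hy).2 1 one_pos
    obtain ⟨c, hc, H⟩ := speed hB (α := ag Φ v y 1) (β := θ) fun x hx =>
      exp_ne (h0.trans_le hx.1).ne' (by
        rw [abs_of_pos (h0.trans_le hx.1)]; exact hx.2.trans_lt (lt_of_abs_lt h))
    have h2 : 0 < θ / c := div_pos (h0.trans (hn 1)) hc
    have := H y hy.1 1 (1 + θ / c) (by linarith) le_rfl (hn _).le
    rw [add_sub_cancel_left, mul_div_cancel₀ _ hc.ne'] at this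
    linarith
  have h2 : ∃ t, ag Φ v y t ≤ θ := by
    by_contra! hn
    have h0 := (strict0 hB hy).1 (-1) (by norm_num)
    obtain ⟨c, hc, H⟩ := speed hB (α := θ) (β := ag Φ v y (-1)) fun x hx =>
      exp_ne (hx.2.trans_lt h0).ne (by
        rw [abs_of_neg (hx.2.trans_lt h0)]; linarith [hx.1, neg_lt_of_abs_lt h])
    have h2 : 0 < -θ / c := div_pos (neg_pos.2 ((hn (-1)).trans h0)) hc
    have := H y hy.1 (-1 - -θ / c) (-1) (by linarith) (hn _).le le_rfl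
    rw [sub_sub_cancel, mul_div_cancel₀ _ hc.ne'] at this
    linarith
  obtain ⟨t₁, h1⟩ := h1
  obtain ⟨t₂, h2⟩ := h2
  exact intermediate_value_univ t₂ t₁ (continuous_iff_continuousAt.2 fun t =>
    (hasDerivAt_ag hB.smv hB.smΦ y t).continuousAt) ⟨h2, h1⟩

/-- columns over `V` are embedded -/
theorem col_inj (hB : Bas o v Φ M) {V : Set Y} (hV : V ⊆ PP Φ M)
    (ret : ∀ y ∈ V, ∀ T > (0 : ℝ), fl v T y ∈ V → ∃ t ∈ Ioo 0 T, Φ (fl v t y) = 1) {y y' : Y}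
    (hy : y ∈ V) (hy' : y' ∈ V) {s s' : ℝ} (e : fl v s y = fl v s' y') (h : |ag Φ v y s| < 4)
    (h' : |ag Φ v y' s'| < 4) : y = y' ∧ s = s' := by
  wlog hs : s' ≤ s generalizing y y' s s'
  · exact (this hy' hy e.symm h' h (le_of_not_ge hs)).imp Eq.symm Eq.symm
  have e1 : fl v (s - s') y = y' := by
    rw [sub_eq_neg_add, fl_add hB.smv, e, ← fl_add hB.smv, neg_add_cancel, Flo26.fl_zero hB.smv]
  rcases hs.eq_or_lt with rfl | hs
  · exact ⟨by rwa [sub_self, Flo26.fl_zero hB.smv] at e1, rfl⟩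
  exfalso
  have e2 := ag_add hB.smv hB.smΦ y s' (s - s')
  rw [add_sub_cancel, e1] at e2
  obtain ⟨t, ht, h1⟩ := ret y hy _ (sub_pos.2 hs) (e1 ▸ hy')
  have h2 := (hV hy').1
  rw [← e1] at h2
  rw [phi_fl hB.smv hB.smΦ, (hV hy).1, one_mul, Circle.exp_eq_one] at h1 h2
  obtain ⟨m, hm⟩ := h1
  obtain ⟨n, hn⟩ := h2
  have h3 := (strict0 hB (hV hy)).2 t ht.1
  have h4 := (ag_strict hB.smv hB.smΦ hB.nn (y := y) (t := s - s')
    (by rw [e1]; exact hB.pos _ (hV hy').2)).1 t ht.2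
  rw [hm] at h3
  rw [hm, hn] at h4
  have h5 : (0 : ℤ) < m := by exact_mod_cast (pos_iff_pos_of_mul_pos h3).2 Real.two_pi_pos
  have h6 : m < n := by exact_mod_cast lt_of_mul_lt_mul_right h4 Real.two_pi_pos.le
  have h7 : (2 : ℝ) ≤ n := by exact_mod_cast (show (2 : ℤ) ≤ n by omega)
  nlinarith [Real.pi_gt_three, abs_lt.1 h, abs_lt.1 h']

theorem mf_prod {E' H' N : Type*} [NormedAddCommGroup E'] [NormedSpace ℝ E'] [TopologicalSpace H']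
    {J : ModelWithCorners ℝ E' H'} [TopologicalSpace N] [ChartedSpace H' N] {f : ℂ × ℝ → N}
    {p : ℂ × ℝ} (hf : MDifferentiableAt ICR J f p) (ζ : ℂ) (σ : ℝ) :
    mf ICR J f p (ζ, σ) = mf 𝓘(ℝ, ℂ) J (fun z => f (z, p.2)) p.1 ζ +
      mf 𝓘(ℝ, ℝ) J (fun s => f (p.1, s)) p.2 σ := mfderiv_prod_eq_add_apply hf

theorem mf_inj {E₁ H₁ M₁ E' H' N : Type*} [NormedAddCommGroup E₁] [NormedSpace ℝ E₁]
    [TopologicalSpace H₁] {I : ModelWithCorners ℝ E₁ H₁} [TopologicalSpace M₁] [ChartedSpace H₁ M₁]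
    [NormedAddCommGroup E'] [NormedSpace ℝ E'] [TopologicalSpace H']
    {J : ModelWithCorners ℝ E' H'} [TopologicalSpace N] [ChartedSpace H' N] {f : M₁ → N} {x : M₁}
    (h : IsLocalDiffeomorphAt I J ∞ f x) : Injective (mf I J f x) :=
  (h.mfderivToContinuousLinearEquiv (by simp)).injective

/-- the field as a vector of the model -/
def ve (v : Vf Y) (y : Y) : EE 3 := v y

theorem isOpen_Xo (δ : ℝ) : IsOpen (Xo δ) := by
  simp only [Xo, ofPred_or, ofPred_exists]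
  exact (isOpen_iUnion fun n => isOpen_lt (by fun_prop) continuous_const).union
    (isOpen_iUnion fun n => isOpen_lt (by fun_prop) continuous_const)

/-- the column over a transversal -/
theorem col_of (hB : Bas o v Φ M) {V : Set Y} (hV : V ⊆ PP Φ M)
    (ret : ∀ y ∈ V, ∀ T > (0 : ℝ), fl v T y ∈ V → ∃ t ∈ Ioo 0 T, Φ (fl v t y) = 1)
    {δ c : ℝ} (h0 : 0 < δ) (h1 : δ < 1 / 2) {P : ℂ → Y}
    (hs : ∀ z ∈ Xo δ, ContMDiffAt 𝓘(ℝ, ℂ) (𝓡 3) ∞ P z ∧ Injective (mf 𝓘(ℝ, ℂ) (𝓡 3) P z))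
    (hc : ∀ z, Φ (P z) = Circle.exp c) (hc' : Circle.exp c ≠ 1)
    (hP : ∀ z ∈ Xo δ, ∀ w ∈ Xo δ, P z = P w ↔ Lat z w)
    (hT : ∀ z ∈ Xo δ, ∃ T, fl v T (P z) ∈ V ∧ c + ag Φ v (P z) T = 0) :
    ∃ E, Col v Φ δ 4 E ∧ ∀ z ∈ Xo δ, E (z, 0) ∈ PP Φ M := by
  have hv := hB.smv
  have hΦ := hB.smΦ
  have h4 : ∀ {θ : ℝ}, |θ| < 4 → |θ| < 2 * Real.pi := fun h => by linarith [Real.pi_gt_three]
  set a : ℂ × ℝ → ℝ := fun p => c + ag Φ v (P p.1) p.2 with ha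
  set Ψ : ℂ × ℝ → Y := fun p => fl v p.2 (P p.1) with hΨ
  set τ : ℂ × ℝ → ℝ := fun p => invFun (fun t => c + ag Φ v (P p.1) t) p.2 with hτ
  have eΦ : ∀ p, Φ (Ψ p) = Circle.exp (a p) := fun p => by
    simp only [hΨ, ha]; rw [phi_fl hv hΦ, hc, Circle.exp_add]
  choose! T hT1 hT2 using hT
  have e1 : ∀ z t, Ψ (z, t) = fl v (t - T z) (fl v (T z) (P z)) := fun z t => by
    rw [← fl_add hv, sub_add_cancel]
  have e2 : ∀ z ∈ Xo δ, ∀ t, a (z, t) = ag Φ v (fl v (T z) (P z)) (t - T z) := fun z hz t => by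
    have := ag_add hv hΦ (P z) (t - T z) (T z)
    rw [sub_add_cancel] at this
    simp only [ha]
    linarith [hT2 z hz]
  have pos : ∀ p : ℂ × ℝ, p.1 ∈ Xo δ → |a p| < 4 → 0 < rt Φ v (Ψ p) := fun p hp h => by
    rw [e1]; exact rt_pos hB (hV (hT1 _ hp)) (h4 (e2 _ hp _ ▸ h))
  have eτ : ∀ p : ℂ × ℝ, p.1 ∈ Xo δ → |p.2| < 4 → a (p.1, τ p) = p.2 := fun p hp h => by
    obtain ⟨t, ht⟩ := ag_surj hB (hV (hT1 _ hp)) (h4 h)
    exact invFun_eq (f := fun t => c + ag Φ v (P p.1) t) ⟨t + T p.1, by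
      rw [← ht]; simpa using e2 _ hp (t + T p.1)⟩
  have eτ' : ∀ p : ℂ × ℝ, p.1 ∈ Xo δ → |a p| < 4 → τ (p.1, a p) = p.2 := fun p hp h =>
    ag_inj hB (pos p hp h) (add_left_cancel (eτ (p.1, a p) hp h))
  have sΨ : ∀ p : ℂ × ℝ, p.1 ∈ Xo δ → ContMDiffAt ICR (𝓡 3) ∞ Ψ p := fun p hp =>
    ((cpl hv).contMDiff hv (p.2, P p.1)).comp p
      (contMDiffAt_snd.prodMk ((hs _ hp).1.comp p contMDiffAt_fst))
  have ca : ∀ p : ℂ × ℝ, p.1 ∈ Xo δ → ContinuousAt a p := fun p hp =>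
    continuousAt_const.add ((continuous_ag hv hΦ).continuousAt.comp
      (f := fun p : ℂ × ℝ => (P p.1, p.2))
      (((hs _ hp).1.continuousAt.comp continuousAt_fst).prodMk continuousAt_snd))
  have sa : ∀ p : ℂ × ℝ, p.1 ∈ Xo δ → ContMDiffAt ICR 𝓘(ℝ, ℝ) ∞ a p := fun p hp =>
    contMDiffAt_log (ca p hp) (by
      rw [← funext eΦ]; exact (hΦ _).comp p (sΨ p hp))
  have hO : IsOpen (Prod.fst ⁻¹' Xo δ : Set (ℂ × ℝ)) := (isOpen_Xo δ).preimage continuous_fst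
  have dΨ : ∀ p : ℂ × ℝ, p.1 ∈ Xo δ → ∀ ζ σ, mf ICR (𝓡 3) Ψ p (ζ, σ) =
      mf (𝓡 3) (𝓡 3) (fl v p.2) (P p.1) (mf 𝓘(ℝ, ℂ) (𝓡 3) P p.1 ζ) + σ • ve v (Ψ p) := by
    intro p hp ζ σ
    rw [mf_prod ((sΨ p hp).mdifferentiableAt (by simp)),
      mf_of_has (Flo26.hasMFDerivAt_fl hv (cpl hv (p.2, P p.1)))]
    congr 1
    exact DFunLike.congr_fun (mf_comp ((Flo26.ld_fl hv (cpl hv (p.2, P p.1))).mdifferentiableAt
      (by simp)) ((hs _ hp).1.mdifferentiableAt (by simp))) ζ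
  have lΨ : ∀ p : ℂ × ℝ, p.1 ∈ Xo δ → IsLocalDiffeomorphAt ICR (𝓡 3) ∞ Ψ p := fun p hp => by
    refine Glue52.ld_of_injective_mfderiv (by simp) hO hp
      (fun q hq => (sΨ q hq).contMDiffWithinAt) ((injective_iff_map_eq_zero (mf ICR (𝓡 3) Ψ p)).2 ?_)
    rintro ⟨ζ, σ⟩ h
    have h2 : mf (𝓡 3) (𝓡 3) (fl v p.2) (P p.1) (ve v (P p.1)) = ve v (Ψ p) :=
      Flo26.mfderiv_fl hv (cpl hv (p.2, P p.1))
    rw [dΨ p hp, ← h2, ← map_smul, ← map_add] at h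
    have h3 := (injective_iff_map_eq_zero _).1 (mf_inj (Flo26.ld_fl hv (cpl hv (p.2, P p.1)))) _ h
    have h5 := congrArg (dl (𝓡 3) Φ (P p.1)) h3
    rw [map_add, map_smul, map_zero, ← dl_comp (hΦ _) ((hs _ hp).1.mdifferentiableAt (by simp)),
      dl_of_const (g := Φ ∘ P) (c := Circle.exp c) (Eventually.of_forall hc), LinearMap.zero_apply, zero_add] at h5
    have h6 : 0 < rt Φ v (P p.1) := hB.pos _ fun hm => hc' ((hc _).symm.trans (hB.one _ hm))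
    obtain rfl : σ = 0 := (mul_eq_zero.1 h5).resolve_right h6.ne'
    rw [zero_smul, add_zero] at h3
    rw [(injective_iff_map_eq_zero _).1 (hs _ hp).2 _ h3]
    rfl
  set Θ : ℂ × ℝ → ℂ × ℝ := fun p => (p.1, a p) with hΘ
  have sΘ : ∀ p : ℂ × ℝ, p.1 ∈ Xo δ → ContMDiffAt ICR ICR ∞ Θ p := fun p hp =>
    contMDiffAt_fst.prodMk (sa p hp)
  have dΘ : ∀ p : ℂ × ℝ, p.1 ∈ Xo δ → ∀ ζ σ, mf ICR ICR Θ p (ζ, σ) =
      (ζ, mf 𝓘(ℝ, ℂ) 𝓘(ℝ, ℝ) (fun z => a (z, p.2)) p.1 ζ + σ * rt Φ v (Ψ p)) := by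
    intro p hp ζ σ
    have h2 : mf 𝓘(ℝ, ℝ) 𝓘(ℝ, ℝ) (fun s => a (p.1, s)) p.2 σ = σ * rt Φ v (Ψ p) := by
      rw [mf_eq_fderiv, ((hasDerivAt_ag hv hΦ (P p.1) p.2).const_add c).hasFDerivAt.fderiv]
      simp [hΨ]
    rw [hΘ, mf_prodMk mdifferentiableAt_fst ((sa p hp).mdifferentiableAt (by simp)),
      ContinuousLinearMap.prod_apply, mf_prod ((sa p hp).mdifferentiableAt (by simp)), h2, mf_fst]
    rfl
  have lΘ : ∀ p : ℂ × ℝ, p.1 ∈ Xo δ → |a p| < 4 → IsLocalDiffeomorphAt ICR ICR ∞ Θ p :=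
    fun p hp h => by
      refine Glue52.ld_of_injective_mfderiv rfl hO hp
        (fun q hq => (sΘ q hq).contMDiffWithinAt) ((injective_iff_map_eq_zero (mf ICR ICR Θ p)).2 ?_)
      rintro ⟨ζ, σ⟩ h2
      rw [dΘ p hp, Prod.mk_eq_zero] at h2
      obtain ⟨rfl, h2⟩ := h2
      rw [map_zero, zero_add] at h2
      rw [(mul_eq_zero.1 h2).resolve_right (pos p hp h).ne']
      rfl
  set E : ℂ × ℝ → Y := fun p => Ψ (p.1, τ p) with hE
  have eE : ∀ p : ℂ × ℝ, p.1 ∈ Xo δ → |a p| < 4 → E ∘ Θ =ᶠ[𝓝 p] Ψ := fun p hp h => by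
    filter_upwards [hO.mem_nhds hp, (ca p hp).abs.eventually_lt_const h] with q h2 h3
    simp only [comp_apply, hE, hΘ, eτ' q h2 h3]
  have lE : ∀ p : ℂ × ℝ, p.1 ∈ Xo δ → |a p| < 4 → IsLocalDiffeomorphAt ICR (𝓡 3) ∞ E (Θ p) :=
    fun p hp h => ld_of_comp (lΘ p hp h) (ld_congr (lΨ p hp) (eE p hp h))
  have eΘ : ∀ p : ℂ × ℝ, p.1 ∈ Xo δ → |p.2| < 4 → Θ (p.1, τ p) = p := fun p hp h =>
    Prod.ext rfl (eτ p hp h)
  refine ⟨E, ⟨h0, h1, fun p hp h => ?_, fun p q hp h hq h' => ⟨fun e => ?_, fun e => ?_⟩,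
    fun p hp h => by rw [hE, eΦ, eτ p hp h], fun p hp h => ?_⟩, fun z hz => ?_⟩
  · exact eΘ p hp h ▸ lE (p.1, τ p) hp (by rwa [eτ p hp h])
  · have h2 := eτ p hp h
    have h3 := eτ q hq h'
    rw [e2 _ hp] at h2
    rw [e2 _ hq] at h3
    simp only [hE, e1] at e
    obtain ⟨h5, h6⟩ := col_inj hB hV ret (hT1 _ hp) (hT1 _ hq) e (h2 ▸ h) (h3 ▸ h')
    refine ⟨by rw [← h2, ← h3, h5, h6], (hP _ hp _ hq).1 ?_⟩
    have h7 : ∀ z ∈ Xo δ, ag Φ v (fl v (T z) (P z)) (-T z) = c := fun z hz => by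
      simpa [ha, ag_zero] using (e2 z hz 0).symm
    have h8 : ∀ z, fl v (-T z) (fl v (T z) (P z)) = P z := fun z => by
      rw [← fl_add hv, neg_add_cancel, Flo26.fl_zero hv]
    have h9 : -T q.1 = -T p.1 := ag_inj hB (by
      rw [h8]; exact hB.pos _ fun hm => hc' ((hc _).symm.trans (hB.one _ hm)))
      (by rw [h7 _ hp, h5, h7 _ hq])
    rw [← h8 p.1, ← h8 q.1, h5, h9]
  · simp only [hE, hΨ, hτ, (hP _ hp _ hq).2 e.2, e.1]
  · have h2 : |a (p.1, τ p)| < 4 := by rwa [eτ p hp h]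
    have h3 := pos (p.1, τ p) hp h2
    have h5 := DFunLike.congr_fun ((mf_congr (eE (p.1, τ p) hp h2)).symm.trans
      (mf_comp ((lE (p.1, τ p) hp h2).mdifferentiableAt (by simp))
        ((sΘ (p.1, τ p) hp).mdifferentiableAt (by simp)))) (0, 1)
    rw [ContinuousLinearMap.comp_apply, dΨ (p.1, τ p) hp, dΘ (p.1, τ p) hp, eΘ p hp h] at h5
    simp only [map_zero, zero_add, one_smul, one_mul] at h5
    refine ⟨_, inv_pos.2 h3, ?_⟩
    have h6 : mf ICR (𝓡 3) E p (0, 1) = (rt Φ v (Ψ (p.1, τ p)))⁻¹ • ve v (Ψ (p.1, τ p)) := by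
      rw [h5, ← map_smul]
      simp [h3.ne']
    exact h6
  · have h2 := eτ (z, 0) hz (by norm_num)
    rw [e2 _ hz] at h2
    have h3 := hV (hT1 z hz)
    have h5 := ag_inj hB (t := 0) (by rw [Flo26.fl_zero hv]; exact hB.pos _ h3.2)
      (h2.trans (ag_zero _).symm)
    simp only [hE, e1]
    rwa [h5, Flo26.fl_zero hv]

end Crest.Agent.X212.Lad50.Gn
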