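import Crest.Agent.X212.Top68.Mdl
import Crest.Agent.X212.Mon62.Inst
import Crest.Agent.X212.Map77.Rp

/-! Row 212, leaf TOP-GN: the constant family of a background; the equations are the monopole map
up to a smoothing term. -/

set_option autoImplicit false
set_option linter.unusedSectionVars false
noncomputable section
open scoped Manifold ContDiff Topology InnerProductSpace
open MeasureTheory Set Function Filter

namespace Crest.Agent.X212.Lad50.Tq
open An An.Pre Sob92 Map77 Top68 Prm93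
open Mod61 (Ref Pnt RepF RepE PtX)

variable {E : Type} [NormedAddCommGroup E] [NormedSpace ℝ E] [FiniteDimensional ℝ E]
  [MeasurableSpace E] [BorelSpace E]
  {HM : Type} [TopologicalSpace HM] {I : ModelWithCorners ℝ E HM} [I.Boundaryless]
  {M : Type} [TopologicalSpace M] [ChartedSpace HM M] [IsManifold I ∞ M]
  [MeasurableSpace M] [T2Space M] [BorelSpace M] [SecondCountableTopology M]
  {ι : Type} [Fintype ι] {lam : Type} [Fintype lam] {r n k : ℕ}

section lin
variable {X A B Z T : Type} [NormedAddCommGroup X] [NormedSpace ℝ X] [NormedAddCommGroup A]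
  [NormedSpace ℝ A] [NormedAddCommGroup B] [NormedSpace ℝ B] [NormedAddCommGroup Z]
  [NormedSpace ℝ Z] [NormedAddCommGroup T] [NormedSpace ℝ T]

variable (Z T) in
/-- splitting -/
def spl (f : X →L[ℝ] A) (g : X →L[ℝ] B) : X × Z →L[ℝ] A × B × Z × T :=
  (f ∘L ContinuousLinearMap.fst ℝ X Z).prod ((g ∘L ContinuousLinearMap.fst ℝ X Z).prod
    ((ContinuousLinearMap.snd ℝ X Z).prod 0))

theorem spl_apply (f : X →L[ℝ] A) (g : X →L[ℝ] B) (w : X × Z) :
    spl Z T f g w = (f w.1, g w.1, w.2, 0) := rfl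

variable (Z T) in
/-- joining -/
def jn (f : A →L[ℝ] X) (g : B →L[ℝ] X) : A × B × Z × T →L[ℝ] X × Z :=
  (f.coprod (g ∘L ContinuousLinearMap.fst ℝ B (Z × T))).prod (ContinuousLinearMap.fst ℝ Z T ∘L
    ContinuousLinearMap.snd ℝ B _ ∘L ContinuousLinearMap.snd ℝ A _)

theorem jn_fst (f : A →L[ℝ] X) (g : B →L[ℝ] X) (v : A × B × Z × T) :
    (jn Z T f g v).1 = f v.1 + g v.2.1 := rfl

theorem jn_snd (f : A →L[ℝ] X) (g : B →L[ℝ] X) (v : A × B × Z × T) :
    (jn Z T f g v).2 = v.2.2.1 := rfl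

end lin

section gen
variable {V W : Type} [NormedAddCommGroup V] [InnerProductSpace ℝ V] [FiniteDimensional ℝ V]
  [NormedAddCommGroup W] [InnerProductSpace ℝ W] [FiniteDimensional ℝ W] {F : Fr I M ι}
  {p : M → V →L[ℝ] V} {q : M → W →L[ℝ] W} {s : ℝ}

/-- first component -/
def s1 (v : Sec I (ps p q)) : Sec I p := ⟨fun x => f2 V W (v.1 x), RepT_mem
  (F := F.toPre) (F' := F.toPre) (k := 0) (j := 0) rep_fH v⟩

/-- second component -/
def s2' (v : Sec I (ps p q)) : Sec I q := ⟨fun x => s2 V W (v.1 x), RepT_mem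
  (F := F.toPre) (F' := F.toPre) (k := 0) (j := 0) rep_sH v⟩

theorem val_jn (hS : Sup F.toPre s) (hk : 4 ≤ k) (a : F.H k p) (b : F.H k q) (x : M) :
    F.val _ _ (iH1 F.toPre k p q a + iH2 F.toPre k p q b) x =
      i1 _ _ (F.val _ _ a x) + i2 _ _ (F.val _ _ b x) := by
  have := FiniteDimensional.complete ℝ V
  have := FiniteDimensional.complete ℝ W
  rw [val_add, Pi.add_apply]
  exact congrArg₂ (· + ·) (val_mulH hS hk (Cb_const _) maps_i1 _ x)
    (val_mulH hS hk (Cb_const _) maps_i2 _ x)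

end gen

variable (B : Base M ι lam) (G : Geo I M ι lam)

/-- the constant family -/
abbrev fm : Mod61.Fam I M ι lam ℝ where
  B := B
  F0 := G.F
  G0 := G
  G _ := G
  Q := univ
  S _ x a b := B.P a b x
  Si _ x a b := B.P a b x
  cf _ _ _ _ _ := 0
  la _ _ _ := 0
  Om := univ
  Om' := univ

variable {B G}

theorem W0_eq {m : Md M ι lam} {A : m.Cn} (h : m.IsConn B G A) (t : ℝ) : (fm B G).W0 m A t = A :=
  funext₂ fun a x => by simp [Mod61.Fam.W0, h.cc.proj]

variable [CompactSpace M]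

theorem fm_ok (hB : B.OK I) (hG : G.OK B) (ht : ∃ C, G.F.Tame C) : (fm B G).OK :=
  have hi := fun (_ : ℝ) (_ : _ ∈ (univ : Set ℝ)) x => (hB.pr x).idem
  have hP := fun a b => SB.fixed (F := G.F.toPre) (O := (univ : Set ℝ))
    (Cb_of_compact (hB.sP a b))
  { B := hB, G0 := hG, G := fun _ _ => hG, tame := ht, tameG := fun _ _ => ht, e0 := rfl
    P0 := hG.P, co := fun a b c d => Cb_of_compact (hB.so a b c d), cl := Cb_of_compact hB.sl
    opn := isOpen_univ, Om := isClopen_univ, Om' := isClopen_univ, sub := subset_rfl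
    mix := fun _ _ a x => (hG.P ▸ G.F.P_e a x :).symm
    PS := hi, SP := hi, PSi := hi, SiP := hi, SSi := hi, SiS := hi, sS := hP, sSi := hP
    scf := fun _ _ _ => SB.fixed (Cb_const _), sla := fun _ => SB.fixed (Cb_const _)
    sc := fun a b c => SB.fixed ⟨_, ht.choose_spec.c a b c⟩
    sdv := fun a => SB.fixed ⟨_, ht.choose_spec.dv a⟩
    sa := fun a => SB.fixed (Cb_of_compact (hG.con.sm a))
    dens := ⟨fun _ _ => 1, SB.fixed (Cb_const _), fun _ _ => ⟨fun _ => one_pos, by simp⟩⟩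
    conn := fun m A _ h t _ => (W0_eq h t).symm ▸ h }

variable {c : Cfg M ι lam 0} (h : Eqv71.Ad0 c B G)

/-- the reference object of a configuration -/
abbrev rf : Ref (fm B G) where
  m := c.m
  A0 := c.W
  Φ0 := c.Φ
  ok := h.ok
  conn := h.conn
  cp := Cb_of_compact h.ok.sp
  cρ a := Cb_of_compact (h.ok.sρ a)
  cj := Cb_of_compact h.ok.sj
  cA a := Cb_of_compact (h.conn.cc.sm a)
  cΦ := Cb_of_compact h.sm
  pos x := by rw [indicator_univ]; exact h.pos x

instance : (rf h).B0 := ⟨rfl⟩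

theorem bd_eq : bd (rf h) = bdm B c.m := by
  have : ∀ g p q, g = c.m.pg → p = c.m.pp B → q = c.m.pm B → (⟨B.P, B.o, c.m.ρ, g,
      fun x => idx (fun a b => B.P a b x) (g x), fun x => idx (B.sd x) (g x), p, q⟩ :
        Bd M ι (Fin c.m.N)) = bdm B c.m := by
    rintro _ _ _ rfl rfl rfl
    rfl
  exact this _ _ _ (indicator_univ _) (indicator_univ _) (indicator_univ _)

variable (r k) in
/-- coordinates -/
def emb : XH G.F (bd (rf h)) k × Pz r →L[ℝ] (rf h).C r k :=
  spl _ _ (fH G.F.toPre (k + 1) (rf h).P1 (rf h).Pp) (sH G.F.toPre (k + 1) (rf h).P1 (rf h).Pp)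

variable (H : (fm B G).OK)

/-- the smooth point of a section -/
def pn (v : Sec I (bd (rf h)).pC) (p : Pz r) : Pnt (rf h) r :=
  ⟨fun x => fa (v.1 x), fun x => fp (v.1 x), p, 0, sec_hs (sup0 H) (s1 (F := G.F) v),
    sec_hs (sup0 H) (s2' (F := G.F) v), trivial⟩

theorem emb_toH (hk : 3 ≤ k) (v : Sec I (bd (rf h)).pC) (p : Pz r) :
    emb r k h (G.F.toH _ _ v, p) = (pn h H v p).pt k :=
  (spl_apply _ _ _).trans (Prod.ext
    ((RepT_toH rep_fH v).trans (ofV_sec (sup0 H) (by omega) (s1 (F := G.F) v)).symm) (Prod.ext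
      ((RepT_toH rep_sH v).trans (ofV_sec (sup0 H) (by omega) (s2' (F := G.F) v)).symm) rfl))

include H in
theorem W_eq (v : Sec I (bd (rf h)).pC) :
    (rf h).W 0 (fun x => fa (v.1 x)) = c.m.addC c.W fun x => fa (v.1 x) :=
  funext₂ fun a x => by
    have h1 := (ok_bd (rf h) H).P_p1 x (fa (v.1 x)) a
    rw [show (bd (rf h)).p1 x (fa (v.1 x)) = fa (v.1 x) from maps_f2 x _ (v.2.2.2 x)] at h1
    rw [Mod61.W_apply, Ref.A_eq, W0_eq h.conn, Md.addC, ← h1, map_sum]
    simp only [map_smul]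

/-- the values of a perturbation -/
def tv (c : Cfg M ι lam 0) (τ : Pt M ι lam r n) (v : M → Cf ι (Fin c.m.N)) (p : Pz r) (x : M) :
    Ef ι (Fin c.m.N) := i1 _ _ (τ.D (cv c v p) x) + i2 _ _ (τ.C (cv c v p) x)

include H in
theorem smq {τ : Pt M ι lam r n} (w : Wp B G.F τ) (hk : 7 ≤ k) :
    ∃ g : XH G.F (bd (rf h)) k × Pz r → YH G.F (bd (rf h)) (k + 1) × (Fin n → ℂ),
      Rep (tv c τ) (fun v p => τ.S (cv c v p)) g := by
  induction w with
  | wpt T w hT =>
    obtain ⟨g, g1, g2⟩ := Mon62.sm_compact (m := 0) H (rf h) hT (w := fun _ => w)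
      (fun _ => contDiffOn_const) k hk
    refine ⟨fun q => jn _ _ (iH1 G.F.toPre (k + 1) (rf h).Pm (rf h).P2)
      (iH2 G.F.toPre (k + 1) (rf h).Pm (rf h).P2) (g (emb r k h q)),
      (ContinuousLinearMap.contDiff _).comp (g1.comp_contDiff (emb r k h).contDiff fun _ => trivial),
      fun v p => funext fun x => ?_, fun v p => ?_⟩
    · have e := g2 (pn h H v p)
      rw [jn_fst, val_jn (sup0 H) (by omega), emb_toH h H (by omega), e.D, e.C, indicator_univ,
        indicator_univ]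
      exact congrArg (fun W => i1 _ _ ((wpt B G.F T w).D ⟨c.m, W, _, p⟩ x) +
        i2 _ _ ((wpt B G.F T w).C ⟨c.m, W, _, p⟩ x)) (W_eq h H v)
    · rw [jn_snd, emb_toH h H (by omega), (g2 (pn h H v p)).S]
      exact congrArg (fun W => (wpt B G.F T w).S ⟨c.m, W, _, p⟩) (W_eq h H v)
  | add _ _ h1 h2 =>
    obtain ⟨g, a⟩ := h1
    obtain ⟨g', a'⟩ := h2
    refine ⟨g + g', a.sm.add a'.sm, fun v p => funext fun x => ?_, fun v p => ?_⟩
    · rw [Pi.add_apply, Prod.fst_add, val_add, Pi.add_apply, a.e, a'.e]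
      simp only [tv, Pt.add, map_add]
      abel
    · rw [Pi.add_apply, Prod.snd_add, a.s, a'.s]
      rfl

include H in
theorem ev_eq (τ : Pt M ι lam r n) (v : Sec I (bd (rf h)).pC) (p : Pz r) (x : M) :
    ev B G τ (cv c v.1 p) x = (bd (rf h)).pE x
      ((bd (rf h)).N G.F (fun y => base c.W c.Φ y + v.1 y) x) - tv c τ v.1 p x := by
  have e : uy (pn h H v p) = fun y => base c.W c.Φ y + v.1 y :=
    (congrArg (fun W => base W _) (W_eq h H v)).trans (base_cv v.1 p)
  have e1 := (adj_closed H).f2_N (n := 0) (m := 0) (pn h H v p) x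
  have e2 := (adj_closed H).s2_N (n := 0) (m := 0) (pn h H v p) x
  rw [e] at e1 e2
  replace e1 := e1.trans (indicator_of_mem (mem_univ x) _)
  replace e2 := e2.trans (indicator_of_mem (mem_univ x) _)
  refine ext2 ?_ ?_
  · rw [f2_ev, map_sub, f2_ps]
    refine congrArg₂ (· - ·) (e1.trans ?_).symm (by simp [tv])
    exact congrArg (fun W => Wz78.dir I G.F.e c.m.ρ W _ x) (W_eq h H v)
  · rw [s2_ev, map_sub, s2_ps]
    refine congrArg₂ (· - ·) (e2.trans ?_).symm (by simp [tv])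
    exact congrArg (fun W => c.m.p2 B x (c.m.Fg G.F W x) -
      c.m.mu B x (c.Φ x + fp (v.1 x)) (c.Φ x + fp (v.1 x))) (W_eq h H v)

include H in
theorem gn {τ : Pt M ι lam r n} (w : Wp B G.F τ) : Gn B G c (bd (rf h)) τ := fun j hj => by
  obtain ⟨g, a⟩ := smq h H w hj
  have e : ((adj_closed H).res (rf h) 0).1 =
      fun x => (bd (rf h)).pE x ((bd (rf h)).N G.F (base c.W c.Φ) x) := by
    rw [Adj.res, dif_pos (mem_univ _)]
    exact congrArg (fun W x => (bd (rf h)).pE x ((bd (rf h)).N G.F (base W c.Φ) x))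
      ((congrArg (fun A => (fm B G).W0 c.m A 0) ((rf h).A_eq 0)).trans (W0_eq h.conn 0))
  refine ⟨fun q => (G.F.toH _ _ ((adj_closed H).res (rf h) 0) - (g q).1, (g q).2),
    (contDiff_const.sub a.sm.fst).prodMk a.sm.snd, fun v p => funext fun x => ?_, a.s⟩
  show G.F.val _ _ (_ - _) x = _
  rw [val_sub, Pi.sub_apply, val_toH (sup0 H) (by omega), a.e, e, rest, ev_eq h H, map_sub]
  abel

/-- **TOP-GN** -/
theorem gnQ {ξ : M → c.m.A} (h : TP B G c ξ) : GnQ B G c := fun _ _ _ w =>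
  bd_eq (Eqv71.ad0 h.ad) ▸ gn (Eqv71.ad0 h.ad) (fm_ok h.hB h.hG h.tame) w

end Crest.Agent.X212.Lad50.Tq
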