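import Crest.Agent.X212.Lad50.Lift

/-!
# Row 212, layer T, LAD (4): from a ladder to a compactly supported homeomorphism `ψ` with
`H ∘ ψ = G` on a given ball (handles of index `k ≥ 1`: `lad`; index `0`: `lad_zero`).
-/

open Set Filter Topology Metric

namespace Crest.Agent.X212.Lad50

variable {ι : Type*} {Z : Type*} {K J : Finset ι} {P C c : ℝ}

lemma continuous_ext {u : (ι → ℝ) → (ι → ℝ)} (hu : ContinuousOn u (slab K))
    (hb : ∀ x ∈ slab K, (∃ i ∈ K, 1 ≤ |x i|) → u x = x) [DecidablePred (· ∈ slab K)] :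
    Continuous ((slab K).piecewise u id) := by
  have hT : IsClosed (⋃ i ∈ K, {x : ι → ℝ | 1 ≤ |x i|}) :=
    isClosed_biUnion_finset fun i _ => isClosed_le continuous_const (by fun_prop)
  have h1 : ContinuousOn ((slab K).piecewise u id) (slab K) :=
    hu.congr fun x hx => piecewise_eq_of_mem _ _ _ hx
  have h2 : ContinuousOn ((slab K).piecewise u id) (⋃ i ∈ K, {x : ι → ℝ | 1 ≤ |x i|}) := by
    refine continuousOn_id.congr fun x hx => ?_
    by_cases h : x ∈ slab K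
    · rw [piecewise_eq_of_mem _ _ _ h]
      obtain ⟨i, hi, hx⟩ := mem_iUnion₂.1 hx
      exact hb x h ⟨i, hi, hx⟩
    · rw [piecewise_eq_of_notMem _ _ _ h]
  have h3 := h1.union_of_isClosed h2 (isClosed_slab K) hT
  rw [← continuousOn_univ]
  refine h3.mono fun x _ => ?_
  by_cases h : x ∈ slab K
  · exact Or.inl h
  · simp only [slab, mem_ofPred_eq, not_forall, not_le] at h
    obtain ⟨i, hi, h⟩ := h
    exact Or.inr (mem_iUnion₂.2 ⟨i, hi, h.le⟩)

/-- extension by the identity -/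
lemma exists_ext {u w : (ι → ℝ) → (ι → ℝ)} (u1 : ContinuousOn u (slab K))
    (u2 : MapsTo u (slab K) (slab K)) (w1 : ContinuousOn w (slab K))
    (w2 : MapsTo w (slab K) (slab K)) (wu : ∀ x ∈ slab K, w (u x) = x)
    (uw : ∀ y ∈ slab K, u (w y) = y) (hb : ∀ x ∈ slab K, (∃ i ∈ K, 1 ≤ |x i|) → u x = x) :
    ∃ U : (ι → ℝ) ≃ₜ (ι → ℝ), (∀ x ∈ slab K, U x = u x) ∧ ∀ x ∉ slab K, U x = x := by
  classical
  have hb' : ∀ x ∈ slab K, (∃ i ∈ K, 1 ≤ |x i|) → w x = x := fun x hx h => by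
    have := wu x hx; rwa [hb x hx h] at this
  refine ⟨⟨⟨(slab K).piecewise u id, (slab K).piecewise w id, fun x => ?_, fun x => ?_⟩,
    continuous_ext u1 hb, continuous_ext w1 hb'⟩, fun x hx => piecewise_eq_of_mem _ _ _ hx,
    fun x hx => piecewise_eq_of_notMem _ _ _ hx⟩
  · by_cases h : x ∈ slab K
    · rw [piecewise_eq_of_mem _ _ _ h, piecewise_eq_of_mem _ _ _ (u2 h), wu x h]
    · rw [piecewise_eq_of_notMem _ _ _ h, id, piecewise_eq_of_notMem _ _ _ h, id]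
  · by_cases h : x ∈ slab K
    · rw [piecewise_eq_of_mem _ _ _ h, piecewise_eq_of_mem _ _ _ (w2 h), uw x h]
    · rw [piecewise_eq_of_notMem _ _ _ h, id, piecewise_eq_of_notMem _ _ _ h, id]

variable [Fintype ι]

/-- a lattice equivariant homeomorphism with bounded displacement off `J` is, on a ball, a
compactly supported homeomorphism -/
theorem periodic (hP : 0 < P) (U : (ι → ℝ) ≃ₜ (ι → ℝ)) (hC : ∀ x, ∀ i ∉ J, |U x i - x i| ≤ C)
    (hU : ∀ x, ∀ l ∈ lat J P, U (x + l) = U x + l) (R : ℝ) :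
    ∃ ψ : (ι → ℝ) ≃ₜ (ι → ℝ), (∀ x, ‖x‖ ≤ R → ψ x = U x) ∧ (∃ R', ∀ x, R' ≤ ‖x‖ → ψ x = x) ∧
      ∀ x, (∀ y, (∃ t : ℝ, 1 ≤ t ∧ ∀ i ∉ J, y i = t * x i) → U y = y) → ψ x = x := by
  refine slow (J : Set ι) U (C := C) hC (fun n => ?_) R
  obtain ⟨M, hM⟩ := ((isCompact_box J 0 n P).image
    (U.continuous.sub continuous_id)).isBounded.exists_norm_le
  refine ⟨M, fun x hx j _ => ?_⟩
  obtain ⟨l, hl, hlx⟩ := exists_reduce J hP x
  have h1 := hM _ ⟨x - l, fun i => ⟨hlx i, fun hi => by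
    simpa [(hl i).2 hi] using hx i hi⟩, rfl⟩
  have h2 : U x - x = U (x - l) - (x - l) := by
    have := hU (x - l) l hl
    rw [sub_add_cancel] at this
    rw [this]; abel
  have h3 := norm_le_pi_norm (U x - x) j
  rw [Real.norm_eq_abs, Pi.sub_apply] at h3
  exact h3.trans (by rw [h2]; exact h1)

omit [Fintype ι] in
lemma convex_core (K : Finset ι) : Convex ℝ (core K) := by
  intro x hx y hy a b ha hb hab
  exact ⟨convex_slab K hx.1 hy.1 ha hb hab, fun i hi => by simp [hx.2 i hi, hy.2 i hi]⟩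

omit [Fintype ι] in
/-- a lift is equivariant up to an endomorphism of the lattice -/
lemma shift_const (hP : 0 < P) (hKJ : Disjoint K J) {G H : (ι → ℝ) → Z}
    (fibH : ∀ x ∈ slab K, ∀ y ∈ slab K, H x = H y ↔ x - y ∈ lat J P)
    (fibG : ∀ x ∈ slab K, ∀ y ∈ slab K, G x = G y ↔ x - y ∈ lat J P)
    {u : (ι → ℝ) → (ι → ℝ)} (u1 : ContinuousOn u (slab K)) (u2 : MapsTo u (slab K) (slab K))
    (u3 : ∀ x ∈ slab K, H (u x) = G x) {l : ι → ℝ} (hl : l ∈ lat J P) :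
    (∀ x ∈ slab K, u (x + l) - u x ∈ lat J P) ∧
      ∀ x ∈ slab K, ∀ y ∈ slab K, u (x + l) - u x = u (y + l) - u y := by
  have h1 : ∀ x ∈ slab K, u (x + l) - u x ∈ lat J P := fun x hx => by
    have hxl := add_mem_slab hKJ hx hl
    refine (fibH _ (u2 hxl) _ (u2 hx)).1 ?_
    rw [u3 _ hxl, u3 _ hx]
    exact (fibG _ hxl _ hx).2 (by simpa using hl)
  refine ⟨h1, fun x hx y hy => lat_const (J := J) hP (convex_slab K).isPreconnected
    (f := fun x => u (x + l) - u x) ?_ h1 hx hy⟩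
  exact (u1.comp (f := fun x => x + l) (by fun_prop) fun z hz => add_mem_slab hKJ hz hl).sub u1

variable [TopologicalSpace Z] [T2Space Z] {G H : (ι → ℝ) → Z}

/-- **Ladder lemma, handles of index `k ≥ 1`.** -/
theorem lad (hP : 0 < P) (hKJ : Disjoint K J) (hK : K.Nonempty) (hc : c ≤ 1)
    (L : Ladder K J P C c G H)
    (hcore : ∀ x ∈ core K, ∃ y ∈ slab K, (∀ j ∈ J, |y j| < P / 2) ∧ G x = H y) (R : ℝ) :
    ∃ ψ : (ι → ℝ) ≃ₜ (ι → ℝ), (∀ x ∈ slab K, ‖x‖ ≤ R → ψ x ∈ slab K ∧ H (ψ x) = G x) ∧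
      (∃ R', ∀ x, R' ≤ ‖x‖ → ψ x = x) ∧ (∀ x, (∃ i ∈ K, c ≤ |x i|) → ψ x = x) ∧
      ∀ x ∈ core K, ∀ y ∈ slab K, (∀ j ∈ J, |y j| < P / 2) → G x = H y → ψ x = y := by
  classical
  have h0 : (0 : ι → ℝ) ∈ core K := ⟨zero_mem_slab K, fun _ _ => rfl⟩
  obtain ⟨y₀, hy₀, hy₀', h₀⟩ := hcore 0 h0
  obtain ⟨u, w, u1, u2, w1, w2, u3, -, wu, uw, u4⟩ := L.exists_equiv hP hKJ h0.1 hy₀ h₀
  have hne : ∀ x ∈ core K, ∀ j ∈ J, |u x j| ≠ P / 2 := fun x hx j hj he => by
    obtain ⟨y, hy, hy', h⟩ := hcore x hx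
    obtain ⟨n, hn⟩ := ((L.fibH _ (u2 hx.1) _ hy).1 ((u3 x hx.1).trans h) j).1 hj
    have h1 := abs_lt.1 (hy' j hj)
    rw [Pi.sub_apply] at hn
    rcases (abs_eq (half_pos hP).le).1 he with h2 | h2
    · have h3 : (0 : ℝ) < n := by nlinarith
      have h4 : (n : ℝ) < 1 := by nlinarith
      have h5 : 0 < n := by exact_mod_cast h3
      have h6 : n < 1 := by exact_mod_cast h4
      omega
    · have h3 : (n : ℝ) < 0 := by nlinarith
      have h4 : (-1 : ℝ) < n := by nlinarith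
      have h5 : n < 0 := by exact_mod_cast h3
      have h6 : -1 < n := by exact_mod_cast h4
      omega
  have hin : ∀ x ∈ core K, ∀ j ∈ J, |u x j| < P / 2 := fun x hx j hj => by
    by_contra hlt
    have h1 : ContinuousOn (fun x => |u x j|) (core K) :=
      (((continuous_apply j).comp_continuousOn u1).mono fun z hz => hz.1).abs
    obtain ⟨z, hz, hz'⟩ := (convex_core K).isPreconnected.intermediate_value h0 hx h1
      (show P / 2 ∈ Icc |u 0 j| |u x j| from ⟨by rw [u4]; exact (hy₀' j hj).le, not_lt.1 hlt⟩)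
    exact hne z hz j hj hz'
  have hzone : ∀ x ∈ slab K, (∃ i ∈ K, c ≤ |x i|) → u x = x := fun x hx ⟨i, hi, hci⟩ => by
    set S : Set (ι → ℝ) := {z | ∀ k ∈ K, z k = x k} with hS
    have hSs : S ⊆ slab K := fun z hz k hk => by rw [hz k hk]; exact hx k hk
    have hSc : Convex ℝ S := fun a ha b hb s t _ _ hst k hk => by
      simp only [Pi.add_apply, Pi.smul_apply, smul_eq_mul, ha k hk, hb k hk]
      rw [← add_mul, hst, one_mul]
    have hl : ∀ z ∈ S, u z - z ∈ lat J P := fun z hz =>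
      (L.fibH _ (u2 (hSs hz)) _ (hSs hz)).1
        ((u3 _ (hSs hz)).trans (L.bdry z (hSs hz) ⟨i, hi, by rw [hz i hi]; exact hci⟩))
    set x' : ι → ℝ := fun k => if k ∈ K then x k else 0 with hx'
    have h1 : x' ∈ S := fun k hk => by simp [hx', hk]
    have h2 : x' ∈ core K := ⟨hSs h1, fun k hk => by simp [hx', hk]⟩
    have h3 : u x' - x' = 0 := lat_eq_zero hP (hl _ h1) fun j hj => by
      have h4 : x' j = 0 := h2.2 j (Finset.disjoint_right.1 hKJ hj)
      have := hin x' h2 j hj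
      rw [Pi.sub_apply, h4, sub_zero]; linarith
    have h4 := lat_const (J := J) hP hSc.isPreconnected (f := fun z => u z - z)
      ((u1.mono hSs).sub continuousOn_id) hl (show x ∈ S from fun _ _ => rfl) h1
    exact sub_eq_zero.1 (h4.trans h3)
  obtain ⟨U, hU1, hU2⟩ := exists_ext u1 u2 w1 w2 wu uw
    fun x hx ⟨i, hi, h⟩ => hzone x hx ⟨i, hi, hc.trans h⟩
  have hUz : ∀ x, (∃ i ∈ K, c ≤ |x i|) → U x = x := fun x h => by
    by_cases hx : x ∈ slab K
    · rw [hU1 x hx, hzone x hx h]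
    · exact hU2 x hx
  have hper : ∀ x, ∀ l ∈ lat J P, U (x + l) = U x + l := fun x l hl => by
    by_cases hx : x ∈ slab K
    · obtain ⟨i, hi⟩ := hK
      have h1 : (Pi.single i 1 : ι → ℝ) ∈ slab K := fun k _ => by
        by_cases hk : k = i <;> simp [Pi.single_apply, hk]
      have h2 := (shift_const hP hKJ L.fibH L.fibG u1 u2 u3 hl).2 x hx _ h1
      rw [hzone _ h1 ⟨i, hi, by simpa using hc⟩, hzone _ (add_mem_slab hKJ h1 hl)
        ⟨i, hi, by simpa [(hl i).2 (Finset.disjoint_left.1 hKJ hi)] using hc⟩] at h2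
      rw [hU1 x hx, hU1 _ (add_mem_slab hKJ hx hl), sub_eq_iff_eq_add.1 h2]; abel
    · rw [hU2 x hx, hU2 _ fun h => hx (by simpa using add_mem_slab hKJ h (neg_mem hl))]
  have hC : ∀ x, ∀ i ∉ J, |U x i - x i| ≤ |C| := fun x i hi => by
    by_cases hx : x ∈ slab K
    · rw [hU1 x hx, abs_sub_comm]
      exact (L.vert x hx _ (u2 hx) (u3 x hx).symm i hi).trans (le_abs_self C)
    · rw [hU2 x hx]; simp
  obtain ⟨ψ, h1, h2, h3⟩ := periodic hP U hC hper (max R 1)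
  refine ⟨ψ, fun x hx hR => ?_, h2, fun x ⟨i, hi, hci⟩ => h3 x fun y ⟨t, ht, hy⟩ => hUz y ⟨i, hi, ?_⟩,
    fun x hx y hy hy' h => ?_⟩
  · rw [h1 x (le_max_of_le_left hR), hU1 x hx]
    exact ⟨u2 hx, u3 x hx⟩
  · rw [hy i (Finset.disjoint_left.1 hKJ hi), abs_mul, abs_of_pos (by linarith : 0 < t)]
    nlinarith [abs_nonneg (x i)]
  · have hn : ‖x‖ ≤ 1 := (pi_norm_le_iff_of_nonneg zero_le_one).2 fun i => by
      by_cases hi : i ∈ K
      · exact hx.1 i hi
      · simp [hx.2 i hi]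
    rw [h1 x (le_max_of_le_right hn), hU1 x hx.1]
    refine sub_eq_zero.1 (lat_eq_zero hP
      ((L.fibH _ (u2 hx.1) _ hy).1 ((u3 x hx.1).trans h)) fun j hj => ?_)
    have h4 := hin x hx j hj
    have h5 := hy' j hj
    have h6 := abs_sub (u x j) (y j)
    rw [Pi.sub_apply]; linarith

omit [TopologicalSpace Z] [T2Space Z] in
/-- an endomorphism of the lattice extends linearly -/
lemma lin_ext [DecidableEq ι] (hP : 0 < P) (B : (ι → ℝ) → (ι → ℝ))
    (hB : ∀ l ∈ lat J P, B l ∈ lat J P)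
    (hadd : ∀ l ∈ lat J P, ∀ m ∈ lat J P, B (l + m) = B l + B m) :
    ∃ L : (ι → ℝ) →ₗ[ℝ] (ι → ℝ), (∀ l ∈ lat J P, L l = B l) ∧ (∀ x, ∀ i ∉ J, L x i = x i) ∧
      ∀ i ∉ J, L (Pi.single i 1) = Pi.single i 1 := by
  have hs : ∀ i ∈ J, (Pi.single i P : ι → ℝ) ∈ lat J P := fun i hi k => by
    by_cases hk : k = i
    · subst hk; exact ⟨fun _ => ⟨1, by simp⟩, fun h => absurd hi h⟩
    · exact ⟨fun _ => ⟨0, by simp [hk]⟩, fun _ => by simp [hk]⟩
  let b : ι → ι → ℝ := fun i => if i ∈ J then P⁻¹ • B (Pi.single i P) else Pi.single i 1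
  let L : (ι → ℝ) →ₗ[ℝ] (ι → ℝ) := (Pi.basisFun ℝ ι).constr ℝ b
  have hL : ∀ x, L x = ∑ i, x i • b i := fun x => by
    simp [L, Module.Basis.constr_apply_fintype]
  let B' : lat J P →+ (ι → ℝ) := AddMonoidHom.mk' (fun l => B l) fun l m => hadd _ l.2 _ m.2
  refine ⟨L, fun l hl => ?_, fun x i hi => ?_, fun i hi => ?_⟩
  · choose n hn using fun i : J => (hl i).1 i.2
    have h1 : (⟨l, hl⟩ : lat J P) = ∑ i : J, n i • (⟨Pi.single i P, hs i i.2⟩ : lat J P) := by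
      apply Subtype.ext
      funext k
      simp only [AddSubmonoidClass.coe_finset_sum, AddSubgroupClass.coe_zsmul, Finset.sum_apply,
        Pi.smul_apply, zsmul_eq_mul]
      by_cases hk : k ∈ J
      · rw [Finset.sum_eq_single ⟨k, hk⟩]
        · simp [hn ⟨k, hk⟩]
        · intro j _ hj
          have : k ≠ (j : ι) := fun h => hj (Subtype.ext h.symm)
          simp [this]
        · simp
      · rw [(hl k).2 hk]
        refine (Finset.sum_eq_zero fun j _ => ?_).symm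
        have : k ≠ (j : ι) := fun h => hk (h ▸ j.2)
        simp [this]
    have h2 : B l = ∑ i : J, (n i : ℝ) • B (Pi.single i P) := by
      change B' ⟨l, hl⟩ = _
      rw [h1, map_sum]
      refine Finset.sum_congr rfl fun i _ => ?_
      rw [map_zsmul, Int.cast_smul_eq_zsmul]; rfl
    rw [hL, h2, ← Finset.sum_subset (Finset.subset_univ J)
      (fun i _ hi => by rw [(hl i).2 hi, zero_smul]), ← Finset.sum_coe_sort J]
    refine Finset.sum_congr rfl fun i _ => ?_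
    simp only [b, i.2, if_true, hn i, smul_smul]
    congr 1; field_simp
  · rw [hL, Finset.sum_apply, Finset.sum_eq_single i]
    · simp [b, hi]
    · intro k _ hk
      by_cases hkJ : k ∈ J
      · simp [b, hkJ, (hB _ (hs k hkJ) i).2 hi]
      · simp [b, hkJ, Pi.single_apply, hk.symm]
    · simp
  · rw [hL, Finset.sum_eq_single i]
    · simp [b, hi]
    · intro k _ hk; simp [hk]
    · simp

/-- **Ladder lemma, index `0`.** -/
theorem lad_zero (hP : 0 < P) (L : Ladder ∅ J P C c G H) (R : ℝ) :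
    ∃ (A : (ι → ℝ) ≃L[ℝ] (ι → ℝ)) (x₀ : ι → ℝ) (ψ : (ι → ℝ) ≃ₜ (ι → ℝ)), ψ 0 = 0 ∧
      (∀ x, ‖x‖ ≤ R → H (ψ x) = G (A x + x₀)) ∧ ∃ R', ∀ x, R' ≤ ‖x‖ → ψ x = x := by
  classical
  have hs : ∀ x : ι → ℝ, x ∈ slab ∅ := fun x i hi => absurd hi (Finset.notMem_empty i)
  have hKJ : Disjoint (∅ : Finset ι) J := Finset.disjoint_empty_left J
  obtain ⟨x₀, -, h₀⟩ := L.img.superset ⟨0, hs 0, rfl⟩
  obtain ⟨u, w, u1, u2, w1, w2, u3, w3, wu, uw, u4⟩ := L.exists_equiv hP hKJ (hs x₀) (hs 0) h₀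
  obtain ⟨U, hU, -⟩ := exists_ext u1 u2 w1 w2 wu uw fun x _ ⟨i, hi, _⟩ =>
    absurd hi (Finset.notMem_empty i)
  have hu := fun l hl => shift_const (l := l) hP hKJ L.fibH L.fibG u1 u2 u3 hl
  have hw := fun l hl => shift_const (l := l) hP hKJ L.fibG L.fibH w1 w2 w3 hl
  set a : (ι → ℝ) → (ι → ℝ) := fun l => u (0 + l) - u 0 with ha
  set b : (ι → ℝ) → (ι → ℝ) := fun l => w (0 + l) - w 0 with hb
  have hua : ∀ x, ∀ l ∈ lat J P, u (x + l) = u x + a l := fun x l hl => by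
    rw [ha]; simp only; rw [← (hu l hl).2 x (hs x) 0 (hs 0)]; abel
  have hwb : ∀ x, ∀ l ∈ lat J P, w (x + l) = w x + b l := fun x l hl => by
    rw [hb]; simp only; rw [← (hw l hl).2 x (hs x) 0 (hs 0)]; abel
  have hal : ∀ l ∈ lat J P, a l ∈ lat J P := fun l hl => (hu l hl).1 0 (hs 0)
  have hbl : ∀ l ∈ lat J P, b l ∈ lat J P := fun l hl => (hw l hl).1 0 (hs 0)
  have hab : ∀ l ∈ lat J P, a (b l) = l := fun l hl => by
    have h1 := uw (0 + l) (hs _)
    rw [hwb 0 l hl, hua _ _ (hbl l hl), uw 0 (hs _)] at h1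
    simpa using h1
  have hba : ∀ l ∈ lat J P, b (a l) = l := fun l hl => by
    have h1 := wu (0 + l) (hs _)
    rw [hua 0 l hl, hwb _ _ (hal l hl), wu 0 (hs _)] at h1
    simpa using h1
  obtain ⟨La, a1, -, a3⟩ := lin_ext hP a hal fun l hl m hm => by
    have h1 := hua 0 _ (add_mem hl hm)
    rw [← add_assoc, hua _ m hm, hua _ l hl, add_assoc] at h1
    exact (add_left_cancel h1).symm
  obtain ⟨Lb, b1, b2, b3⟩ := lin_ext hP b hbl fun l hl m hm => by
    have h1 := hwb 0 _ (add_mem hl hm)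
    rw [← add_assoc, hwb _ m hm, hwb _ l hl, add_assoc] at h1
    exact (add_left_cancel h1).symm
  have hinv : ∀ (M N : (ι → ℝ) →ₗ[ℝ] (ι → ℝ)), (∀ l ∈ lat J P, M (N l) = l) →
      (∀ i ∉ J, M (Pi.single i 1) = Pi.single i 1) → (∀ i ∉ J, N (Pi.single i 1) = Pi.single i 1) →
      M ∘ₗ N = LinearMap.id := by
    intro M N h1 h2 h3
    refine (Pi.basisFun ℝ ι).ext fun i => ?_
    simp only [Pi.basisFun_apply, LinearMap.comp_apply, LinearMap.id_apply]
    by_cases hi : i ∈ J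
    · have h4 : (P • Pi.single i 1 : ι → ℝ) ∈ lat J P := fun k => by
        by_cases hk : k = i
        · subst hk; exact ⟨fun _ => ⟨1, by simp⟩, fun h => absurd hi h⟩
        · exact ⟨fun _ => ⟨0, by simp [hk]⟩, fun _ => by simp [hk]⟩
      have h5 := h1 _ h4
      rw [map_smul, map_smul] at h5
      exact smul_right_injective _ hP.ne' h5
    · rw [h3 i hi, h2 i hi]
  let A : (ι → ℝ) ≃L[ℝ] (ι → ℝ) := (LinearEquiv.ofLinear Lb La
    (hinv Lb La (fun l hl => by rw [a1 l hl, b1 _ (hal l hl), hba l hl]) b3 a3)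
    (hinv La Lb (fun l hl => by rw [b1 l hl, a1 _ (hbl l hl), hab l hl]) a3 b3)).toContinuousLinearEquiv
  have hA : ∀ x, A x = Lb x := fun _ => rfl
  let V : (ι → ℝ) ≃ₜ (ι → ℝ) := (A.toHomeomorph.trans (Homeomorph.addRight x₀)).trans U
  have hV : ∀ x, V x = u (A x + x₀) := fun x => hU _ (hs _)
  obtain ⟨ψ, h1, h2, -⟩ := periodic (J := J) (C := C + ‖x₀‖) hP V (fun x i hi => by
    have h1 := L.vert _ (hs (A x + x₀)) _ (hs _) (u3 _ (hs _)).symm i hi
    have h2 := norm_le_pi_norm x₀ i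
    rw [Real.norm_eq_abs] at h2
    rw [Pi.add_apply, hA, b2 x i hi, abs_sub_comm] at h1
    rw [hV, hA]
    refine (abs_sub_le _ (x i + x₀ i) _).trans (add_le_add h1 (by simpa using h2)))
    (fun x l hl => by
      rw [hV, hV, map_add, hA l, b1 l hl, add_right_comm, hua _ _ (hbl l hl), hab l hl]) (max R 0)
  refine ⟨A, x₀, ψ, ?_, fun x hx => ?_, h2⟩
  · rw [h1 0 (by simp), hV, map_zero, zero_add, u4]
  · rw [h1 x (le_max_of_le_left hx), hV, u3 _ (hs _)]

end Crest.Agent.X212.Lad50
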