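import Crest.Agent.X212.Lad50.Slow

/-!
# Row 212, layer T, LAD (3): ladders at the level of the universal cover, and their lifts.
-/

open Set Filter Topology Metric

namespace Crest.Agent.X212.Lad50

variable {ι : Type*} {Z : Type*}

/-- `B^k × ℝ^(n-k)`, `K` = the handle coordinates -/
def slab (K : Finset ι) : Set (ι → ℝ) := {x | ∀ i ∈ K, |x i| ≤ 1}

/-- the core `B^k × 0` -/
def core (K : Finset ι) : Set (ι → ℝ) := {x | x ∈ slab K ∧ ∀ i ∉ K, x i = 0}

/-- the lattice `P ℤ^J` -/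
def lat (J : Finset ι) (P : ℝ) : AddSubgroup (ι → ℝ) where
  carrier := {l | ∀ i, (i ∈ J → ∃ n : ℤ, l i = n * P) ∧ (i ∉ J → l i = 0)}
  zero_mem' := fun _ => ⟨fun _ => ⟨0, by simp⟩, fun _ => rfl⟩
  add_mem' := by
    intro a b ha hb i
    refine ⟨fun hi => ?_, fun hi => by simp [(ha i).2 hi, (hb i).2 hi]⟩
    obtain ⟨n, hn⟩ := (ha i).1 hi
    obtain ⟨m, hm⟩ := (hb i).1 hi
    exact ⟨n + m, by simp [hn, hm, add_mul]⟩
  neg_mem' := by
    intro a ha i
    refine ⟨fun hi => ?_, fun hi => by simp [(ha i).2 hi]⟩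
    obtain ⟨n, hn⟩ := (ha i).1 hi
    exact ⟨-n, by simp [hn]⟩

lemma mem_lat {J : Finset ι} {P : ℝ} {l : ι → ℝ} :
    l ∈ lat J P ↔ ∀ i, (i ∈ J → ∃ n : ℤ, l i = n * P) ∧ (i ∉ J → l i = 0) := Iff.rfl

/-- A ladder, seen in the universal cover: `H = h ∘ e ∘ p`, `G = g ∘ p`. -/
structure Ladder [TopologicalSpace Z] (K J : Finset ι) (P C c : ℝ) (G H : (ι → ℝ) → Z) :
    Prop where
  contH : ContinuousOn H (slab K)
  contG : ContinuousOn G (slab K)
  fibH : ∀ x ∈ slab K, ∀ y ∈ slab K, H x = H y ↔ x - y ∈ lat J P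
  fibG : ∀ x ∈ slab K, ∀ y ∈ slab K, G x = G y ↔ x - y ∈ lat J P
  openH : ∀ x ∈ slab K, 𝓝[H '' slab K] (H x) ≤ map H (𝓝[slab K] x)
  img : G '' slab K = H '' slab K
  vert : ∀ x ∈ slab K, ∀ y ∈ slab K, G x = H y → ∀ i ∉ J, |x i - y i| ≤ C
  bdry : ∀ x ∈ slab K, (∃ i ∈ K, c ≤ |x i|) → G x = H x

variable {K J : Finset ι} {P C c : ℝ}

lemma convex_slab (K : Finset ι) : Convex ℝ (slab K) := by
  intro x hx y hy a b ha hb hab i hi
  have h1 := hx i hi
  have h2 := hy i hi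
  simp only [Pi.add_apply, Pi.smul_apply, smul_eq_mul]
  calc |a * x i + b * y i| ≤ |a * x i| + |b * y i| := abs_add_le _ _
    _ = a * |x i| + b * |y i| := by rw [abs_mul, abs_mul, abs_of_nonneg ha, abs_of_nonneg hb]
    _ ≤ a * 1 + b * 1 := by gcongr
    _ = 1 := by linarith

lemma isClosed_slab (K : Finset ι) : IsClosed (slab K) := by
  have : slab K = ⋂ i ∈ K, {x : ι → ℝ | |x i| ≤ 1} := by ext; simp [slab]
  rw [this]
  exact isClosed_biInter fun i _ => isClosed_le (by fun_prop) continuous_const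

lemma zero_mem_slab (K : Finset ι) : (0 : ι → ℝ) ∈ slab K := fun _ _ => by simp

lemma add_mem_slab (hKJ : Disjoint K J) {x l : ι → ℝ} (hx : x ∈ slab K) (hl : l ∈ lat J P) :
    x + l ∈ slab K := fun i hi => by
  have := (hl i).2 (Finset.disjoint_left.1 hKJ hi)
  simpa [this] using hx i hi

lemma lat_eq_zero (hP : 0 < P) {l : ι → ℝ} (hl : l ∈ lat J P) (h : ∀ j ∈ J, |l j| < P) :
    l = 0 := by
  funext i
  by_cases hi : i ∈ J
  · obtain ⟨n, hn⟩ := (hl i).1 hi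
    have h1 := h i hi
    rw [hn, abs_mul, abs_of_pos hP] at h1
    have h2 : |(n : ℝ)| < 1 := by nlinarith [abs_nonneg (n : ℝ)]
    have h3 : n = 0 := by
      have : |n| < 1 := by exact_mod_cast h2
      exact Int.abs_lt_one_iff.1 this
    simp [hn, h3]
  · exact (hl i).2 hi

lemma exists_reduce (J : Finset ι) (hP : 0 < P) (x : ι → ℝ) :
    ∃ l ∈ lat J P, ∀ j ∈ J, |(x - l) j| ≤ P := by
  classical
  refine ⟨fun i => if i ∈ J then (⌊x i / P⌋ : ℝ) * P else 0, fun i =>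
    ⟨fun hi => ⟨⌊x i / P⌋, by simp [hi]⟩, fun hi => by simp [hi]⟩, fun j hj => ?_⟩
  have h1 := Int.floor_le (x j / P)
  have h2 := Int.lt_floor_add_one (x j / P)
  rw [le_div_iff₀ hP] at h1
  rw [div_lt_iff₀ hP] at h2
  simp only [Pi.sub_apply, hj, if_true, abs_le]
  constructor <;> nlinarith

lemma coe_eq_iff (a b : ℝ) :
    (a : AddCircle P) = (b : AddCircle P) ↔ ∃ n : ℤ, a - b = n * P := by
  rw [← sub_eq_zero, ← AddCircle.coe_sub, AddCircle.coe_eq_zero_iff]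
  simp only [zsmul_eq_mul]
  exact ⟨fun ⟨n, h⟩ => ⟨n, h.symm⟩, fun ⟨n, h⟩ => ⟨n, h.symm⟩⟩

/-- a continuous lattice valued map on a connected set is constant -/
lemma lat_const (hP : 0 < P) {X : Type*} [TopologicalSpace X] {s : Set X} (hs : IsPreconnected s)
    {f : X → ι → ℝ} (hf : ContinuousOn f s) (hl : ∀ x ∈ s, f x ∈ lat J P) {x y : X} (hx : x ∈ s)
    (hy : y ∈ s) : f x = f y := by
  have : Fact (0 < P) := ⟨hP⟩
  funext i
  by_cases hi : i ∈ J
  · refine (AddCircle.isCoveringMap_coe P).constOn_of_comp (g := fun x => f x i) hs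
      ((continuous_apply i).comp_continuousOn hf) (fun a ha b hb => ?_) hx hy
    obtain ⟨n, hn⟩ := (hl a ha i).1 hi
    obtain ⟨m, hm⟩ := (hl b hb i).1 hi
    exact (coe_eq_iff _ _).2 ⟨n - m, by simp [hn, hm, sub_mul]⟩
  · rw [(hl x hx i).2 hi, (hl y hy i).2 hi]

variable [Fintype ι] [TopologicalSpace Z] {G H : (ι → ℝ) → Z}

/-- one sided lifting -/
lemma exists_lift (hP : 0 < P) (hKJ : Disjoint K J) (hG : ContinuousOn G (slab K))
    (fibH : ∀ x ∈ slab K, ∀ y ∈ slab K, H x = H y ↔ x - y ∈ lat J P)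
    (openH : ∀ x ∈ slab K, 𝓝[H '' slab K] (H x) ≤ map H (𝓝[slab K] x))
    (img : G '' slab K ⊆ H '' slab K) {x₀ y₀ : ι → ℝ} (hx₀ : x₀ ∈ slab K) (hy₀ : y₀ ∈ slab K)
    (h₀ : G x₀ = H y₀) :
    ∃ u : (ι → ℝ) → (ι → ℝ), ContinuousOn u (slab K) ∧ MapsTo u (slab K) (slab K) ∧
      (∀ x ∈ slab K, H (u x) = G x) ∧ u x₀ = y₀ := by
  classical
  have : Fact (0 < P) := ⟨hP⟩
  have hs : ∀ x, ∃ y, x ∈ slab K → y ∈ slab K ∧ H y = G x := fun x => by
    by_cases hx : x ∈ slab K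
    · obtain ⟨y, hy, h⟩ := img ⟨x, hx, rfl⟩
      exact ⟨y, fun _ => ⟨hy, h⟩⟩
    · exact ⟨0, fun h => absurd h hx⟩
  choose s hs using hs
  have hφ : ∀ {Y : Type} [TopologicalSpace Y] (φ : (ι → ℝ) → Y), Continuous φ →
      (∀ a b, a - b ∈ lat J P → φ a = φ b) → ContinuousOn (φ ∘ s) (slab K) := by
    intro Y _ φ hc hinv x hx N hN
    have h1 : φ ⁻¹' N ∩ slab K ∈ 𝓝[slab K] (s x) :=
      inter_mem (mem_nhdsWithin_of_mem_nhds (hc.continuousAt hN)) self_mem_nhdsWithin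
    have h2 := openH _ (hs x hx).1 (image_mem_map h1)
    rw [(hs x hx).2] at h2
    have h3 : Tendsto G (𝓝[slab K] x) (𝓝[H '' slab K] (G x)) :=
      tendsto_nhdsWithin_iff.2 ⟨hG x hx, eventually_nhdsWithin_of_forall
        fun z hz => img ⟨z, hz, rfl⟩⟩
    rw [mem_map]
    filter_upwards [h3 h2, self_mem_nhdsWithin] with z hz hzs
    obtain ⟨y, hy, hyz⟩ := hz
    have h4 := (fibH _ (hs z hzs).1 _ hy.2).1 (by rw [(hs z hzs).2, hyz])
    change φ (s z) ∈ N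
    rw [hinv _ _ h4]; exact hy.1
  have h00 := (fibH _ hy₀ _ (hs x₀ hx₀).1).1 (by rw [(hs x₀ hx₀).2, h₀])
  have hf : ∀ i, ∃ f : (ι → ℝ) → ℝ, ContinuousOn f (slab K) ∧ f x₀ = y₀ i ∧ ∀ x ∈ slab K,
      (i ∈ J → ∃ n : ℤ, f x - s x i = n * P) ∧ (i ∉ J → f x - s x i = 0) := by
    intro i
    by_cases hi : i ∈ J
    · have := (convex_slab K).contractibleSpace ⟨_, hx₀⟩
      have := (convex_slab K).locallyPathConnectedSpace
      have h1 := hφ (fun a => ((a i : ℝ) : AddCircle P))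
        ((AddCircle.continuous_mk' P).comp (continuous_apply i))
        (fun a b hab => (coe_eq_iff _ _).2 ((hab i).1 hi))
      obtain ⟨F, ⟨hF0, hF⟩, -⟩ := (AddCircle.isCoveringMap_coe P).existsUnique_continuousMap_lifts
        ⟨_, continuousOn_iff_continuous_domRestrict.1 h1⟩ ⟨x₀, hx₀⟩ (y₀ i)
        ((coe_eq_iff _ _).2 ((h00 i).1 hi))
      refine ⟨fun x => if h : x ∈ slab K then F ⟨x, h⟩ else 0, ?_, by simp [hx₀, hF0],
        fun x hx => ⟨fun _ => ?_, fun h => absurd hi h⟩⟩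
      · rw [continuousOn_iff_continuous_domRestrict]
        convert F.continuous using 1
        funext x; simp
      · simp only [dif_pos hx]
        exact (coe_eq_iff _ _).1 (congrFun hF ⟨x, hx⟩)
    · refine ⟨fun x => s x i, hφ (fun a => a i) (continuous_apply i)
        (fun a b hab => sub_eq_zero.1 ((hab i).2 hi)), (sub_eq_zero.1 ((h00 i).2 hi)).symm,
        fun x _ => ⟨fun h => absurd h hi, fun _ => sub_self _⟩⟩
  choose f hf1 hf2 hf3 using hf
  have hl : ∀ x ∈ slab K, (fun i => f i x) - s x ∈ lat J P := fun x hx i => hf3 i x hx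
  have hm : ∀ x ∈ slab K, (fun i => f i x) ∈ slab K := fun x hx => by
    have := add_mem_slab hKJ (hs x hx).1 (hl x hx)
    rwa [add_sub_cancel] at this
  refine ⟨fun x i => f i x, continuousOn_pi.2 hf1, hm, fun x hx => ?_, funext hf2⟩
  rw [(fibH _ (hm x hx) _ (hs x hx).1).2 (hl x hx), (hs x hx).2]

omit [TopologicalSpace Z] in
lemma isCompact_box (J : Finset ι) (y : ι → ℝ) (r P : ℝ) :
    IsCompact {x : ι → ℝ | ∀ i, (i ∈ J → |x i| ≤ P) ∧ (i ∉ J → |x i - y i| ≤ r)} := by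
  refine Metric.isCompact_of_isClosed_isBounded ?_ ?_
  · simp only [ofPred_forall, ofPred_and]
    refine isClosed_iInter fun i => IsClosed.inter (isClosed_iInter fun _ => ?_)
      (isClosed_iInter fun _ => ?_) <;> exact isClosed_le (by fun_prop) continuous_const
  · refine (isBounded_iff_forall_norm_le).2 ⟨|P| + |r| + ‖y‖, fun x hx => ?_⟩
    refine (pi_norm_le_iff_of_nonneg (by positivity)).2 fun i => ?_
    have h1 := norm_le_pi_norm y i
    rw [Real.norm_eq_abs] at h1 ⊢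
    have h2 := le_abs_self P
    have h3 := le_abs_self r
    by_cases hi : i ∈ J
    · have := (hx i).1 hi; linarith [abs_nonneg r, norm_nonneg y]
    · have := (hx i).2 hi
      have h4 := abs_sub_abs_le_abs_sub (x i) (y i)
      linarith [abs_nonneg P]

/-- properness: `G` is open onto its image as well -/
lemma Ladder.openG [T2Space Z] (hP : 0 < P) (hKJ : Disjoint K J) (L : Ladder K J P C c G H) :
    ∀ x ∈ slab K, 𝓝[G '' slab K] (G x) ≤ map G (𝓝[slab K] x) := by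
  intro x hx N hN
  rw [mem_map, mem_nhdsWithin] at hN
  obtain ⟨O, hO, hxO, hON⟩ := hN
  obtain ⟨y, hy, hxy⟩ := L.img.subset ⟨x, hx, rfl⟩
  set F := ({z : ι → ℝ | ∀ i, (i ∈ J → |z i| ≤ P) ∧ (i ∉ J → |z i - y i| ≤ C + 1)} ∩ slab K) ∩
    ⋂ l ∈ lat J P, {z | z - l ∉ O} with hF
  have hFc : IsCompact F := by
    refine ((isCompact_box J y (C + 1) P).inter_right (isClosed_slab K)).inter_right ?_
    exact isClosed_biInter fun l _ => hO.isClosed_compl.preimage (f := fun z => z - l)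
      (by fun_prop)
  have h1 : IsClosed (G '' F) := (hFc.image_of_continuousOn
    (L.contG.mono fun z hz => hz.1.2)).isClosed
  have h2 : G x ∉ G '' F := by
    rintro ⟨z, hz, hzx⟩
    have h3 := (L.fibG _ hz.1.2 _ hx).1 hzx
    have h4 := mem_iInter₂.1 hz.2 _ h3
    simp only [mem_ofPred_eq, sub_sub_cancel] at h4
    exact h4 hxO
  have h3 : H '' (ball y 1 ∩ slab K) ∈ 𝓝[G '' slab K] (G x) := by
    rw [L.img, ← hxy]
    exact L.openH y hy (image_mem_map
      (inter_mem (mem_nhdsWithin_of_mem_nhds (ball_mem_nhds y one_pos)) self_mem_nhdsWithin))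
  filter_upwards [h3, mem_nhdsWithin_of_mem_nhds (h1.isOpen_compl.mem_nhds h2),
    self_mem_nhdsWithin] with w hw1 hw2 hw3
  obtain ⟨y', hy', rfl⟩ := hw1
  obtain ⟨z, hz, hzy⟩ := hw3
  obtain ⟨l, hl, hlz⟩ := exists_reduce J hP z
  have hzl : z - l ∈ slab K := by
    rw [sub_eq_add_neg]; exact add_mem_slab hKJ hz (neg_mem hl)
  have hGz : G (z - l) = G z := (L.fibG _ hzl _ hz).2 (by simpa using neg_mem hl)
  by_contra hc
  refine hw2 ⟨z - l, ⟨⟨fun i => ⟨hlz i, fun hi => ?_⟩, hzl⟩, mem_iInter₂.2 fun m hm hmO => hc ?_⟩,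
    hGz.trans hzy⟩
  · have h4 := L.vert _ hzl _ hy'.2 (hGz.trans hzy) i hi
    have h5 : |y' i - y i| ≤ 1 := by
      have := norm_le_pi_norm (y' - y) i
      rw [Real.norm_eq_abs, Pi.sub_apply] at this
      exact this.trans (mem_ball_iff_norm.1 hy'.1).le
    exact (abs_sub_le _ (y' i) _).trans (add_le_add h4 h5)
  · have hs : z - l - m ∈ slab K := by
      rw [sub_eq_add_neg]; exact add_mem_slab hKJ hzl (neg_mem hm)
    have h4 : G (z - l - m) ∈ N := hON ⟨hmO, hs⟩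
    rwa [(L.fibG _ hs _ hzl).2 (by simpa using neg_mem hm), hGz, hzy] at h4

/-- the lift of `H⁻¹ ∘ G` is a homeomorphism of the slab -/
lemma Ladder.exists_equiv [T2Space Z] (hP : 0 < P) (hKJ : Disjoint K J)
    (L : Ladder K J P C c G H) {x₀ y₀ : ι → ℝ} (hx₀ : x₀ ∈ slab K) (hy₀ : y₀ ∈ slab K)
    (h₀ : G x₀ = H y₀) :
    ∃ u w : (ι → ℝ) → (ι → ℝ), ContinuousOn u (slab K) ∧ MapsTo u (slab K) (slab K) ∧
      ContinuousOn w (slab K) ∧ MapsTo w (slab K) (slab K) ∧ (∀ x ∈ slab K, H (u x) = G x) ∧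
      (∀ y ∈ slab K, G (w y) = H y) ∧ (∀ x ∈ slab K, w (u x) = x) ∧
      (∀ y ∈ slab K, u (w y) = y) ∧ u x₀ = y₀ := by
  obtain ⟨u, u1, u2, u3, u4⟩ := exists_lift hP hKJ L.contG L.fibH L.openH L.img.subset hx₀ hy₀ h₀
  obtain ⟨w, w1, w2, w3, w4⟩ := exists_lift hP hKJ L.contH L.fibG (L.openG hP hKJ)
    L.img.superset hy₀ hx₀ h₀.symm
  have hc := (convex_slab K).isPreconnected
  refine ⟨u, w, u1, u2, w1, w2, u3, w3, fun x hx => ?_, fun y hy => ?_, u4⟩
  · have := lat_const (J := J) hP hc (f := fun x => w (u x) - x)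
      ((w1.comp u1 u2).sub continuousOn_id)
      (fun z hz => (L.fibG _ (w2 (u2 hz)) _ hz).1 (by rw [w3 _ (u2 hz), u3 _ hz])) hx hx₀
    simp only [u4, w4, sub_self] at this
    exact sub_eq_zero.1 this
  · have := lat_const (J := J) hP hc (f := fun x => u (w x) - x)
      ((u1.comp w1 w2).sub continuousOn_id)
      (fun z hz => (L.fibH _ (u2 (w2 hz)) _ hz).1 (by rw [u3 _ (w2 hz), w3 _ hz])) hy hy₀
    simp only [u4, w4, sub_self] at this
    exact sub_eq_zero.1 this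

end Crest.Agent.X212.Lad50
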