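import Crest.Agent.X212.Top68.Defs
import Crest.Agent.X212.Wrd81.Gau
import Crest.Agent.X212.Abel74.Red

/-! Row 212, TOP-ND (helper50): the linear terms span the normal sections. -/

set_option autoImplicit false
set_option linter.unusedSectionVars false
noncomputable section
open scoped Manifold ContDiff Topology InnerProductSpace
open MeasureTheory Set Function Filter

namespace Crest.Agent.X212.Lad50.Nd
open An Abel74 Map77 Top68 Wrd81
open Wz78 (pm_sym pm_pm pm_rho pp_rho j_pm j_pp g_pp g_ρ pg_mem pg_of_mem pg_pg inner_pg inner_q'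
  pm_pp g_skw)

variable {E : Type} [NormedAddCommGroup E] [NormedSpace ℝ E] [FiniteDimensional ℝ E]
  [MeasurableSpace E] [BorelSpace E]
  {HM : Type} [TopologicalSpace HM] {I : ModelWithCorners ℝ E HM} [I.Boundaryless]
  {M : Type} [TopologicalSpace M] [ChartedSpace HM M] [IsManifold I ∞ M]
  [MeasurableSpace M] [T2Space M] [BorelSpace M] [SecondCountableTopology M]
  {ι : Type} [Fintype ι] {lam : Type} [Fintype lam]

section pt
variable {m : Md M ι lam} {B : Base M ι lam} {x : M} {ξ η : m.A} {Φ v w : m.V}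
  (h : SP I B m x ξ Φ)
include h

theorem orth_pm (hv : m.pp B x v = v) (hw : m.pm B x w = w) : ⟪v, w⟫_ℝ = 0 := by
  rw [← hw, ← pm_sym h.hB h.H x, ← hv, ← mul_apply_eq_comp, pm_pp h.hB h.H, zero_apply,
    inner_zero_left]

theorem pm_ρ (hv : m.pp B x v = v) (a : ι) : m.pm B x (m.ρ a x v) = m.ρ a x v :=
  (ap (pm_rho h.hB h.H a x) _).trans (congrArg _ hv)

theorem pp_ρ (hv : m.pm B x v = v) (a : ι) : m.pp B x (m.ρ a x v) = m.ρ a x v :=
  (ap (pp_rho h.hB h.H a x) _).trans (congrArg _ hv)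

theorem pm_j (hv : m.pm B x v = v) (s : Eu lam) : m.pm B x (m.j x s v) = m.j x s v :=
  (ap (j_pm h.H x s) _).symm.trans (congrArg _ hv)

theorem pp_j (hv : m.pp B x v = v) (s : Eu lam) : m.pp B x (m.j x s v) = m.j x s v :=
  (ap (j_pp h.H x s) _).symm.trans (congrArg _ hv)

theorem hf_cl (d : ι → ℝ) : hf m x ξ (∑ a, d a • m.ρ a x Φ) = ∑ a, d a • m.ρ a x Φ := by
  simp only [map_sum, map_smul, h.hf_ρ, h.hfΦ]

theorem cl_P (b : ι) : ∑ a, B.P b a x • m.ρ a x Φ = m.ρ b x Φ := by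
  rw [← (h.H.cl x).proj b]; simp

theorem gt_sym (a b : m.A) : ⟪gt ξ a, b⟫_ℝ = ⟪a, gt ξ b⟫_ℝ := by
  simp only [gt_apply, real_inner_smul_right, real_inner_comm]; ring

theorem fix_of (hη : η ∈ m.gS x) (h0 : ⟪ξ, η⟫_ℝ = 0) : (m.pg x - gt ξ) η = η := by
  rw [sub_apply, pg_of_mem hη, gt_apply, h0]; simp

theorem prp_mem (a : m.A) : (m.pg x - gt ξ) a ∈ m.gS x := by
  rw [sub_apply, gt_apply]; exact sub_mem (pg_mem x a) (Submodule.smul_mem _ _ h.mem)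

theorem prp_inner (a : m.A) : ⟪ξ, (m.pg x - gt ξ) a⟫_ℝ = 0 := by
  rw [sub_apply, gt_apply, inner_sub_right, real_inner_smul_right, h.nsq, ← inner_pg,
    pg_of_mem h.mem]
  ring

end pt

variable {B : Base M ι lam} {G : Geo I M ι lam} {c : Cfg M ι lam 0} {ξ : M → c.m.A}

theorem sm_cl (h : TP B G c ξ) {g : M → ℝ} (hg : Sm I g) : Sm I (c.sw G.F [.cl g]) :=
  contMDiff_finsetSum fun a _ => sm_smul (G.F.sm_D hg a) ((h.ad.ok.sρ a).clm_apply h.ad.sm)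

theorem cs_one {κ : Type} [Fintype κ] (J : En κ) (v : Eu κ) : cs J 1 v = v := by simp [cs]

variable (B G c) in
/-- the span of the values -/
abbrev WW : Submodule ℝ (M → Ef ι (Fin c.m.N)) :=
  Submodule.span ℝ {v | ∃ w : LT M lam, w.OK G.F ∧ w.val B G.F c 1 = v}

variable [CompactSpace M]

theorem cb (F : Fr I M ι) {f : M → ℝ} (hf : Sm I f) : F.Cb f :=
  Sob92.Cb_of_hcs hf (HasCompactSupport.of_compactSpace _)

theorem cd (F : Fr I M ι) {f : M → ℝ} (hf : Sm I f) : F.Cd f := ⟨hf, fun a => cb F (F.sm_D hf a)⟩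

theorem ok2 (F : Fr I M ι) {f g : M → ℝ} (hf : Sm I f) (hg : Sm I g) :
    SW.OK F [.mul f, .cl g] := fun t ht => by
  simp only [List.mem_cons, List.not_mem_nil, or_false] at ht
  rcases ht with rfl | rfl
  exacts [cb F hf, cd F hg]

theorem ok1 (F : Fr I M ι) {g : M → ℝ} (hg : Sm I g) : SW.OK F [.cl g] := fun t ht => by
  obtain rfl := List.mem_singleton.1 ht
  exact cd F hg

variable (h : TP B G c ξ)
include h

theorem ex (x : M) (b : ι) : ∃ g, Sm I g ∧ c.sw G.F [.cl g] x = c.m.ρ b x (c.Φ x) := by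
  obtain ⟨g, hg, e⟩ := exists_tf_D G.F (univ_mem : univ ∈ 𝓝 x) b
  refine ⟨g, hg.sm, Eq.trans ?_ (cl_P (h.pt x) b)⟩
  change ∑ a, G.F.D a g x • c.m.ρ a x (c.Φ x) = _
  simp only [e, h.hG.P]

theorem hfc (g : M → ℝ) (x : M) :
    hf c.m x (ξ x) (c.sw G.F [.cl g] x) = c.sw G.F [.cl g] x := hf_cl (h.pt x) _

theorem sj (s : Eu lam) {g : M → ℝ} (hg : Sm I g) :
    Sm I fun x => c.m.j x s (c.sw G.F [.cl g] x) :=
  (h.ad.ok.sj.clm_apply contMDiff_const).clm_apply (sm_cl h hg)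

theorem row1 {u : M → c.m.V} (hu : Sm I u) (p1 : ∀ x, c.m.pm B x (u x) = u x)
    (h2 : ∀ x, hf c.m x (ξ x) (u x) = 0) :
    u ∈ (WW B G c).comap (act fun _ => i1 c.m.V (Fm (ι × ι) c.m.A)) := by
  have hB := h.hB
  have H := h.ad.ok
  refine mem_of_span (q := fun x => hg c.m x (ξ x) * c.m.pm B x)
    (𝒩 := {n | ∃ s g, Sm I g ∧ n = fun x => c.m.pm B x (c.m.j x s (c.sw G.F [.cl g] x))})
    ((H.sp.sub (h.sp.toRed.sm_hf H)).clm_comp (Wz78.sm_pm H hB)) (fun x v w => ?_)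
    (fun x v => ?_) ?_ ?_ isOpen_univ ?_ (fun x _ v hv h0 => ?_) hu
    (HasCompactSupport.of_compactSpace _) (subset_univ _) fun x => ?_
  · simp only [mul_apply_eq_comp]
    rw [(h.pt x).hg_s, pm_sym hB H x, (h.pt x).hg_pm]
  · simp only [mul_apply_eq_comp, (h.pt x).hg_pm, (h.pt x).hg_hg]
    exact ap (pm_pm hB H x) _
  · rintro _ ⟨s, g, hg, rfl⟩
    exact (Wz78.sm_pm H hB).clm_apply (sj h s hg)
  · rintro _ ⟨s, g, hg, rfl⟩ x
    simp only [mul_apply_eq_comp, (h.pt x).hg_pm, (h.pt x).hg_j, hfc h]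
    exact ap (pm_pm hB H x) _
  · rintro f hf - - _ ⟨s, g, hg, rfl⟩
    refine Submodule.subset_span ⟨.a (fun _ => s) [.mul f, .cl g],
      ⟨trivial, Sob92.Cb_const _, ok2 _ hf hg⟩, funext fun x => ?_⟩
    change i1 _ _ (c.m.pm B x (cs _ 1 (c.m.j x s (f x • c.sw G.F [.cl g] x)))) = i1 _ _ _
    rw [cs_one, map_smul, map_smul]
  · have e := h.pt x
    have hv : hg c.m x (ξ x) (c.m.pm B x v) = v := hv
    have a1 : c.m.pm B x v = v := by
      rw [← hv, e.hg_pm]; exact ap (pm_pm hB H x) _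
    refine e.span2 (by rwa [a1] at hv) (fun s a => ?_) fun s a b =>
      orth_pm e (pp_j e (pp_ρ e (pm_ρ e e.pos b) a) s) a1
    obtain ⟨g, hg, e1⟩ := ex h x a
    have := h0 _ ⟨s, g, hg, rfl⟩
    rwa [pm_sym hB H x, a1, e1] at this
  · change hg c.m x (ξ x) (c.m.pm B x _) = _
    rw [p1, SP.hg_apply, h2, sub_zero, (h.pt x).p_of_pm (p1 x)]

theorem sq : Sm I fun x => c.m.pg x - gt (ξ x) := (Std94.sm_pg h.hB h.ad.ok).sub
  (sm_smul contMDiff_const ((rkL.contMDiff.comp h.sp.sm).clm_apply h.sp.sm))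

theorem qs (x : M) (a b : c.m.A) :
    ⟪(c.m.pg x - gt (ξ x)) a, b⟫_ℝ = ⟪a, (c.m.pg x - gt (ξ x)) b⟫_ℝ := by
  simp only [sub_apply, inner_sub_left, inner_sub_right, inner_pg, gt_sym (h.pt x)]

theorem qi (x : M) (a : c.m.A) :
    (c.m.pg x - gt (ξ x)) ((c.m.pg x - gt (ξ x)) a) = (c.m.pg x - gt (ξ x)) a :=
  fix_of (h.pt x) (prp_mem (h.pt x) a) (prp_inner (h.pt x) a)

theorem sp_g {x : M} {v : c.m.A} (m : v ∈ c.m.gS x) (o : ⟪ξ x, v⟫_ℝ = 0)
    (h0 : ∀ s g₁ g₂, Sm I g₁ → Sm I g₂ →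
      ⟪c.m.q x (c.m.j x s (c.sw G.F [.cl g₁] x)) (c.sw G.F [.cl g₂] x), v⟫_ℝ = 0) : v = 0 := by
  have e := h.pt x
  refine e.eq_zero_of_apply m e.pΦ e.ne (e.span2 (by rw [e.hg_perp m o, e.hfΦ])
    (fun s a => ?_) fun s a b => ?_)
  · rw [real_inner_comm]
    have b : opL v (c.m.pp B x (c.Φ x)) = c.m.pp B x (opL v (c.Φ x)) := ap (g_pp e.H m) _
    rw [e.pos] at b
    exact orth_pm e b.symm (pm_j e (pm_ρ e e.pos a) s)
  · obtain ⟨g₁, a1, e1⟩ := ex h x b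
    obtain ⟨g₂, a2, e2⟩ := ex h x a
    have := h0 s g₁ g₂ a1 a2
    rw [real_inner_comm, inner_q' m, e1, e2] at this
    have b1 : c.m.j x s (c.m.ρ a x (c.m.ρ b x (c.Φ x))) =
      c.m.ρ a x (c.m.j x s (c.m.ρ b x (c.Φ x))) := ap (e.H.jρ a x s) _
    have b2 : c.m.ρ a x (opL v (c.Φ x)) = opL v (c.m.ρ a x (c.Φ x)) := ap (g_ρ m a) _
    rw [b1, e.H.ρsk, b2, real_inner_comm, this, neg_zero]

theorem row2' {g g' : M → ℝ} (hg : Sm I g) (hg' : Sm I g') {u : M → c.m.A} (hu : Sm I u)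
    (p : ∀ x, (c.m.pg x - gt (ξ x)) (u x) = u x) : u ∈ (WW B G c).comap
      (act fun x => i2 c.m.V _ ∘L c.m.p2 B x ∘L wg G.F c.m.A g g' x) := by
  have H := h.ad.ok
  refine mem_of_span (q := fun x => c.m.pg x - gt (ξ x))
    (𝒩 := {n | ∃ s g₁ g₂, Sm I g₁ ∧ Sm I g₂ ∧ n = fun x =>
      c.m.q x (c.m.j x s (c.sw G.F [.cl g₁] x)) (c.sw G.F [.cl g₂] x)})
    (sq h) (qs h) (qi h) ?_ ?_ isOpen_univ ?_ (fun x _ v hv h0 => ?_) hu
    (HasCompactSupport.of_compactSpace _) (subset_univ _) p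
  · rintro _ ⟨s, g₁, g₂, a1, a2, rfl⟩
    exact (Std94.sm_pg h.hB H).clm_apply (hsL.contMDiff.comp
      ((rkL.contMDiff.comp (sj h s a1)).clm_apply (sm_cl h a2)))
  · rintro _ ⟨s, g₁, g₂, a1, a2, rfl⟩ x
    have e := h.pt x
    refine fix_of e (pg_mem x _) ?_
    rw [inner_q' e.mem, xi_of_hf H e.mem e.sq (hfc h g₂ x)]
    exact e.orth (by rw [e.hf_J, hfc h]) (by rw [e.hg_j, hfc h])
  · rintro f₁ b1 - - _ ⟨s, g₁, g₂, a1, a2, rfl⟩
    refine Submodule.subset_span ⟨.b (fun _ => s) g g' [.mul f₁, .cl g₁] [.cl g₂],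
      ⟨trivial, Sob92.Cb_const _, cd _ hg, cd _ hg', ok2 _ b1 a1, ok1 _ a2, by simp⟩,
      funext fun x => ?_⟩
    change i2 _ _ (c.m.p2 B x (WithLp.toLp 2 fun t => _ • c.m.q x (cs _ 1 (c.m.j x s
      (f₁ x • c.sw G.F [.cl g₁] x))) _)) = i2 _ _ (c.m.p2 B x (wg G.F c.m.A g g' x _))
    rw [wg_apply, cs_one, map_smul]
    congr 3
    funext t
    congr 1
    change c.m.pg x (hsL (rkL _ _)) = _ • c.m.pg x (hsL (rkL _ _))
    simp only [map_smul, smul_apply]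
  · exact sp_g h (hv ▸ prp_mem (h.pt x) v) (hv ▸ prp_inner (h.pt x) v)
      fun s g₁ g₂ a1 a2 => h0 _ ⟨s, g₁, g₂, a1, a2, rfl⟩

theorem row2 {u : M → Fm (ι × ι) c.m.A} (hu : Sm I u) (p2 : ∀ x, c.m.p2 B x (u x) = u x)
    (h3 : ∀ x t, ⟪ξ x, u x t⟫_ℝ = 0) :
    u ∈ (WW B G c).comap (act fun _ => i2 c.m.V (Fm (ι × ι) c.m.A)) := by
  refine mem_two h.hB h.hG.P (sq h) (qs h) (qi h) isOpen_univ (fun g hg g' hg' f hf b => ?_) hu
    (HasCompactSupport.of_compactSpace _) (subset_univ _) fun x => ?_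
  · have := row2' h hg.sm hg'.sm (sm_smul hf.sm ((sq h).clm_apply (contMDiff_const (c := b))))
      fun x => by rw [map_smul, qi h]
    rw [Submodule.mem_comap] at this ⊢
    convert this using 1
    ext1 x
    change i2 _ _ _ = i2 _ _ (c.m.p2 B x (wg G.F c.m.A g g' x _))
    congr 1
    ext1 s
    simp only [Md.p2, wg_apply, map_smul, PiLp.smul_apply, Map77.idx_apply,
      pg_of_mem (prp_mem (h.pt x) b)]
  · have a1 : ∀ t, c.m.pg x (u x t) = u x t := fun t => by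
      rw [← p2]; exact T_idx (pg_pg x) _ t
    conv_rhs => rw [← p2]
    ext1 s
    simp only [Md.p2, Map77.idx_apply, a1, fix_of (h.pt x) (a1 _ ▸ pg_mem x _) (h3 x _)]

/-- **ND** -/
theorem nd : Nd B G c ξ := fun y hy h1 h2 h3 => by
  have k1 := row1 h (u := fun x => f2 _ _ (y x)) ((f2 _ _).contMDiff.comp hy)
    (fun x => maps_f2 (p := c.m.pm B) (q := c.m.p2 B) x _ (h1 x)) h2
  have k2 := row2 h (u := fun x => s2 _ _ (y x)) ((s2 _ _).contMDiff.comp hy)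
    (fun x => maps_s2 (p := c.m.pm B) (q := c.m.p2 B) x _ (h1 x)) h3
  convert add_mem (Submodule.mem_comap.1 k1) (Submodule.mem_comap.1 k2) using 1
  exact funext fun x => (i1_add_i2 _).symm

end Crest.Agent.X212.Lad50.Nd
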