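import Mathlib

/-!
# Row 212, layer T, LAD (1): a homeomorphism with sublinear displacement is, on a given ball,
the restriction of a compactly supported homeomorphism (radial compression).
-/

open Set Filter Topology Metric

namespace Crest.Agent.X212.Lad50

variable {E : Type*} [NormedAddCommGroup E] [NormedSpace ℝ E]

/-- the shrinking factor -/
noncomputable def shr (R s : ℝ) : ℝ := (R + 1 - 1 / (1 + (max s R - R))) / max s R

/-- the expanding factor -/
noncomputable def exf (R s : ℝ) : ℝ := (R - 1 + 1 / (1 - (max s R - R))) / max s R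

/-- radial compression onto the ball of radius `R + 1` -/
noncomputable def cmp (R : ℝ) (x : E) : E := shr R ‖x‖ • x

/-- its inverse -/
noncomputable def dcp (R : ℝ) (y : E) : E := exf R ‖y‖ • y

lemma shr_of_le {R s : ℝ} (hR : 0 < R) (h : s ≤ R) : shr R s = 1 := by
  unfold shr; rw [max_eq_right h]; field_simp; ring

lemma exf_of_le {R s : ℝ} (hR : 0 < R) (h : s ≤ R) : exf R s = 1 := by
  unfold exf; rw [max_eq_right h]; field_simp; ring

lemma shr_mul {R s : ℝ} (hR : 0 < R) (h : R ≤ s) : shr R s * s = R + 1 - 1 / (1 + (s - R)) := by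
  unfold shr; rw [max_eq_left h]; field_simp [(hR.trans_le h).ne']

lemma exf_mul {R s : ℝ} (hR : 0 < R) (h : R ≤ s) : exf R s * s = R - 1 + 1 / (1 - (s - R)) := by
  unfold exf; rw [max_eq_left h]; field_simp [(hR.trans_le h).ne']

lemma shr_pos {R s : ℝ} (hR : 0 < R) : 0 < shr R s := by
  unfold shr
  have h1 : R ≤ max s R := le_max_right _ _
  have h2 : 1 / (1 + (max s R - R)) ≤ 1 := by
    rw [div_le_one (by linarith)]; linarith
  exact div_pos (by linarith) (by linarith)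

lemma one_le_exf {R s : ℝ} (hR : 0 < R) (h : s < R + 1) : 1 ≤ exf R s := by
  unfold exf
  have h1 : R ≤ max s R := le_max_right _ _
  have h2 : max s R < R + 1 := max_lt h (by linarith)
  rw [le_div_iff₀ (by linarith)]
  have h3 : 1 + (max s R - R) ≤ 1 / (1 - (max s R - R)) := by
    rw [le_div_iff₀ (by linarith)]; nlinarith
  linarith

lemma continuous_shr {R : ℝ} (hR : 0 < R) : Continuous (shr R) := by
  unfold shr
  refine Continuous.div (continuous_const.sub (continuous_const.div (by fun_prop) ?_))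
    (by fun_prop) ?_
  · intro s; have := le_max_right s R; linarith
  · intro s; have := le_max_right s R; linarith

lemma continuousOn_exf {R : ℝ} (hR : 0 < R) : ContinuousOn (exf R) (Iio (R + 1)) := by
  unfold exf
  refine ContinuousOn.div (continuousOn_const.add (continuousOn_const.div (by fun_prop) ?_))
    (by fun_prop) ?_
  · intro s hs; have : max s R < R + 1 := max_lt hs (by linarith); linarith
  · intro s _; have := le_max_right s R; linarith

lemma continuous_cmp {R : ℝ} (hR : 0 < R) : Continuous (cmp R : E → E) :=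
  ((continuous_shr hR).comp continuous_norm).smul continuous_id

lemma continuousOn_dcp {R : ℝ} (hR : 0 < R) : ContinuousOn (dcp R : E → E) (ball 0 (R + 1)) :=
  ((continuousOn_exf hR).comp continuous_norm.continuousOn
    (fun y hy => by simpa using hy)).smul continuousOn_id

lemma cmp_of_le {R : ℝ} (hR : 0 < R) {x : E} (h : ‖x‖ ≤ R) : cmp R x = x := by
  simp [cmp, shr_of_le hR h]

lemma dcp_of_le {R : ℝ} (hR : 0 < R) {x : E} (h : ‖x‖ ≤ R) : dcp R x = x := by
  simp [dcp, exf_of_le hR h]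

lemma norm_cmp {R : ℝ} (hR : 0 < R) {x : E} (h : R ≤ ‖x‖) :
    ‖cmp R x‖ = R + 1 - 1 / (1 + (‖x‖ - R)) := by
  rw [cmp, norm_smul, Real.norm_of_nonneg (shr_pos hR).le, shr_mul hR h]

lemma norm_dcp {R : ℝ} (hR : 0 < R) {y : E} (h : R ≤ ‖y‖) (h' : ‖y‖ < R + 1) :
    ‖dcp R y‖ = R - 1 + 1 / (1 - (‖y‖ - R)) := by
  rw [dcp, norm_smul, Real.norm_of_nonneg (zero_le_one.trans (one_le_exf hR h')), exf_mul hR h]

lemma norm_cmp_lt {R : ℝ} (hR : 0 < R) (x : E) : ‖cmp R x‖ < R + 1 := by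
  rcases le_total ‖x‖ R with h | h
  · rw [cmp_of_le hR h]; linarith
  · rw [norm_cmp hR h]
    have : 0 < 1 / (1 + (‖x‖ - R)) := by apply one_div_pos.2; linarith
    linarith

lemma dcp_cmp {R : ℝ} (hR : 0 < R) (x : E) : dcp R (cmp R x) = x := by
  rcases le_total ‖x‖ R with h | h
  · rw [cmp_of_le hR h, dcp_of_le hR h]
  · have h0 : 0 < ‖x‖ := hR.trans_le h
    have h1 := norm_cmp hR h
    have h2 : 1 / (1 + (‖x‖ - R)) ≤ 1 := by rw [div_le_one (by linarith)]; linarith
    have h3 : R ≤ ‖cmp R x‖ := by rw [h1]; linarith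
    have h4 := exf_mul hR h3
    have h5 : exf R ‖cmp R x‖ * ‖cmp R x‖ = ‖x‖ := by
      rw [h4, h1]
      have : 1 - (R + 1 - 1 / (1 + (‖x‖ - R)) - R) = 1 / (1 + (‖x‖ - R)) := by ring
      rw [this, one_div_one_div]; ring
    have h6 : ‖cmp R x‖ = shr R ‖x‖ * ‖x‖ := by rw [h1, shr_mul hR h]
    have h7 : exf R ‖cmp R x‖ * shr R ‖x‖ = 1 := by
      have : exf R ‖cmp R x‖ * shr R ‖x‖ * ‖x‖ = 1 * ‖x‖ := by rw [mul_assoc, ← h6, h5, one_mul]
      exact mul_right_cancel₀ h0.ne' this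
    rw [dcp]; conv_lhs => rw [cmp, smul_smul]
    change (exf R ‖cmp R x‖ * shr R ‖x‖) • x = x
    rw [h7, one_smul]

lemma cmp_dcp {R : ℝ} (hR : 0 < R) {y : E} (h' : ‖y‖ < R + 1) : cmp R (dcp R y) = y := by
  rcases le_total ‖y‖ R with h | h
  · rw [dcp_of_le hR h, cmp_of_le hR h]
  · have h0 : 0 < ‖y‖ := hR.trans_le h
    have h1 := norm_dcp hR h h'
    have h2 : 1 ≤ 1 / (1 - (‖y‖ - R)) := by rw [le_div_iff₀ (by linarith)]; linarith
    have h3 : R ≤ ‖dcp R y‖ := by rw [h1]; linarith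
    have h4 := shr_mul hR h3
    have h5 : shr R ‖dcp R y‖ * ‖dcp R y‖ = ‖y‖ := by
      rw [h4, h1]
      have : 1 + (R - 1 + 1 / (1 - (‖y‖ - R)) - R) = 1 / (1 - (‖y‖ - R)) := by ring
      rw [this, one_div_one_div]; ring
    have h6 : ‖dcp R y‖ = exf R ‖y‖ * ‖y‖ := by rw [h1, exf_mul hR h]
    have h7 : shr R ‖dcp R y‖ * exf R ‖y‖ = 1 := by
      have : shr R ‖dcp R y‖ * exf R ‖y‖ * ‖y‖ = 1 * ‖y‖ := by rw [mul_assoc, ← h6, h5, one_mul]
      exact mul_right_cancel₀ h0.ne' this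
    rw [cmp]; conv_lhs => rw [dcp, smul_smul]
    change (shr R ‖dcp R y‖ * exf R ‖y‖) • y = y
    rw [h7, one_smul]

/-- far out, the compression of a sublinearly displaced point is close -/
lemma cmp_close {R : ℝ} (hR : 0 < R) {x x' : E} {ε : ℝ} (hε : 0 < ε) (hε1 : ε ≤ 1 / 2)
    (hx : 2 * R + 2 / ε ≤ ‖x‖) (hd : ‖x' - x‖ ≤ ε * ‖x‖) :
    ‖cmp R x' - cmp R x‖ ≤ ε + 2 * (R + 1) * ε := by
  have he : 0 < 2 / ε := by positivity
  have hx0 : 0 < ‖x‖ := by linarith
  have hn : ‖x‖ - ‖x'‖ ≤ ε * ‖x‖ := by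
    have := norm_sub_norm_le x x'; rw [norm_sub_rev] at this; linarith
  have hn' : ‖x'‖ - ‖x‖ ≤ ε * ‖x‖ := (norm_sub_norm_le x' x).trans hd
  have he2 : 2 / ε = 2 * (1 / ε) := by ring
  have hx' : R + 1 / ε ≤ ‖x'‖ := by nlinarith
  have he1 : 0 < 1 / ε := by positivity
  have hx'0 : 0 < ‖x'‖ := by linarith
  have hRx : R ≤ ‖x‖ := by linarith
  have hRx' : R ≤ ‖x'‖ := by linarith
  set a := shr R ‖x‖ with ha
  set a' := shr R ‖x'‖ with ha'
  have h1 := shr_mul hR hRx
  have h2 := shr_mul hR hRx'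
  rw [← ha] at h1; rw [← ha'] at h2
  have hb : ∀ s, R + 1 / ε ≤ s → 0 < 1 / (1 + (s - R)) ∧ 1 / (1 + (s - R)) ≤ ε := by
    intro s hs
    refine ⟨by apply one_div_pos.2; linarith, ?_⟩
    rw [div_le_iff₀ (by linarith)]
    have : ε * (1 / ε) = 1 := by field_simp
    nlinarith
  obtain ⟨b1, b2⟩ := hb ‖x‖ (by linarith)
  obtain ⟨b3, b4⟩ := hb ‖x'‖ hx'
  have hap : 0 < a := shr_pos hR
  have key : cmp R x' - cmp R x = (a' - a) • x' + a • (x' - x) := by
    simp only [cmp, ← ha, ← ha', sub_smul, smul_sub]; abel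
  have e1 : ‖a • (x' - x)‖ ≤ (R + 1) * ε := by
    rw [norm_smul, Real.norm_of_nonneg hap.le]
    calc a * ‖x' - x‖ ≤ a * (ε * ‖x‖) := by gcongr
      _ = (a * ‖x‖) * ε := by ring
      _ ≤ (R + 1) * ε := by rw [h1]; gcongr; linarith
  have e2 : ‖(a' - a) • x'‖ ≤ ε + (R + 1) * ε := by
    rw [norm_smul, Real.norm_eq_abs, ← abs_of_pos hx'0, ← abs_mul]
    have e3 : (a' - a) * ‖x'‖ = (a' * ‖x'‖ - a * ‖x‖) + a * (‖x‖ - ‖x'‖) := by ring
    have e4 : |a * (‖x‖ - ‖x'‖)| ≤ (R + 1) * ε := by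
      rw [abs_mul, abs_of_pos hap]
      calc a * |‖x‖ - ‖x'‖| ≤ a * (ε * ‖x‖) := by
            gcongr; rw [abs_le]; constructor <;> linarith
        _ = (a * ‖x‖) * ε := by ring
        _ ≤ (R + 1) * ε := by rw [h1]; gcongr; linarith
    have e5 : |a' * ‖x'‖ - a * ‖x‖| ≤ ε := by
      rw [h1, h2, abs_le]; constructor <;> linarith
    rw [e3]; exact (abs_add_le _ _).trans (by linarith)
  rw [key]; exact (norm_add_le _ _).trans (by linarith)

/-- displacement `o(‖x‖)` at infinity -/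
def Sublin (v : E → E) : Prop := ∀ ε > 0, ∃ M, ∀ x, M ≤ ‖x‖ → ‖v x - x‖ ≤ ε * ‖x‖

open Classical in
/-- the conjugated map, extended by the identity -/
noncomputable def conj (R : ℝ) (v : E → E) (y : E) : E :=
  if ‖y‖ < R + 1 then cmp R (v (dcp R y)) else y

lemma conj_close {R : ℝ} (hR : 0 < R) {v : E → E} (hv : Sublin v) {η : ℝ} (hη : 0 < η) :
    ∃ δ > 0, ∀ y : E, R + 1 - δ < ‖y‖ → ‖conj R v y - y‖ ≤ η := by
  set ε := min (1 / 2) (η / (2 * R + 3)) with hε
  have hε0 : 0 < ε := lt_min (by norm_num) (by positivity)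
  obtain ⟨M, hM⟩ := hv ε hε0
  set N := max M (2 * R + 2 / ε) with hN
  have he : 0 < 2 / ε := by positivity
  have hN0 : 2 * R + 2 / ε ≤ N := le_max_right _ _
  refine ⟨1 / (N + 1), by apply one_div_pos.2; linarith, fun y hy => ?_⟩
  unfold conj
  split_ifs with h
  · have hd : 1 / (N + 1) ≤ 1 := by rw [div_le_one (by linarith)]; linarith
    have h1 := norm_dcp hR (by linarith) h
    have h2 : N + 1 ≤ 1 / (1 - (‖y‖ - R)) := by
      rw [le_div_iff₀ (by linarith)]
      have : (N + 1) * (1 / (N + 1)) = 1 := by field_simp [show N + 1 ≠ 0 by linarith]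
      nlinarith
    have h3 : N ≤ ‖dcp R y‖ := by linarith
    have h4 := cmp_close hR hε0 (min_le_left _ _) (hN0.trans h3) (hM _ ((le_max_left _ _).trans h3))
    rw [cmp_dcp hR h] at h4
    refine h4.trans ?_
    have h5 : ε ≤ η / (2 * R + 3) := min_le_right _ _
    rw [le_div_iff₀ (by positivity)] at h5
    linarith
  · simp [hη.le]

lemma continuous_conj {R : ℝ} (hR : 0 < R) {v : E → E} (hc : Continuous v) (hv : Sublin v) :
    Continuous (conj R v) := by
  rw [continuous_iff_continuousAt]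
  intro y
  by_cases h : ‖y‖ < R + 1
  · have hb : ball (0 : E) (R + 1) ∈ 𝓝 y := isOpen_ball.mem_nhds (by simpa using h)
    have h1 : ContinuousAt (fun z => cmp R (v (dcp R z))) y :=
      ((continuous_cmp hR).comp hc).continuousAt.comp ((continuousOn_dcp hR).continuousAt hb)
    refine h1.congr ?_
    filter_upwards [hb] with z hz
    have : ‖z‖ < R + 1 := by simpa using hz
    simp [conj, this]
  · have hy : conj R v y = y := by simp [conj, h]
    rw [Metric.continuousAt_iff]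
    intro η hη
    obtain ⟨δ, hδ, hh⟩ := conj_close hR hv (half_pos (half_pos hη))
    refine ⟨min δ (η / 2), lt_min hδ (half_pos hη), fun z hz => ?_⟩
    rw [dist_eq_norm] at hz
    have h1 : ‖z - y‖ < δ := hz.trans_le (min_le_left _ _)
    have h2 : ‖z - y‖ < η / 2 := hz.trans_le (min_le_right _ _)
    have h3 : ‖y‖ - ‖z‖ ≤ ‖z - y‖ := by
      have := norm_sub_norm_le y z; rwa [norm_sub_rev] at this
    have h4 := hh z (by push Not at h; linarith)
    rw [hy, dist_eq_norm]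
    calc ‖conj R v z - y‖ = ‖(conj R v z - z) + (z - y)‖ := by congr 1; abel
      _ ≤ ‖conj R v z - z‖ + ‖z - y‖ := norm_add_le _ _
      _ < η := by linarith

lemma conj_conj {R : ℝ} (hR : 0 < R) {v w : E → E} (h : ∀ x, w (v x) = x) (y : E) :
    conj R w (conj R v y) = y := by
  by_cases hy : ‖y‖ < R + 1
  · have h1 : conj R v y = cmp R (v (dcp R y)) := by simp [conj, hy]
    rw [h1, conj, if_pos (norm_cmp_lt hR _), dcp_cmp hR, h, cmp_dcp hR hy]
  · have h1 : conj R v y = y := by simp [conj, hy]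
    rw [h1, conj, if_neg hy]

omit [NormedSpace ℝ E] in
/-- a continuous bijection which is the identity off a ball is a homeomorphism -/
lemma isHomeomorph_of_id_off [ProperSpace E] {f : E → E} (hc : Continuous f)
    (hb : Function.Bijective f) {ρ : ℝ} (hf : ∀ x, ρ ≤ ‖x‖ → f x = x) : IsHomeomorph f := by
  rw [isHomeomorph_iff_continuous_isClosedMap_bijective]
  refine ⟨hc, fun C hC => ?_, hb⟩
  have : f '' C = f '' (C ∩ closedBall 0 ρ) ∪ (C ∩ {x | ρ ≤ ‖x‖}) := by
    ext y; constructor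
    · rintro ⟨x, hx, rfl⟩
      rcases le_total ‖x‖ ρ with h | h
      · exact Or.inl ⟨x, ⟨hx, by simpa using h⟩, rfl⟩
      · right; rw [hf x h]; exact ⟨hx, h⟩
    · rintro (⟨x, hx, rfl⟩ | ⟨hy, hy'⟩)
      · exact ⟨x, hx.1, rfl⟩
      · exact ⟨y, hy, hf y hy'⟩
  rw [this]
  exact (((isCompact_closedBall 0 ρ).inter_left hC).image hc).isClosed.union
    (hC.inter (isClosed_le continuous_const continuous_norm))

/-- **Radial compression.** -/
theorem rad [ProperSpace E] (v : E ≃ₜ E) (hv : Sublin v) {R : ℝ} (hR : 0 < R) :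
    ∃ ψ : E ≃ₜ E, (∀ x, ‖x‖ ≤ R → ‖v x‖ ≤ R → ψ x = v x) ∧ (∀ x, R + 1 ≤ ‖x‖ → ψ x = x) ∧
      ∀ x, (∀ t : ℝ, 1 ≤ t → v (t • x) = t • x) → ψ x = x := by
  have hoff : ∀ x, R + 1 ≤ ‖x‖ → conj R v x = x := fun x hx => by simp [conj, not_lt.2 hx]
  have hb : Function.Bijective (conj R v) :=
    Function.bijective_iff_has_inverse.2 ⟨conj R v.symm, conj_conj hR v.symm_apply_apply,
      conj_conj hR v.apply_symm_apply⟩
  have hh := isHomeomorph_of_id_off (continuous_conj hR v.continuous hv) hb hoff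
  refine ⟨hh.homeomorph _, fun x hx hvx => ?_, hoff, fun x hx => ?_⟩
  · change conj R v x = v x
    rw [conj, if_pos (by linarith), dcp_of_le hR hx, cmp_of_le hR hvx]
  · change conj R v x = x
    by_cases h : ‖x‖ < R + 1
    · rw [conj, if_pos h]
      have : v (dcp R x) = dcp R x := hx _ (one_le_exf hR h)
      rw [this, cmp_dcp hR h]
    · exact hoff x (not_lt.1 h)

end Crest.Agent.X212.Lad50
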