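import Crest.Agent.X212.Lad50.Sd
import Crest.Agent.X212.Dsc37.Tw

/-!
# Row 212, layer T, loop theorem road B: the poset of cells of a normal surface is a surface
-/

namespace Crest.Agent.X212.Lad50

open Dsc37

variable {G : Type} [AddGroup G] {X : Dat G} {w : X.V → X.V → ZMod 2}

lemma w_self (hD : X.Disc w) {σ : Finset X.V} (h : σ ∈ X.K) {x : X.V} (hx : x ∈ σ) : w x x = 0 := by
  have := hD.ec σ h x hx x hx x hx
  simpa using this

omit [AddGroup G] in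
lemma mx_mono {σ ρ : Finset X.V} (h : Mx w σ) (hs : σ ⊆ ρ) : Mx w ρ := by
  obtain ⟨x, hx, y, hy, e⟩ := h
  exact ⟨x, hs hx, y, hs hy, e⟩

lemma ex_edge (hD : X.Disc w) {σ : Finset X.V} (h : σ ∈ Sf X.K w) :
    ∃ e, e ⊆ σ ∧ e.card = 2 ∧ Mx w e := by
  obtain ⟨hK, x, hx, y, hy, e⟩ := h
  have : x ≠ y := fun h => e (h ▸ w_self hD hK hx)
  exact ⟨{x, y}, Finset.insert_subset hx (Finset.singleton_subset_iff.2 hy),
    Finset.card_pair this, x, by simp, y, by simp, e⟩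

lemma two_le_card (hD : X.Disc w) {σ : Finset X.V} (h : σ ∈ Sf X.K w) : 2 ≤ σ.card := by
  obtain ⟨e, h1, h2, -⟩ := ex_edge hD h
  exact h2 ▸ Finset.card_le_card h1

lemma sf_mt (hD : X.Disc w) {σ : Finset X.V} (h : σ ∈ Sf X.K w) : Mt X.A σ := by
  obtain ⟨hK, x, hx, y, hy, e⟩ := h
  rcases hD.supp σ hK x hx y hy e with h | h
  exacts [⟨x, hx, h⟩, ⟨y, hy, h⟩]

lemma sf_sub (hO : X.OK) {σ ρ : Finset X.V} (h : ρ ∈ X.K) (hs : σ ⊆ ρ) (hm : Mx w σ) :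
    σ ∈ Sf X.K w := ⟨hO.cxK.down ρ h σ hs (by obtain ⟨x, hx, -⟩ := hm; exact ⟨x, hx⟩), hm⟩

lemma sfF_sub (hO : X.OK) : Sf X.F w ⊆ Sf X.K w := fun _ h => ⟨hO.FK h.1, h.2⟩

lemma ex_min {V : Type*} {Q : Set (Finset V)} {r : Finset (Finset V)} (hr : r ∈ sd Q) :
    ∃ m ∈ r, ∀ σ ∈ r, m ⊆ σ := by
  obtain ⟨m, hm, h⟩ := r.exists_min_image Finset.card hr.1
  exact ⟨m, hm, fun σ hσ => sub_of_card (hr.2.2 m hm σ hσ) (h σ hσ)⟩

/-- every chain lies in a flag -/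
lemma ex_flag (hO : X.OK) (hL : X.Loc) (hD : X.Disc w) {r : Finset (Finset X.V)}
    (hr : r ∈ sd (Sf X.K w)) : ∃ f ∈ sd (Sf X.K w), f.card = 3 ∧ r ⊆ f := by
  obtain ⟨m, hm, hmin⟩ := ex_min hr
  obtain ⟨e, e1, e2, e3⟩ := ex_edge hD (hr.2.1 m hm)
  obtain ⟨T, T1, T2, T3⟩ := hL.pure _ (top_memK hr).1 (sf_mt hD (top_memK hr))
  have heT : e ⊆ T := e1.trans ((sub_top hm).trans T3)
  obtain ⟨t, t1, t2, t3, t4⟩ : ∃ t : Finset X.V, e ⊆ t ∧ t ⊆ T ∧ t.card = 3 ∧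
      ∀ σ ∈ r, σ.card = 3 → σ = t := by
    by_cases h : ∃ σ ∈ r, σ.card = 3
    · obtain ⟨t, ht, hc⟩ := h
      exact ⟨t, e1.trans (hmin t ht), (sub_top ht).trans T3, hc, fun σ hσ h =>
        eq_of_card (hr.2.2 σ hσ t ht) (h.trans hc.symm)⟩
    · obtain ⟨t, t1, t2, t3⟩ := Finset.exists_subsuperset_card_eq (n := 3) heT (by omega) (by omega)
      exact ⟨t, t1, t2, t3, fun σ hσ hc => absurd ⟨σ, hσ, hc⟩ h⟩
  refine ⟨{e, t, T}, ⟨by simp, ?_, ?_⟩, Finset.card_eq_three.2 ⟨e, t, T, ?_, ?_, ?_, rfl⟩,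
    fun σ hσ => ?_⟩
  · simp only [Finset.mem_insert, Finset.mem_singleton]
    rintro σ (rfl | rfl | rfl)
    exacts [sf_sub hO T1 heT e3, sf_sub hO T1 t2 (mx_mono e3 t1), ⟨T1, mx_mono e3 heT⟩]
  · simp only [Finset.mem_insert, Finset.mem_singleton]
    rintro σ (rfl | rfl | rfl) ρ (rfl | rfl | rfl) <;> simp [*]
  · rintro rfl; omega
  · rintro rfl; omega
  · rintro rfl; omega
  · have h1 := two_le_card hD (hr.2.1 σ hσ)
    have h2 := hO.dimK _ (hr.2.1 σ hσ).1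
    simp only [Finset.mem_insert, Finset.mem_singleton]
    rcases (by omega : σ.card = 2 ∨ σ.card = 3 ∨ σ.card = 4) with h | h | h
    · exact Or.inl (Finset.eq_of_subset_of_card_le (e1.trans (hmin σ hσ)) (by omega)).symm
    · exact Or.inr (Or.inl (t4 σ hσ h))
    · exact Or.inr (Or.inr (Finset.eq_of_subset_of_card_le ((sub_top hσ).trans T3) (by omega)))

/-- every boundary chain lies in a boundary flag -/
lemma ex_flagF (hO : X.OK) (hD : X.Disc w) {r : Finset (Finset X.V)}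
    (hr : r ∈ sd (Sf X.F w)) : ∃ f ∈ sd (Sf X.F w), f.card = 2 ∧ r ⊆ f := by
  obtain ⟨m, hm, hmin⟩ := ex_min hr
  obtain ⟨e, e1, e2, e3⟩ := ex_edge hD (sfF_sub hO (hr.2.1 m hm))
  have eF : e ∈ X.F := hO.cxF.down m (hr.2.1 m hm).1 e e1 (Finset.card_pos.1 (by omega))
  obtain ⟨t, t1, t2, t3, t4⟩ : ∃ t : Finset X.V, e ⊆ t ∧ t ∈ X.F ∧ t.card = 3 ∧
      ∀ σ ∈ r, σ.card = 3 → σ = t := by
    by_cases h : ∃ σ ∈ r, σ.card = 3
    · obtain ⟨t, ht, hc⟩ := h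
      exact ⟨t, e1.trans (hmin t ht), (hr.2.1 t ht).1, hc, fun σ hσ h =>
        eq_of_card (hr.2.2 σ hσ t ht) (h.trans hc.symm)⟩
    · obtain ⟨t, t1, t2, t3⟩ := Set.nonempty_of_ncard_ne_zero
        ((hO.edgB e eF e2 (sf_mt hD ⟨hO.FK eF, e3⟩)).trans_ne two_ne_zero)
      exact ⟨t, t3, t1, t2, fun σ hσ hc => absurd ⟨σ, hσ, hc⟩ h⟩
  refine ⟨{e, t}, ⟨by simp, ?_, ?_⟩, Finset.card_pair ?_, fun σ hσ => ?_⟩
  · simp only [Finset.mem_insert, Finset.mem_singleton]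
    rintro σ (rfl | rfl)
    exacts [⟨eF, e3⟩, ⟨t2, mx_mono e3 t1⟩]
  · simp only [Finset.mem_insert, Finset.mem_singleton]
    rintro σ (rfl | rfl) ρ (rfl | rfl) <;> simp [*]
  · rintro rfl; omega
  · have h1 := two_le_card hD (sfF_sub hO (hr.2.1 σ hσ))
    have h2 := hO.dimF _ (hr.2.1 σ hσ).1
    simp only [Finset.mem_insert, Finset.mem_singleton]
    rcases (by omega : σ.card = 2 ∨ σ.card = 3) with h | h
    · exact Or.inl (Finset.eq_of_subset_of_card_le (e1.trans (hmin σ hσ)) (by omega)).symm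
    · exact Or.inr (t4 σ hσ h)

lemma mx_pair (hD : X.Disc w) {σ : Finset X.V} (h : σ ∈ X.K) {x y : X.V} (hx : x ∈ σ)
    (hy : y ∈ σ) : Mx w {x, y} ↔ w x y ≠ 0 := by
  refine ⟨fun ⟨a, ha, b, hb, e⟩ h0 => e ?_, fun e => ⟨x, by simp, y, by simp, e⟩⟩
  have h1 := w_self hD h hx
  have h2 := w_self hD h hy
  have h3 := hD.ec σ h y hy x hx y hy
  simp only [Finset.mem_insert, Finset.mem_singleton] at ha hb
  rcases ha with rfl | rfl <;> rcases hb with rfl | rfl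
  exacts [h1, h0, by rw [h0, h2, add_zero] at h3; exact h3.symm, h2]

/-- a mixed triangle has two marked edges -/
lemma two_marked (hD : X.Disc w) {t : Finset X.V} (h : t ∈ Sf X.K w) (hc : t.card = 3) :
    {e | e ⊆ t ∧ e.card = 2 ∧ Mx w e}.ncard = 2 := by
  obtain ⟨hK, x, hx, y, hy, e⟩ := h
  have hxy : x ≠ y := fun h => e (h ▸ w_self hD hK hx)
  obtain ⟨z, hz, rfl⟩ := Finset.exists_eq_insert_iff.2 ⟨(Finset.insert_subset hx
    (Finset.singleton_subset_iff.2 hy) : {x, y} ⊆ t), by rw [Finset.card_pair hxy, hc]⟩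
  have mz : z ∈ insert z ({x, y} : Finset X.V) := Finset.mem_insert_self _ _
  have hzx : z ≠ x := fun h => hz (by simp [h])
  have hzy : z ≠ y := fun h => hz (by simp [h])
  have h3 := hD.ec _ hK x hx z mz y hy
  have hall : ∀ e' : Finset X.V, e' ⊆ insert z {x, y} → e'.card = 2 →
      e' = {x, y} ∨ e' = {x, z} ∨ e' = {z, y} := fun e' h1 h2 => by
    obtain ⟨a, b, hab, rfl⟩ := Finset.card_eq_two.1 h2
    have ha := h1 (Finset.mem_insert_self a {b})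
    have hb := h1 (Finset.mem_insert_of_mem (Finset.mem_singleton_self b))
    simp only [Finset.mem_insert, Finset.mem_singleton] at ha hb
    rcases ha with rfl | rfl | rfl <;> rcases hb with rfl | rfl | rfl <;>
      simp [Finset.pair_comm] at hab ⊢
  have s1 : ({x, y} : Finset X.V) ⊆ insert z {x, y} := Finset.subset_insert _ _
  have s2 : ({x, z} : Finset X.V) ⊆ insert z {x, y} :=
    Finset.insert_subset hx (Finset.singleton_subset_iff.2 mz)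
  have s3 : ({z, y} : Finset X.V) ⊆ insert z {x, y} :=
    Finset.insert_subset mz (Finset.singleton_subset_iff.2 hy)
  have m1 := (mx_pair hD hK hx hy).2 e
  by_cases h0 : w x z = 0
  · have h4 : w z y ≠ 0 := by rwa [h3, h0, zero_add] at e
    refine Set.ncard_eq_two.2 ⟨{x, y}, {z, y}, fun h => hz (h ▸ Finset.mem_insert_self z {y}), ?_⟩
    ext e'; constructor
    · rintro ⟨a, b, c⟩
      rcases hall e' a b with rfl | rfl | rfl
      exacts [Or.inl rfl, absurd h0 ((mx_pair hD hK hx mz).1 c), Or.inr rfl]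
    · rintro (rfl | rfl)
      exacts [⟨s1, Finset.card_pair hxy, m1⟩,
        ⟨s3, Finset.card_pair hzy, (mx_pair hD hK mz hy).2 h4⟩]
  · have h4 : w z y = 0 := by
      rw [h3] at e; revert e h0; generalize w x z = a; generalize w z y = b; revert a b; decide
    refine Set.ncard_eq_two.2 ⟨{x, y}, {x, z}, fun h => hz (h ▸ by simp), ?_⟩
    ext e'; constructor
    · rintro ⟨a, b, c⟩
      rcases hall e' a b with rfl | rfl | rfl
      exacts [Or.inl rfl, Or.inr rfl, absurd h4 ((mx_pair hD hK mz hy).1 c)]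
    · rintro (rfl | rfl)
      exacts [⟨s1, Finset.card_pair hxy, m1⟩,
        ⟨s2, Finset.card_pair hzx.symm, (mx_pair hD hK hx mz).2 h0⟩]

open Classical in
/-- the number of faces of the surface at an edge -/
lemma count_faces (hO : X.OK) (hD : X.Disc w) {r : Finset (Finset X.V)}
    (hr : r ∈ sd (Sf X.K w)) (hc : r.card = 2) :
    {f | f ∈ sd (Sf X.K w) ∧ f.card = 3 ∧ r ⊆ f}.ncard = if top r ∈ X.F then 1 else 2 := by
  obtain ⟨a, b, hab, hs, rfl⟩ : ∃ a b : Finset X.V, a ≠ b ∧ a ⊆ b ∧ r = {a, b} := by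
    obtain ⟨a, b, hab, rfl⟩ := Finset.card_eq_two.1 hc
    rcases hr.2.2 a (by simp) b (by simp) with h | h
    exacts [⟨a, b, hab, h, rfl⟩, ⟨b, a, hab.symm, h, Finset.pair_comm _ _⟩]
  have ha := hr.2.1 a (by simp)
  have hb := hr.2.1 b (by simp)
  have ht : top {a, b} = b := by simp [top, hs]
  have c1 := two_le_card hD ha
  have c2 := hO.dimK b hb.1
  have c3 := Finset.card_lt_card (Finset.ssubset_iff_subset_ne.2 ⟨hs, hab⟩)
  have e1 := ncard_ext hr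
  rw [hc] at e1
  rw [e1, ht]
  have key : ∀ ρ, (ρ ∈ Sf X.K w ∧ ρ ∉ ({a, b} : Finset (Finset X.V)) ∧
      ∀ σ ∈ ({a, b} : Finset (Finset X.V)), σ ⊆ ρ ∨ ρ ⊆ σ) ↔ ρ ∈ Sf X.K w ∧ ρ.card ≠ a.card ∧
      ρ.card ≠ b.card ∧ (a ⊆ ρ ∨ ρ ⊆ a) ∧ (b ⊆ ρ ∨ ρ ⊆ b) := fun ρ => by
    simp only [Finset.mem_insert, Finset.mem_singleton, not_or, forall_eq_or_imp, forall_eq]
    constructor
    · rintro ⟨h1, ⟨h2, h3⟩, h4, h5⟩
      exact ⟨h1, fun e => h2 (eq_of_card h4.symm e), fun e => h3 (eq_of_card h5.symm e), h4, h5⟩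
    · rintro ⟨h1, h2, h3, h4, h5⟩
      exact ⟨h1, ⟨fun e => h2 (e ▸ rfl), fun e => h3 (e ▸ rfl)⟩, h4, h5⟩
  simp only [key]
  have bd : ∀ ρ ∈ Sf X.K w, 2 ≤ ρ.card ∧ ρ.card ≤ 4 := fun ρ h =>
    ⟨two_le_card hD h, hO.dimK ρ h.1⟩
  rcases (by omega : (a.card = 2 ∧ b.card = 3) ∨ (a.card = 2 ∧ b.card = 4) ∨
    (a.card = 3 ∧ b.card = 4)) with ⟨h1, h2⟩ | ⟨h1, h2⟩ | ⟨h1, h2⟩
  · have : {ρ | ρ ∈ Sf X.K w ∧ ρ.card ≠ a.card ∧ ρ.card ≠ b.card ∧ (a ⊆ ρ ∨ ρ ⊆ a) ∧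
        (b ⊆ ρ ∨ ρ ⊆ b)} = {T | T ∈ X.K ∧ T.card = 4 ∧ b ⊆ T} := by
      ext ρ; constructor
      · rintro ⟨k1, k2, k3, -, k5⟩
        have := bd ρ k1
        exact ⟨k1.1, by omega, sub_of_card k5 (by omega)⟩
      · rintro ⟨k1, k2, k3⟩
        exact ⟨⟨k1, mx_mono hb.2 k3⟩, by omega, by omega, Or.inl (hs.trans k3), Or.inl k3⟩
    rw [this]
    split_ifs with h
    exacts [hO.triB b h h2 (sf_mt hD hb), hO.triI b hb.1 h2 (sf_mt hD hb) h]
  · rw [if_neg fun h => by have := hO.dimF b h; omega, ← ncard_between hs (by omega)]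
    congr 1
    ext ρ; constructor
    · rintro ⟨k1, k2, k3, k4, k5⟩
      have := bd ρ k1
      exact ⟨sub_of_card k4 (by omega), sub_of_card k5.symm (by omega), by omega⟩
    · rintro ⟨k1, k2, k3⟩
      exact ⟨sf_sub hO hb.1 k2 (mx_mono ha.2 k1), by omega, by omega, Or.inl k1, Or.inr k2⟩
  · rw [if_neg fun h => by have := hO.dimF b h; omega, ← two_marked hD ha h1]
    congr 1
    ext ρ; constructor
    · rintro ⟨k1, k2, k3, k4, -⟩
      have := bd ρ k1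
      exact ⟨sub_of_card k4.symm (by omega), by omega, k1.2⟩
    · rintro ⟨k1, k2, k3⟩
      exact ⟨sf_sub hO ha.1 k1 k3, by omega, by omega, Or.inr k1, Or.inr (k1.trans hs)⟩

/-- the link of a cell in the poset of the surface -/
def Lk (X : Dat G) (w : X.V → X.V → ZMod 2) (σ : Finset X.V) : Set (Finset X.V) :=
  {ρ | ρ ∈ Sf X.K w ∧ ρ ≠ σ ∧ (σ ⊆ ρ ∨ ρ ⊆ σ)}

/-- links are connected -/
lemma link_conn (hO : X.OK) (hL : X.Loc) (hD : X.Disc w) {σ : Finset X.V} (hσ : σ ∈ Sf X.K w)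
    (κ : Finset X.V → Prop) (hκ : ∀ ρ ∈ Lk X w σ, ∀ ρ' ∈ Lk X w σ, ρ ⊆ ρ' → (κ ρ ↔ κ ρ')) :
    ∀ ρ ∈ Lk X w σ, ∀ ρ' ∈ Lk X w σ, (κ ρ ↔ κ ρ') := by
  have c1 := two_le_card hD hσ
  have c2 := hO.dimK σ hσ.1
  have hne : ∀ ρ ∈ Lk X w σ, ρ.card ≠ σ.card ∧ 2 ≤ ρ.card ∧ ρ.card ≤ 4 := fun ρ h =>
    ⟨fun e => h.2.1 (eq_of_card h.2.2.symm e), two_le_card hD h.1, hO.dimK ρ h.1.1⟩
  rcases (by omega : σ.card = 2 ∨ σ.card = 3 ∨ σ.card = 4) with h | h | h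
  · have e : Lk X w σ = {ρ | ρ ∈ X.K ∧ σ ⊆ ρ ∧ ρ ≠ σ} := by
      ext ρ; constructor
      · intro k; have := hne ρ k
        exact ⟨k.1.1, sub_of_card k.2.2 (by omega), k.2.1⟩
      · exact fun k => ⟨⟨k.1, mx_mono hσ.2 k.2.1⟩, k.2.2, Or.inl k.2.1⟩
    rw [e] at hκ ⊢
    exact (hL.edge σ hσ.1 h (sf_mt hD hσ)).2 κ hκ
  · obtain ⟨e, e1, e2, e3⟩ := ex_edge hD hσ
    obtain ⟨T, T1, T2, T3⟩ := hL.pure σ hσ.1 (sf_mt hD hσ)
    have he : e ∈ Lk X w σ := ⟨sf_sub hO hσ.1 e1 e3, by rintro rfl; omega, Or.inr e1⟩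
    have hT : T ∈ Lk X w σ := ⟨⟨T1, mx_mono hσ.2 T3⟩, by rintro rfl; omega, Or.inl T3⟩
    have key : ∀ ρ ∈ Lk X w σ, (κ ρ ↔ κ T) := fun ρ k => by
      rcases k.2.2 with h' | h'
      · exact (hκ e he ρ k (e1.trans h')).symm.trans (hκ e he T hT (e1.trans T3))
      · exact hκ ρ k T hT (h'.trans T3)
    exact fun ρ k ρ' k' => (key ρ k).trans (key ρ' k').symm
  · have hp : ∀ {x y}, x ∈ σ → y ∈ σ → ({x, y} : Finset X.V) ⊆ σ := fun hx hy =>
      Finset.insert_subset hx (Finset.singleton_subset_iff.2 hy)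
    have hlk : ∀ ρ, ρ ⊆ σ → ρ.card ≤ 3 → Mx w ρ → ρ ∈ Lk X w σ := fun ρ k1 k2 k3 =>
      ⟨sf_sub hO hσ.1 k1 k3, by rintro rfl; omega, Or.inr k1⟩
    have adj : ∀ e e' : Finset X.V, e ⊆ σ → e' ⊆ σ → (e ∪ e').card ≤ 3 → Mx w e → Mx w e' →
        (κ e ↔ κ e') := fun e e' k1 k2 k3 k4 k5 => by
      have hu := hlk _ (Finset.union_subset k1 k2) k3 (mx_mono k4 Finset.subset_union_left)
      exact (hκ e (hlk e k1 ((Finset.card_le_card Finset.subset_union_left).trans k3) k4) _ hu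
        Finset.subset_union_left).trans (hκ e' (hlk e' k2
        ((Finset.card_le_card Finset.subset_union_right).trans k3) k5) _ hu
        Finset.subset_union_right).symm
    have c3 : ∀ x y z : X.V, ∀ u : Finset X.V, u ⊆ {x, y, z} → u.card ≤ 3 := fun x y z u hu =>
      (Finset.card_le_card hu).trans Finset.card_le_three
    have edges : ∀ x ∈ σ, ∀ y ∈ σ, ∀ x' ∈ σ, ∀ y' ∈ σ, w x y ≠ 0 → w x' y' ≠ 0 →
        (κ {x, y} ↔ κ {x', y'}) := fun x hx y hy x' hx' y' hy' k k' => by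
      have m := (mx_pair hD hσ.1 hx hy).2 k
      have m' := (mx_pair hD hσ.1 hx' hy').2 k'
      by_cases h0 : w x x' = 0
      · have h1 : w x' y ≠ 0 := by rwa [hD.ec σ hσ.1 x hx x' hx' y hy, h0, zero_add] at k
        have m1 := (mx_pair hD hσ.1 hx' hy).2 h1
        exact (adj _ _ (hp hx hy) (hp hx' hy) (c3 x x' y _ (by simp [Finset.subset_iff])) m m1).trans
          (adj _ _ (hp hx' hy) (hp hx' hy') (c3 x' y y' _ (by simp [Finset.subset_iff])) m1 m')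
      · have m1 := (mx_pair hD hσ.1 hx hx').2 h0
        exact (adj _ _ (hp hx hy) (hp hx hx') (c3 x y x' _ (by simp [Finset.subset_iff])) m m1).trans
          (adj _ _ (hp hx hx') (hp hx' hy') (c3 x x' y' _ (by simp [Finset.subset_iff])) m1 m')
    have key : ∀ ρ ∈ Lk X w σ, ∃ x ∈ σ, ∃ y ∈ σ, w x y ≠ 0 ∧ (κ {x, y} ↔ κ ρ) := fun ρ k => by
      have := hne ρ k
      have hs : ρ ⊆ σ := sub_of_card k.2.2.symm (by omega)
      obtain ⟨x, hx, y, hy, e⟩ := k.1.2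
      exact ⟨x, hs hx, y, hs hy, e, hκ _ (hlk _ (hp (hs hx) (hs hy))
        (Finset.card_le_two.trans (by norm_num)) ((mx_pair hD hσ.1 (hs hx) (hs hy)).2 e)) ρ k
        (Finset.insert_subset hx (Finset.singleton_subset_iff.2 hy))⟩
    intro ρ k ρ' k'
    obtain ⟨x, hx, y, hy, e, a⟩ := key ρ k
    obtain ⟨x', hx', y', hy', e', a'⟩ := key ρ' k'
    exact a.symm.trans ((edges x hx y hy x' hx' y' hy' e e').trans a')

end Crest.Agent.X212.Lad50
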