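import Crest.Agent.X212.Lad50.Rad

/-!
# Row 212, layer T, LAD (2): slow coordinates.  A homeomorphism of `ι → ℝ` with bounded
displacement in the coordinates off `J`, and displacement in the `J`-coordinates bounded on every
slab, agrees on a given ball with a compactly supported homeomorphism.
-/

open Set Filter Topology Metric

namespace Crest.Agent.X212.Lad50

/-- partial sums of the convex correction -/
noncomputable def cq (a : ℕ → ℝ) (R : ℝ) (N : ℕ) (x : ℝ) : ℝ :=
  ∑ n ∈ Finset.range N, a n * max (x - R - n) 0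

/-- the convex correction -/
noncomputable def cp (a : ℕ → ℝ) (R : ℝ) (x : ℝ) : ℝ := cq a R ⌈x⌉₊ x

variable {a : ℕ → ℝ} {R : ℝ}

lemma cq_eq (hR : 0 ≤ R) {x : ℝ} {N N' : ℕ} (h : x ≤ N) (h' : N ≤ N') :
    cq a R N' x = cq a R N x := by
  unfold cq
  symm
  refine Finset.sum_subset (Finset.range_subset_range.2 h') fun n _ hn => ?_
  have : (N : ℝ) ≤ n := by exact_mod_cast not_lt.1 (fun h => hn (Finset.mem_range.2 h))
  rw [max_eq_right (by linarith), mul_zero]

lemma cp_eq (hR : 0 ≤ R) {x : ℝ} {N : ℕ} (h : x ≤ N) : cp a R x = cq a R N x :=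
  (cq_eq hR (Nat.le_ceil x) (Nat.ceil_le.2 h)).symm

lemma continuous_cp (hR : 0 ≤ R) : Continuous (cp a R) := by
  rw [continuous_iff_continuousAt]
  intro x
  obtain ⟨N, hN⟩ := exists_nat_gt x
  have h1 : Continuous (cq a R N) := by unfold cq; fun_prop
  refine h1.continuousAt.congr ?_
  filter_upwards [Iio_mem_nhds hN] with y hy
  exact (cp_eq hR (le_of_lt hy)).symm

lemma cp_of_le {x : ℝ} (h : x ≤ R) : cp a R x = 0 := by
  unfold cp cq
  refine Finset.sum_eq_zero fun n _ => ?_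
  have : (0 : ℝ) ≤ n := n.cast_nonneg
  rw [max_eq_right (by linarith), mul_zero]

lemma cp_mono (hR : 0 ≤ R) (ha : ∀ n, 0 ≤ a n) : Monotone (cp a R) := by
  intro x y h
  rw [cp_eq hR (h.trans (Nat.le_ceil y)), cp, cq, cq]
  refine Finset.sum_le_sum fun n _ => mul_le_mul_of_nonneg_left ?_ (ha n)
  exact max_le_max (by linarith) le_rfl

lemma cp_nonneg (ha : ∀ n, 0 ≤ a n) (x : ℝ) : 0 ≤ cp a R x := by
  unfold cp cq
  exact Finset.sum_nonneg fun n _ => mul_nonneg (ha n) (le_max_right _ _)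

lemma cp_add (hR : 0 ≤ R) (ha : ∀ n, 0 ≤ a n) {x y : ℝ} (hx : 0 ≤ x) (hy : 0 ≤ y) :
    cp a R x + cp a R y ≤ cp a R (x + y) := by
  have h := Nat.le_ceil (x + y)
  rw [cp_eq hR (x := x) (N := ⌈x + y⌉₊) (by linarith),
    cp_eq hR (x := y) (N := ⌈x + y⌉₊) (by linarith), cp, cq, cq, cq, ← Finset.sum_add_distrib]
  refine Finset.sum_le_sum fun n _ => ?_
  rw [← mul_add]
  refine mul_le_mul_of_nonneg_left ?_ (ha n)
  have : (0 : ℝ) ≤ n := n.cast_nonneg
  rcases le_total (x - R - n) 0 with h1 | h1 <;> rcases le_total (y - R - n) 0 with h2 | h2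
  · rw [max_eq_right h1, max_eq_right h2, add_zero]; exact le_max_right _ _
  · rw [max_eq_right h1, max_eq_left h2]; exact le_max_of_le_left (by linarith)
  · rw [max_eq_left h1, max_eq_right h2]; exact le_max_of_le_left (by linarith)
  · rw [max_eq_left h1, max_eq_left h2]; exact le_max_of_le_left (by linarith)

lemma le_cp (hR : 0 ≤ R) (ha : ∀ n, 0 ≤ a n) {x : ℝ} (n : ℕ) (h : R + n + 1 ≤ x) :
    a n ≤ cp a R x := by
  have h1 : n ∈ Finset.range ⌈x⌉₊ := by
    rw [Finset.mem_range, Nat.lt_ceil]; linarith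
  refine le_trans ?_ (Finset.single_le_sum (f := fun n : ℕ => a n * max (x - R - n) 0)
    (fun n _ => mul_nonneg (ha n) (le_max_right _ _)) h1)
  exact le_mul_of_one_le_right (ha n) (le_max_of_le_left (by linarith))

/-- the fast homeomorphism of the line -/
noncomputable def fast (a : ℕ → ℝ) (R : ℝ) (x : ℝ) : ℝ := x + cp a R x - cp a R (-x)

lemma fast_of_le {x : ℝ} (h : |x| ≤ R) : fast a R x = x := by
  rw [abs_le] at h
  rw [fast, cp_of_le h.2, cp_of_le (by linarith)]; ring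

lemma fast_sub (hR : 0 ≤ R) (ha : ∀ n, 0 ≤ a n) {x y : ℝ} (h : y ≤ x) :
    (x - y) + cp a R ((x - y) / 2) ≤ fast a R x - fast a R y := by
  have hm := cp_mono hR ha
  unfold fast
  rcases le_total 0 y with hy | hy
  · have h1 := cp_add hR ha hy (sub_nonneg.2 h)
    rw [add_sub_cancel] at h1
    have h2 := hm (show (x - y) / 2 ≤ x - y by linarith)
    rw [cp_of_le (x := -x) (by linarith), cp_of_le (x := -y) (by linarith)]
    linarith
  · rcases le_total x 0 with hx | hx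
    · have h1 := cp_add hR ha (neg_nonneg.2 hx) (sub_nonneg.2 h)
      rw [show -x + (x - y) = -y by ring] at h1
      have h2 := hm (show (x - y) / 2 ≤ x - y by linarith)
      rw [cp_of_le (x := x) (by linarith), cp_of_le (x := y) (by linarith)]
      linarith
    · rw [cp_of_le (x := -x) (by linarith), cp_of_le (x := y) (by linarith)]
      have h1 := cp_nonneg (R := R) ha x
      have h2 := cp_nonneg (R := R) ha (-y)
      rcases le_total x (-y) with h3 | h3
      · have := hm (show (x - y) / 2 ≤ -y by linarith); linarith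
      · have := hm (show (x - y) / 2 ≤ x by linarith); linarith

lemma fast_strictMono (hR : 0 ≤ R) (ha : ∀ n, 0 ≤ a n) : StrictMono (fast a R) := by
  intro y x h
  have h1 := fast_sub hR ha h.le
  have h2 := cp_nonneg (R := R) ha ((x - y) / 2)
  linarith

lemma continuous_fast (hR : 0 ≤ R) : Continuous (fast a R) :=
  (continuous_id.add (continuous_cp hR)).sub ((continuous_cp hR).comp continuous_neg)

lemma fast_surjective (hR : 0 ≤ R) (ha : ∀ n, 0 ≤ a n) : Function.Surjective (fast a R) := by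
  intro y
  have h0 : fast a R 0 = 0 := fast_of_le (by simpa using hR)
  have h1 := fast_sub hR ha (abs_nonneg y)
  have h2 := fast_sub hR ha (neg_nonpos.2 (abs_nonneg y))
  have h3 := cp_nonneg (R := R) ha ((|y| - 0) / 2)
  have h4 := cp_nonneg (R := R) ha ((0 - -|y|) / 2)
  have h5 : y ∈ Icc (fast a R (-|y|)) (fast a R |y|) :=
    ⟨by linarith [neg_abs_le y], by linarith [le_abs_self y]⟩
  obtain ⟨x, -, hx⟩ := intermediate_value_Icc (by linarith [abs_nonneg y])
    (continuous_fast hR).continuousOn h5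
  exact ⟨x, hx⟩

lemma abs_sub_le_of_fast (hR : 0 ≤ R) (ha : ∀ n, 0 ≤ a n) {x y : ℝ} (n : ℕ)
    (h : |fast a R x - fast a R y| ≤ a n) : |x - y| ≤ 2 * (R + n + 1) := by
  wlog hxy : y ≤ x generalizing x y
  · rw [abs_sub_comm] at h ⊢; exact this h (le_of_not_ge hxy)
  rw [abs_of_nonneg (sub_nonneg.2 hxy)]
  by_contra hc
  push Not at hc
  have h1 := fast_sub hR ha hxy
  have h2 := le_cp hR ha n (x := (x - y) / 2) (by linarith)
  have h3 := le_abs_self (fast a R x - fast a R y)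
  have : (0 : ℝ) ≤ n := n.cast_nonneg
  linarith

/-- the fast homeomorphism, bundled -/
noncomputable def fastH (hR : 0 ≤ R) (ha : ∀ n, 0 ≤ a n) : ℝ ≃ₜ ℝ :=
  ((fast_strictMono hR ha).orderIsoOfSurjective _ (fast_surjective hR ha)).toHomeomorph

lemma fastH_apply (hR : 0 ≤ R) (ha : ∀ n, 0 ≤ a n) (x : ℝ) : fastH hR ha x = fast a R x := rfl

variable {ι : Type*} [Fintype ι]

/-- **Slow coordinates + radial compression.** -/
theorem slow (J : Set ι) (u : (ι → ℝ) ≃ₜ (ι → ℝ)) {C : ℝ}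
    (hC : ∀ x, ∀ i ∉ J, |u x i - x i| ≤ C)
    (hM : ∀ n : ℕ, ∃ M : ℝ, ∀ x : ι → ℝ, (∀ i ∉ J, |x i| ≤ n) → ∀ j ∈ J, |u x j - x j| ≤ M)
    (R : ℝ) :
    ∃ ψ : (ι → ℝ) ≃ₜ (ι → ℝ), (∀ x, ‖x‖ ≤ R → ψ x = u x) ∧ (∃ R', ∀ x, R' ≤ ‖x‖ → ψ x = x) ∧
      ∀ x, (∀ y, (∃ t : ℝ, 1 ≤ t ∧ ∀ i ∉ J, y i = t * x i) → u y = y) → ψ x = x := by
  classical
  choose M hM using hM
  obtain ⟨B, hB⟩ := ((isCompact_closedBall (0 : ι → ℝ) R).image u.continuous).isBounded.exists_norm_le
  set R₁ := max 1 (max R B) with hR₁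
  have hR1 : 1 ≤ R₁ := le_max_left _ _
  have hR0 : 0 ≤ R₁ := by linarith
  have hRR : R ≤ R₁ := (le_max_left _ _).trans (le_max_right _ _)
  have hBR : B ≤ R₁ := (le_max_right _ _).trans (le_max_right _ _)
  set a : ℕ → ℝ := fun n => |M (n ^ 2)| with ha
  have ha0 : ∀ n, 0 ≤ a n := fun n => abs_nonneg _
  let τ : (ι → ℝ) ≃ₜ (ι → ℝ) :=
    Homeomorph.piCongrRight fun i => if i ∈ J then fastH hR0 ha0 else Homeomorph.refl ℝ
  have hτJ : ∀ x, ∀ i ∈ J, τ x i = fast a R₁ (x i) := fun x i hi => by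
    simp [τ, hi, fastH_apply]
  have hτn : ∀ x, ∀ i ∉ J, τ x i = x i := fun x i hi => by simp [τ, hi]
  have hτid : ∀ x, ‖x‖ ≤ R₁ → τ x = x := fun x hx => by
    funext i
    by_cases hi : i ∈ J
    · rw [hτJ x i hi, fast_of_le ((norm_le_pi_norm x i).trans hx)]
    · exact hτn x i hi
  let v : (ι → ℝ) ≃ₜ (ι → ℝ) := (τ.trans u).trans τ.symm
  have hv : ∀ x, τ (v x) = u (τ x) := fun x => by simp [v]
  have hsub : Sublin v := by
    intro ε hε
    set s₀ := max 1 ((|C| + 2 * (R₁ + 3)) / ε) with hs₀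
    have hs1 : 1 ≤ s₀ := le_max_left _ _
    have hs2 : |C| + 2 * (R₁ + 3) ≤ ε * s₀ := by
      have : (|C| + 2 * (R₁ + 3)) / ε ≤ s₀ := le_max_right _ _
      rw [div_le_iff₀ hε] at this; linarith
    refine ⟨s₀ ^ 2, fun x hx => ?_⟩
    set s := √‖x‖ with hs
    have hss : s * s = ‖x‖ := Real.mul_self_sqrt (norm_nonneg x)
    have hs3 : s₀ ≤ s := Real.le_sqrt_of_sq_le hx
    have hC0 := abs_nonneg C
    have hb : (|C| + 2 * (R₁ + 3)) * s ≤ ε * ‖x‖ := by
      rw [← hss]
      calc (|C| + 2 * (R₁ + 3)) * s ≤ (ε * s₀) * s := by gcongr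
        _ ≤ (ε * s) * s := by gcongr
        _ = ε * (s * s) := by ring
    refine (pi_norm_le_iff_of_nonneg (by positivity)).2 fun i => ?_
    rw [Pi.sub_apply, Real.norm_eq_abs]
    by_cases hi : i ∈ J
    · set n := ⌈s⌉₊ with hn
      have hn1 : s ≤ n := Nat.le_ceil s
      have hn2 : (n : ℝ) < s + 1 := Nat.ceil_lt_add_one (by linarith)
      have h1 := hM (n ^ 2) (τ x) (fun k hk => by
        rw [hτn x k hk]
        have := norm_le_pi_norm x k
        rw [Real.norm_eq_abs] at this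
        push_cast; nlinarith) i hi
      rw [← hv, hτJ _ i hi, hτJ _ i hi] at h1
      have h2 := abs_sub_le_of_fast hR0 ha0 n (h1.trans (le_abs_self _))
      nlinarith
    · have h1 := hC (τ x) i hi
      rw [← hv, hτn _ i hi, hτn _ i hi] at h1
      have := le_abs_self C
      nlinarith
  obtain ⟨ψ, h1, h2, h3⟩ := rad v hsub (R := R₁) (by linarith)
  refine ⟨ψ, fun x hx => ?_, ⟨_, h2⟩, fun x hx => h3 x fun t ht => ?_⟩
  · have hux : ‖u x‖ ≤ R₁ := (hB _ ⟨x, by simpa using hx, rfl⟩).trans hBR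
    have hvx : v x = u x := by
      apply τ.injective; rw [hv, hτid x (hx.trans hRR), hτid _ hux]
    rw [h1 x (hx.trans hRR) (by rw [hvx]; exact hux), hvx]
  · apply τ.injective
    rw [hv]
    exact hx _ ⟨t, ht, fun i hi => by rw [hτn _ i hi]; simp⟩

end Crest.Agent.X212.Lad50
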