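import Crest.Agent.X212.Lev33.Lat
import Crest.Agent.X212.Srf12.Defs
import Crest.Agent.X212.Lad50.PL

/-!
# Row 212, layer T, TOR (END) (helper50): two annuli glued along their boundaries inside a periodic
embedding with connected preimage form a torus whose lift is lattice equivariant
-/

set_option autoImplicit false

open Set Metric Topology Filter
open scoped Pointwise

namespace Crest.Agent.X212.Lad50.Te

open Crest.Agent.R096.Ce_537 Prd34 Srf12 Lev33

/-- two annuli side by side -/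
noncomputable def cc (g k : P → V) (r σ : ℝ) : V :=
  if r ≤ 1 / 2 then g ![4 * r - 1, σ] else k ![4 * r - 3, σ]

/-- the glued map of the plane -/
noncomputable def gm (g k : P → V) (ε : ℝ) (y : P) : V :=
  cc g k (Int.fract (y 0)) (ε ^ ⌊y 0⌋ * y 1)

/-- the data -/
structure Dt (A B : Set V) (g k : P → V) (ε : ℝ) : Prop where
  hA : Ann A g
  hB : Ann B k
  hI : ∀ x ∈ A ∩ B, ∃ s, x = g ![1, s] ∨ x = g ![-1, s]
  h1 : ∀ s, k ![-1, s] = g ![1, s]
  h2 : ∀ s, k ![1, s] = g ![-1, ε * s]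
  hε : ε = 1 ∨ ε = -1

namespace Dt
variable {A B : Set V} {g k : P → V} {ε : ℝ} (h : Dt A B g k ε)
include h

theorem ne : ε ≠ 0 := by rcases h.hε with rfl | rfl <;> norm_num

theorem sq (n : ℤ) : ε ^ n * ε ^ n = 1 := by
  rw [← mul_zpow]; rcases h.hε with rfl | rfl <;> simp

theorem abs (n : ℤ) (s : ℝ) : |ε ^ n * s| = |s| := by
  rw [abs_mul, abs_zpow]; rcases h.hε with rfl | rfl <;> simp

theorem int (n : ℤ) : ∃ m : ℤ, ε ^ n = m := by
  rcases mul_self_eq_one_iff.1 (h.sq n) with e | e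
  · exact ⟨1, by simp [e]⟩
  · exact ⟨-1, by simp [e]⟩

theorem cc_k {r : ℝ} (hr : 1 / 2 ≤ r) (σ : ℝ) : cc g k r σ = k ![4 * r - 3, σ] := by
  unfold cc
  split_ifs with h1
  · obtain rfl : r = 1 / 2 := le_antisymm h1 hr
    rw [show 4 * (1 / 2 : ℝ) - 1 = 1 by norm_num, show 4 * (1 / 2 : ℝ) - 3 = -1 by norm_num, h.h1]
  · rfl

theorem gm_slab (n : ℤ) {y : P} (h0 : (n : ℝ) ≤ y 0) (h1 : y 0 ≤ n + 1) :
    gm g k ε y = cc g k (y 0 - n) (ε ^ n * y 1) := by
  unfold gm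
  rcases h1.eq_or_lt with e | e
  · rw [h.cc_k (r := y 0 - n) (by linarith), e, show 4 * ((n : ℝ) + 1 - n) - 3 = 1 by ring,
      show (n : ℝ) + 1 = ((n + 1 : ℤ) : ℝ) by push_cast; ring, Int.fract_intCast,
      Int.floor_intCast, cc, if_pos (by norm_num), h.h2, zpow_add_one₀ h.ne]
    congr 1
    ext i; fin_cases i <;> simp; ring
  · rw [Int.fract, Int.floor_eq_iff.2 ⟨h0, e⟩]

theorem pl_slab (n : ℤ) (R : ℝ) :
    PLOn (gm g k ε) {y | ((n : ℝ) ≤ y 0 ∧ y 0 ≤ n + 1) ∧ |y 1| ≤ R} := by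
  have c0 : Continuous fun y : P => y 0 := continuous_apply 0
  have c1 : Continuous fun y : P => |y 1| := by fun_prop
  have a : ∀ (c : ℝ) (K : Set P), PLOn (fun y : P => (![4 * (y 0 - n) - c, ε ^ n * y 1] : P)) K :=
    fun c K => pl_vec2 (pl_sub (pl_mul 4 (pl_sub (pl_coord 0 K) (plOn_const _ K))) (plOn_const _ K))
      (pl_mul _ (pl_coord 1 K))
  have p1 : PLOn (gm g k ε) {y | ((n : ℝ) ≤ y 0 ∧ y 0 ≤ n + 1 / 2) ∧ |y 1| ≤ R} :=
    ((h.hA.pl R).comp (a 1 _) fun y hy => ⟨by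
      simp only [Matrix.cons_val_zero]; rw [abs_le]; constructor <;> linarith [hy.1.1, hy.1.2],
      by simpa [h.abs] using hy.2⟩).congr fun y hy => by
      rw [h.gm_slab n hy.1.1 (by linarith [hy.1.2]), cc, if_pos (by linarith [hy.1.2])]
  have p2 : PLOn (gm g k ε) {y | ((n : ℝ) + 1 / 2 ≤ y 0 ∧ y 0 ≤ n + 1) ∧ |y 1| ≤ R} :=
    ((h.hB.pl R).comp (a 3 _) fun y hy => ⟨by
      simp only [Matrix.cons_val_zero]; rw [abs_le]; constructor <;> linarith [hy.1.1, hy.1.2],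
      by simpa [h.abs] using hy.2⟩).congr fun y hy => by
      rw [h.gm_slab n (by linarith [hy.1.1]) hy.1.2, h.cc_k (by linarith [hy.1.1])]
  refine (p1.union p2 ?_ ?_).mono fun y hy => ?_
  · exact ((isClosed_le continuous_const c0).inter (isClosed_le c0 continuous_const)).inter
      (isClosed_le c1 continuous_const)
  · exact ((isClosed_le continuous_const c0).inter (isClosed_le c0 continuous_const)).inter
      (isClosed_le c1 continuous_const)
  · rcases le_total (y 0) (n + 1 / 2) with e | e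
    · exact .inl ⟨⟨hy.1.1, e⟩, hy.2⟩
    · exact .inr ⟨⟨e, hy.1.2⟩, hy.2⟩

theorem locPL : LocPL (gm g k ε) univ := by
  refine locPL_of_nhds fun y _ => ?_
  have c0 : Continuous fun y : P => y 0 := continuous_apply 0
  have c1 : Continuous fun y : P => |y 1| := by fun_prop
  have cl : ∀ n : ℤ, IsClosed {z : P | ((n : ℝ) ≤ z 0 ∧ z 0 ≤ n + 1) ∧ |z 1| ≤ |y 1| + 1} := fun n =>
    ((isClosed_le continuous_const c0).inter (isClosed_le c0 continuous_const)).inter
      (isClosed_le c1 continuous_const)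
  refine ⟨_, ?_, (h.pl_slab (⌊y 0⌋ - 1) _).union (h.pl_slab ⌊y 0⌋ _) (cl _) (cl _)⟩
  filter_upwards [c0.continuousAt.eventually (Ioo_mem_nhds
    (show (⌊y 0⌋ : ℝ) - 1 < y 0 by linarith [Int.floor_le (y 0)]) (Int.lt_floor_add_one (y 0))),
    c1.continuousAt.eventually (Iio_mem_nhds (lt_add_one |y 1|))] with z h1 h2
  rcases le_total (z 0) ⌊y 0⌋ with e | e
  · exact .inl ⟨⟨by push_cast; exact h1.1.le, by push_cast; linarith⟩, le_of_lt h2⟩
  · exact .inr ⟨⟨e, h1.2.le⟩, le_of_lt h2⟩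

theorem cont : Continuous (gm g k ε) :=
  continuous_iff_continuousAt.2 fun y => locPL_continuousAt h.locPL (mem_univ y)

theorem cc_fib {r r' σ σ' : ℝ} (hr : r ∈ Ico (0 : ℝ) 1) (hr' : r' ∈ Ico (0 : ℝ) 1) :
    cc g k r σ = cc g k r' σ' ↔ r = r' ∧ ∃ m : ℤ, σ - σ' = m := by
  have mix : ∀ {r r' σ σ' : ℝ}, 0 ≤ r → r ≤ 1 / 2 → 1 / 2 < r' → r' < 1 →
      g ![4 * r - 1, σ] ≠ k ![4 * r' - 3, σ'] := by
    intro r r' σ σ' a1 a2 a3 a4 e
    have b1 : |(![4 * r - 1, σ] : P) 0| ≤ 1 := by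
      simp only [Matrix.cons_val_zero]; rw [abs_le]; constructor <;> linarith
    have b2 : |(![4 * r' - 3, σ'] : P) 0| ≤ 1 := by
      simp only [Matrix.cons_val_zero]; rw [abs_le]; constructor <;> linarith
    obtain ⟨s, hs | hs⟩ := h.hI (g ![4 * r - 1, σ])
      ⟨h.hA.img.subset ⟨_, b1, rfl⟩, h.hB.img.subset ⟨_, b2, e.symm⟩⟩
    · rw [e, ← h.h1] at hs
      have := ((h.hB.fib _ _ b2 (by simp)).1 hs).1
      simp only [Matrix.cons_val_zero] at this
      linarith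
    · have h3 := h.h2 (ε * s)
      rw [← mul_assoc, show ε * ε = 1 by simpa using h.sq 1, one_mul] at h3
      rw [e, ← h3] at hs
      have := ((h.hB.fib _ _ b2 (by simp)).1 hs).1
      simp only [Matrix.cons_val_zero] at this
      linarith
  unfold cc
  split_ifs with a b b
  · rw [h.hA.fib _ _ (by
      simp only [Matrix.cons_val_zero]; rw [abs_le]; constructor <;> linarith [hr.1]) (by
      simp only [Matrix.cons_val_zero]; rw [abs_le]; constructor <;> linarith [hr'.1])]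
    simp only [Matrix.cons_val_zero, Matrix.cons_val_one]
    exact and_congr_left' ⟨fun e => by linarith, fun e => by rw [e]⟩
  · exact ⟨fun e => (mix hr.1 a (not_le.1 b) hr'.2 e).elim, fun e => (b (e.1 ▸ a)).elim⟩
  · exact ⟨fun e => (mix hr'.1 b (not_le.1 a) hr.2 e.symm).elim, fun e => (a (e.1 ▸ b)).elim⟩
  · rw [h.hB.fib _ _ (by
      simp only [Matrix.cons_val_zero]; rw [abs_le]; constructor <;> linarith [hr.2]) (by
      simp only [Matrix.cons_val_zero]; rw [abs_le]; constructor <;> linarith [hr'.2])]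
    simp only [Matrix.cons_val_zero, Matrix.cons_val_one]
    exact and_congr_left' ⟨fun e => by linarith, fun e => by rw [e]⟩

theorem gm_fib (y y' : P) : gm g k ε y = gm g k ε y' ↔ Int.fract (y 0) = Int.fract (y' 0) ∧
    ∃ m : ℤ, ε ^ ⌊y 0⌋ * y 1 - ε ^ ⌊y' 0⌋ * y' 1 = m :=
  h.cc_fib ⟨Int.fract_nonneg _, Int.fract_lt_one _⟩ ⟨Int.fract_nonneg _, Int.fract_lt_one _⟩

theorem range_gm : range (gm g k ε) = A ∪ B := by
  apply Subset.antisymm
  · rintro _ ⟨y, rfl⟩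
    have a0 := Int.fract_nonneg (y 0)
    have a1 := Int.fract_lt_one (y 0)
    unfold gm cc
    split_ifs with a
    · exact .inl (h.hA.img ▸ ⟨_, by
        simp only [mem_ofPred_eq, Matrix.cons_val_zero]; rw [abs_le]; constructor <;> linarith, rfl⟩)
    · exact .inr (h.hB.img ▸ ⟨_, by
        simp only [mem_ofPred_eq, Matrix.cons_val_zero]; rw [abs_le]; constructor <;> linarith, rfl⟩)
  · rw [← h.hA.img, ← h.hB.img]
    rintro _ (⟨y, hy, rfl⟩ | ⟨y, hy, rfl⟩)
    · have a := abs_le.1 (show |y 0| ≤ 1 from hy)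
      refine ⟨![(y 0 + 1) / 4, y 1], ?_⟩
      rw [h.gm_slab 0 (by simp; linarith) (by simp; linarith), cc, if_pos (by simp; linarith)]
      congr 1
      ext i; fin_cases i <;> simp; ring
    · have a := abs_le.1 (show |y 0| ≤ 1 from hy)
      refine ⟨![(y 0 + 3) / 4, y 1], ?_⟩
      rw [h.gm_slab 0 (by simp; linarith) (by simp; linarith), h.cc_k (by simp; linarith)]
      congr 1
      ext i; fin_cases i <;> simp; ring

end Dt

theorem closed_of_lat {J : Finset (Fin 3)} {D : Set V} (hD : D ⊆ lat J) : IsClosed D :=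
  isClosed_of_pairwise_le_dist one_pos fun a ha b hb hab => by
    by_contra hlt
    exact hab (sub_eq_zero.1 (lat_small (lat_sub (hD ha) (hD hb))
      (by rw [← dist_eq_norm]; exact not_le.1 hlt)))

theorem lat_zsmul {J : Finset (Fin 3)} {a : V} (ha : a ∈ lat J) (n : ℤ) : (n : ℝ) • a ∈ lat J :=
  fun i => ⟨fun hi => by
    obtain ⟨m, hm⟩ := (ha i).1 hi
    exact ⟨n * m, by simp [hm]⟩, fun hi => by simp [(ha i).2 hi]⟩

theorem Dt.lift {A B : Set V} {g k : P → V} {ε : ℝ} (h : Dt A B g k ε) {H : V → V}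
    (hH : Per {0, 1} H) (hS : A ∪ B ⊆ range H) (hc : IsPreconnected (H ⁻¹' (A ∪ B))) :
    ∃ (w : P → V) (a b : V), Continuous w ∧ (∀ y, H (w y) = gm g k ε y) ∧ a ∈ lat {0, 1} ∧
      b ∈ lat {0, 1} ∧ (∀ (t s : ℝ) (n : ℤ), w ![t, s + n] = w ![t, s] + (n : ℝ) • a) ∧
      (∀ (t s : ℝ) (n : ℤ), w ![t + n, ε ^ n * s] = w ![t, s] + (n : ℝ) • b) ∧
      ∀ l ∈ lat {0, 1}, ∃ p q : ℤ, l = (p : ℝ) • a + (q : ℝ) • b := by
  have hm : ∀ y, gm g k ε y ∈ A ∪ B := fun y => h.range_gm ▸ ⟨y, rfl⟩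
  obtain ⟨z0, hz0⟩ := hS (hm 0)
  obtain ⟨w, hw, ew, -⟩ := exists_lift_convex hH convex_univ h.cont.continuousOn
    (fun y _ => hS (hm y)) (mem_univ 0) hz0
  replace hw : Continuous w := continuousOn_univ.1 hw
  replace ew : ∀ y, H (w y) = gm g k ε y := fun y => ew y trivial
  have step : ∀ τ : P → P, Continuous τ → (∀ y, gm g k ε (τ y) = gm g k ε y) →
      ∃ a ∈ lat {0, 1}, ∀ y, w (τ y) = w y + a := fun τ hτ e =>
    ⟨w (τ 0) - w 0, (hH.fib _ _).1 (by rw [ew, ew, e]), fun y => by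
      rw [← lift_uniq hH isPreconnected_univ (g := fun y => w (τ y)) (hw.comp hτ).continuousOn
        hw.continuousOn (fun y _ => by rw [ew, ew, e]) (mem_univ 0) (mem_univ y)]
      simp⟩
  obtain ⟨a, ha, ea⟩ := step (fun y => ![y 0, y 1 + 1]) (by fun_prop) fun y => by
    obtain ⟨m, hm⟩ := h.int ⌊y 0⌋
    exact (h.gm_fib _ _).2 ⟨rfl, m, by simp [← hm]; ring⟩
  obtain ⟨b, hb, eb⟩ := step (fun y => ![y 0 + 1, ε * y 1]) (by fun_prop) fun y =>
    (h.gm_fib _ _).2 ⟨by simp, 0, by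
      simp only [Matrix.cons_val_zero, Matrix.cons_val_one, Int.floor_add_one, zpow_add_one₀ h.ne]
      rw [mul_assoc, ← mul_assoc ε, show ε * ε = 1 by simpa using h.sq 1]
      simp⟩
  have ea' : ∀ (t s : ℝ) (n : ℤ), w ![t, s + n] = w ![t, s] + (n : ℝ) • a := by
    intro t s n
    induction n using Int.induction_on with
    | zero => simp
    | succ n ih =>
      have := ea ![t, s + n]
      simp only [Matrix.cons_val_zero, Matrix.cons_val_one] at this
      push_cast at ih ⊢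
      rw [← add_assoc, this, ih, add_smul, one_smul, add_assoc]
    | pred n ih =>
      have := ea ![t, s + (-n - 1)]
      simp only [Matrix.cons_val_zero, Matrix.cons_val_one] at this
      push_cast at ih ⊢
      rw [show s + (-n - 1) + 1 = s + -n by ring, ih] at this
      rw [sub_smul, one_smul, ← add_sub_assoc (w _), this, add_sub_cancel_right]
  have eb' : ∀ (t s : ℝ) (n : ℤ), w ![t + n, ε ^ n * s] = w ![t, s] + (n : ℝ) • b := by
    intro t s n
    have key : ∀ n : ℤ, w ![t + (n + 1 : ℤ), ε ^ (n + 1) * s] = w ![t + n, ε ^ n * s] + b := by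
      intro n
      have := eb ![t + n, ε ^ n * s]
      simp only [Matrix.cons_val_zero, Matrix.cons_val_one] at this
      rw [← this, zpow_add_one₀ h.ne]
      congr 1
      ext i; fin_cases i <;> simp <;> ring
    induction n using Int.induction_on with
    | zero => simp
    | succ n ih => rw [key, ih]; push_cast; rw [add_smul, one_smul, add_assoc]
    | pred n ih =>
      have := key (-n - 1)
      rw [sub_add_cancel, ih] at this
      rw [eq_sub_of_add_eq this.symm]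
      push_cast
      rw [sub_smul, one_smul, add_sub_assoc]
  refine ⟨w, a, b, hw, ew, ha, hb, ea', eb', ?_⟩
  set Λ : Set V := {l | ∃ p q : ℤ, l = (p : ℝ) • a + (q : ℝ) • b} with hΛ
  have Λl : Λ ⊆ lat {0, 1} := by
    rintro _ ⟨p, q, rfl⟩
    exact lat_add (lat_zsmul ha p) (lat_zsmul hb q)
  set nf : P → P := fun y => ![Int.fract (y 0), Int.fract (ε ^ ⌊y 0⌋ * y 1)] with hnf
  have e1 : ∀ y, w y = w (nf y) + ((⌊ε ^ ⌊y 0⌋ * y 1⌋ : ℝ) • a + (⌊y 0⌋ : ℝ) • b) := fun y => by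
    rw [← add_assoc, ← ea', Int.fract_add_floor, ← eb', Int.fract_add_floor, ← mul_assoc, h.sq,
      one_mul]
    congr 1
    ext i; fin_cases i <;> rfl
  have hK : IsCompact (w '' Icc 0 1) := isCompact_Icc.image hw
  have sub : ∀ D ⊆ lat {0, 1}, w '' Icc 0 1 + D ⊆ H ⁻¹' (A ∪ B) := by
    rintro D hD _ ⟨_, ⟨y, -, rfl⟩, l, hl, rfl⟩
    show H (w y + l) ∈ A ∪ B
    rw [per_add hH _ (hD hl), ew]
    exact hm y
  intro l hl
  by_contra hn
  obtain ⟨z, -, ⟨_, ⟨y, -, rfl⟩, l1, ⟨p, q, rfl⟩, rfl⟩, _, ⟨y', -, rfl⟩, l2, hl2, e⟩ :=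
    isPreconnected_closed_iff.1 hc (w '' Icc 0 1 + Λ) (w '' Icc 0 1 + (lat {0, 1} \ Λ))
      ((closed_of_lat Λl).add_left_of_isCompact hK)
      ((closed_of_lat sdiff_subset).add_left_of_isCompact hK)
      (fun z hz => by
        obtain ⟨y, hy⟩ : H z ∈ range (gm g k ε) := h.range_gm ▸ hz
        have h1 : z - w (nf y) ∈ lat {0, 1} := by
          have h2 := lat_add ((hH.fib z (w y)).1 (by rw [ew, hy])) (Λl ⟨_, _, rfl⟩ :
            (⌊ε ^ ⌊y 0⌋ * y 1⌋ : ℝ) • a + (⌊y 0⌋ : ℝ) • b ∈ _)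
          rw [e1 y] at h2
          convert h2 using 1
          abel
        have h2 : w (nf y) ∈ w '' Icc 0 1 := mem_image_of_mem w ⟨fun i => by
          fin_cases i <;> exact Int.fract_nonneg _, fun i => by
          fin_cases i <;> exact (Int.fract_lt_one _).le⟩
        by_cases h3 : z - w (nf y) ∈ Λ
        · exact .inl ⟨_, h2, _, h3, by simp⟩
        · exact .inr ⟨_, h2, _, ⟨h1, h3⟩, by simp⟩)
      ⟨w 0 + 0, sub _ Λl (add_mem_add ⟨0, by simp, rfl⟩ ⟨0, 0, by simp⟩),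
        add_mem_add ⟨0, by simp, rfl⟩ ⟨0, 0, by simp⟩⟩
      ⟨w 0 + l, sub (_ \ Λ) sdiff_subset (add_mem_add ⟨0, by simp, rfl⟩ ⟨hl, hn⟩),
        add_mem_add ⟨0, by simp, rfl⟩ ⟨hl, hn⟩⟩
  simp only at e
  have h1 : gm g k ε y' = gm g k ε y := by
    rw [← ew, ← ew, ← per_add hH _ hl2.1, e, per_add hH _ (Λl ⟨p, q, rfl⟩)]
  obtain ⟨h2, m, h3⟩ := (h.gm_fib _ _).1 h1
  have h4 : nf y' = nf y := by
    simp only [hnf, h2, Int.fract_eq_fract.2 ⟨m, h3⟩]
  refine hl2.2 ⟨p + ⌊ε ^ ⌊y 0⌋ * y 1⌋ - ⌊ε ^ ⌊y' 0⌋ * y' 1⌋, q + ⌊y 0⌋ - ⌊y' 0⌋, ?_⟩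
  rw [e1 y, e1 y', h4] at e
  push_cast
  simp only [add_smul, sub_smul]
  linear_combination e

/-- **TOR (END)** -/
theorem tor_end {H : V → V} {S A B : Set V} {g k : P → V} (hH : Per {0, 1} H) (hS : S ⊆ range H)
    (hc : IsConnected (H ⁻¹' S)) (hA : Ann A g) (hB : Ann B k) (hU : A ∪ B = S)
    (hI : ∀ x ∈ A ∩ B, ∃ s, x = g ![1, s] ∨ x = g ![-1, s]) (h1 : ∀ s, k ![-1, s] = g ![1, s])
    (h2 : (∀ s, k ![1, s] = g ![-1, s]) ∨ ∀ s, k ![1, s] = g ![-1, -s]) :
    ∃ u : P → V, Continuous u ∧ Tor S (fun y => H (u y)) ∧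
      ∀ y m : P, lv 0 m ∈ lat {0, 1} → u (y + m) = u y + lv 0 m := by
  subst hU
  have l0 : (![1, 0, 0] : V) ∈ lat {0, 1} := fun i => by
    fin_cases i
    · exact ⟨fun _ => ⟨1, by simp⟩, by simp⟩
    · exact ⟨fun _ => ⟨0, by simp⟩, by simp⟩
    · simp
  have l1 : (![0, 1, 0] : V) ∈ lat {0, 1} := fun i => by
    fin_cases i
    · exact ⟨fun _ => ⟨0, by simp⟩, by simp⟩
    · exact ⟨fun _ => ⟨1, by simp⟩, by simp⟩
    · simp
  rcases h2 with h2 | h2
  swap
  · exfalso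
    have h : Dt A B g k (-1) := ⟨hA, hB, hI, h1, by simpa using h2, .inr rfl⟩
    obtain ⟨w, a, b, -, -, -, -, ea, eb, hl⟩ := h.lift hH hS hc.isPreconnected
    have a1 := ea 0 0 1
    have a2 := eb 0 1 1
    have a3 := eb 0 0 1
    have a4 := ea 1 0 (-1)
    simp only [zero_add, Int.cast_one, one_smul, zpow_one, mul_one, mul_zero, Int.cast_neg,
      neg_smul] at a1 a2 a3 a4
    have a5 : a = 0 := by
      have : (2 : ℝ) • a = 0 := by
        rw [two_smul]; linear_combination a4 - a1 - a2 + a3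
      simpa using this
    obtain ⟨p, q, e⟩ := hl _ l0
    obtain ⟨p', q', e'⟩ := hl _ l1
    have b0 := congrFun e 0
    have b1 := congrFun e 1
    have b2 := congrFun e' 1
    simp [a5] at b0 b1 b2
    rcases b1 with b1 | b1
    · simp [b1] at b0
    · simp [b1] at b2
  have h : Dt A B g k 1 := ⟨hA, hB, hI, h1, by simpa using h2, .inl rfl⟩
  obtain ⟨w, a, b, hw, ew, ha, hb, ea, eb, hl⟩ := h.lift hH hS hc.isPreconnected
  obtain ⟨p, q, e⟩ := hl _ l0
  obtain ⟨p', q', e'⟩ := hl _ l1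
  obtain ⟨a0, ha0⟩ := (ha 0).1 (by simp)
  obtain ⟨a1, ha1⟩ := (ha 1).1 (by simp)
  obtain ⟨b0, hb0⟩ := (hb 0).1 (by simp)
  obtain ⟨b1, hb1⟩ := (hb 1).1 (by simp)
  have r0 := congrFun e 0
  have r1 := congrFun e 1
  have r2 := congrFun e' 0
  have r3 := congrFun e' 1
  simp only [Matrix.cons_val_zero, Matrix.cons_val_one, Pi.add_apply, Pi.smul_apply, smul_eq_mul,
    ha0, ha1, hb0, hb1] at r0 r1 r2 r3
  have hMN : (!![(b0 : ℝ), a0; b1, a1] : Matrix (Fin 2) (Fin 2) ℝ) * !![(q : ℝ), q'; p, p'] = 1 := by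
    ext i j; fin_cases i <;> fin_cases j <;> simp [Matrix.mul_apply, Fin.sum_univ_two] <;> linarith
  have hNM := mul_eq_one_comm.1 hMN
  have s0 := congrFun (congrFun hNM 0) 0
  have s1 := congrFun (congrFun hNM 0) 1
  have s2 := congrFun (congrFun hNM 1) 0
  have s3 := congrFun (congrFun hNM 1) 1
  simp [Matrix.mul_apply, Fin.sum_univ_two] at s0 s1 s2 s3
  set N : P → P := fun y => ![q * y 0 + q' * y 1, p * y 0 + p' * y 1] with hN
  have pN : PLOn N univ := pl_vec2 (pl_add (pl_mul _ (pl_coord 0 _)) (pl_mul _ (pl_coord 1 _)))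
    (pl_add (pl_mul _ (pl_coord 0 _)) (pl_mul _ (pl_coord 1 _)))
  have eH : (fun y => H (w (N y))) = fun y => gm g k 1 (N y) := funext fun y => ew _
  refine ⟨fun y => w (N y), hw.comp (continuousOn_univ.1 pN.1), ?_, fun y m hm => ?_⟩
  · rw [eH]
    refine ⟨fun R => plOn_of_locPL (locPL_comp h.locPL (locPL_of_plOn pN univ) (mapsTo_univ _ _))
      (isCompact_closedBall 0 R) (subset_univ _), ?_, fun y y' => ?_⟩
    · rw [← h.range_gm]
      refine Subset.antisymm (range_comp_subset_range N (gm g k 1)) ?_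
      rintro _ ⟨x, rfl⟩
      refine ⟨![b0 * x 0 + a0 * x 1, b1 * x 0 + a1 * x 1], congrArg _ ?_⟩
      ext i; fin_cases i <;> simp [hN]
      · linear_combination x 0 * s0 + x 1 * s1
      · linear_combination x 0 * s2 + x 1 * s3
    · rw [h.gm_fib, Int.fract_eq_fract]
      simp only [hN, one_zpow, one_mul, Matrix.cons_val_zero, Matrix.cons_val_one, Fin.forall_fin_two]
      constructor
      · rintro ⟨⟨m, hm⟩, n, hn⟩
        refine ⟨⟨b0 * m + a0 * n, ?_⟩, b1 * m + a1 * n, ?_⟩ <;> push_cast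
        · linear_combination b0 * hm + a0 * hn + (y 0 - y' 0) * r0 + (y 1 - y' 1) * r2
        · linear_combination b1 * hm + a1 * hn + (y 0 - y' 0) * r1 + (y 1 - y' 1) * r3
      · rintro ⟨⟨m, hm⟩, n, hn⟩
        refine ⟨⟨q * m + q' * n, ?_⟩, p * m + p' * n, ?_⟩ <;> push_cast
        · linear_combination q * hm + q' * hn
        · linear_combination p * hm + p' * hn
  · obtain ⟨m0, hm0⟩ := (hm 0).1 (by simp)
    obtain ⟨m1, hm1⟩ := (hm 1).1 (by simp)
    simp only [lv, Matrix.cons_val_zero, Matrix.cons_val_one] at hm0 hm1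
    have c1 := eb (N y 0) (N y 1 + (p * m0 + p' * m1 : ℤ)) (q * m0 + q' * m1)
    rw [ea, one_zpow, one_mul] at c1
    have c2 : N (y + m) = ![N y 0 + (q * m0 + q' * m1 : ℤ), N y 1 + (p * m0 + p' * m1 : ℤ)] := by
      ext i; fin_cases i <;> simp [hN, hm0, hm1] <;> ring
    have c3 : (![N y 0, N y 1] : P) = N y := by ext i; fin_cases i <;> rfl
    have c4 : lv 0 m = (m0 : ℝ) • (![1, 0, 0] : V) + (m1 : ℝ) • ![0, 1, 0] := by
      ext i; fin_cases i <;> simp [lv, hm0, hm1]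
    simp only
    rw [c2, c1, c3, c4, e, e']
    push_cast
    module

end Crest.Agent.X212.Lad50.Te
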